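import Vale.Agent.Lib.P090.Ineq

/-!
# The contradiction: no fold with a small constant exists on a piece over a chain.
-/

set_option linter.unusedSectionVars false

namespace Vale.Agent.Lib.P090

open Finset

/-- The summation by parts at the heart of the argument. -/
lemma abel_aux (t a : ℕ → ℝ) (ht : ∀ k, 2 * t k ≤ t (k + 1)) (ht0 : 0 ≤ t 0) (ha : ∀ k, 0 ≤ a k)
    (K : ℕ) :
    (1 / 2) * ∑ k ∈ range (K + 1), t k * a k
      ≤ ∑ k ∈ range K, t k * (a k - a (k + 1)) + t K * a K := by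
  have htn : ∀ k, 0 ≤ t k := by
    intro k
    induction k with
    | zero => exact ht0
    | succ k ih => linarith [ht k]
  induction K with
  | zero =>
    simp only [zero_add, range_one, sum_singleton, range_zero, sum_empty]
    nlinarith [mul_nonneg (htn 0) (ha 0)]
  | succ K ih =>
    rw [sum_range_succ (fun k => t k * a k) (K + 1), sum_range_succ (fun k => t k * (a k - a (k + 1))) K]
    have h := mul_le_mul_of_nonneg_right (ht K) (ha (K + 1))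
    have e1 : t K * (a K - a (K + 1)) = t K * a K - t K * a (K + 1) := by ring
    rw [e1]
    linarith

/-- The abstract chain estimate: a function which is close to a constant on every `C k` and
vanishes on the top level has small total sum. -/
lemma abel_chain {Y : Type} [DecidableEq Y] (J : ℕ → Finset Y) (K₀ : ℕ) (m₀ : Y → ℝ)
    (hm₀ : ∀ y ∈ J K₀, m₀ y = 0) (f : ℕ → ℝ)
    (hdoub : ∀ k, 2 * (J k).card ≤ (J (k + 1)).card) (E : ℝ)
    (hE : ∑ k ∈ range (K₀ + 1), ∑ y ∈ J k, |m₀ y - f k|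
        + ∑ k ∈ range K₀, ∑ y ∈ J k, |m₀ y - f (k + 1)| ≤ E) :
    ∑ k ∈ range K₀, ∑ y ∈ J k, m₀ y ≤ 3 * E := by
  set t : ℕ → ℝ := fun k => ((J k).card : ℝ) with ht
  set a : ℕ → ℝ := fun k => |f k| with ha
  set e : ℕ → ℝ := fun k => ∑ y ∈ J k, |m₀ y - f k| with he
  set e' : ℕ → ℝ := fun k => ∑ y ∈ J k, |m₀ y - f (k + 1)| with he'
  have htd : ∀ k, 2 * t k ≤ t (k + 1) := by
    intro k
    simp only [ht]
    exact_mod_cast hdoub k
  have ha0 : ∀ k, 0 ≤ a k := fun k => abs_nonneg _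
  have hstep : ∀ k, t k * (a k - a (k + 1)) ≤ e k + e' k := by
    intro k
    simp only [ht, ha, he, he']
    rw [← sum_add_distrib, ← nsmul_eq_mul, ← sum_const]
    apply sum_le_sum
    intro y _
    have h1 : |f k| - |f (k + 1)| ≤ |f k - f (k + 1)| := abs_sub_abs_le_abs_sub _ _
    have h2 : |f k - f (k + 1)| ≤ |m₀ y - f k| + |m₀ y - f (k + 1)| := by
      have : f k - f (k + 1) = (m₀ y - f (k + 1)) - (m₀ y - f k) := by ring
      rw [this]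
      refine (abs_sub _ _).trans ?_
      linarith
    linarith
  have htop : t K₀ * a K₀ ≤ e K₀ := by
    simp only [ht, ha, he]
    rw [← nsmul_eq_mul, ← sum_const]
    apply le_of_eq
    apply sum_congr rfl
    intro y hy
    rw [hm₀ y hy, zero_sub, abs_neg]
  have habel := abel_aux t a htd (Nat.cast_nonneg _) ha0 K₀
  have hE' : ∑ k ∈ range (K₀ + 1), e k + ∑ k ∈ range K₀, e' k ≤ E := hE
  have hS : ∑ k ∈ range K₀, t k * (a k - a (k + 1)) + t K₀ * a K₀ ≤ E := by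
    have h1 : ∑ k ∈ range K₀, t k * (a k - a (k + 1))
        ≤ ∑ k ∈ range K₀, (e k + e' k) := sum_le_sum (fun k _ => hstep k)
    rw [sum_add_distrib] at h1
    rw [sum_range_succ] at hE'
    linarith
  have hsum : ∑ k ∈ range (K₀ + 1), t k * a k ≤ 2 * E := by linarith
  have hterm : ∀ k, ∑ y ∈ J k, m₀ y ≤ e k + t k * a k := by
    intro k
    simp only [ht, ha, he]
    rw [← nsmul_eq_mul, ← sum_const, ← sum_add_distrib]
    apply sum_le_sum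
    intro y _
    have h1 : m₀ y = (m₀ y - f k) + f k := by ring
    have h2 := le_abs_self (m₀ y - f k)
    have h3 := le_abs_self (f k)
    linarith
  have hnn : ∀ k, 0 ≤ t k * a k := fun k => mul_nonneg (Nat.cast_nonneg _) (ha0 k)
  have hnne : ∀ k, 0 ≤ e k := fun k => sum_nonneg (fun _ _ => abs_nonneg _)
  have hnne' : ∀ k, 0 ≤ e' k := fun k => sum_nonneg (fun _ _ => abs_nonneg _)
  calc ∑ k ∈ range K₀, ∑ y ∈ J k, m₀ y ≤ ∑ k ∈ range K₀, (e k + t k * a k) :=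
        sum_le_sum (fun k _ => hterm k)
    _ = ∑ k ∈ range K₀, e k + ∑ k ∈ range K₀, t k * a k := sum_add_distrib
    _ ≤ ∑ k ∈ range (K₀ + 1), e k + ∑ k ∈ range (K₀ + 1), t k * a k := by
        apply add_le_add
        · rw [sum_range_succ]; linarith [hnne K₀]
        · rw [sum_range_succ]; linarith [hnn K₀]
    _ ≤ E + 2 * E := by
        apply add_le_add _ hsum
        have : 0 ≤ ∑ k ∈ range K₀, e' k := sum_nonneg (fun k _ => hnne' k)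
        linarith
    _ = 3 * E := by ring

lemma swap3 {α β γ : Type} (s : Finset α) (t : Finset β) (r : Finset γ) (φ : α → β → γ → ℝ) :
    ∑ a ∈ s, ∑ b ∈ t, ∑ c ∈ r, φ a b c = ∑ b ∈ t, ∑ c ∈ r, ∑ a ∈ s, φ a b c := by
  rw [sum_comm]
  refine sum_congr rfl (fun b _ => ?_)
  rw [sum_comm]

lemma swap4 {α β γ δ : Type} (s : Finset α) (t : Finset β) (r : Finset γ) (q : Finset δ)
    (φ : α → β → γ → δ → ℝ) :
    ∑ a ∈ s, ∑ b ∈ t, ∑ c ∈ r, ∑ d ∈ q, φ a b c d = ∑ b ∈ t, ∑ c ∈ r, ∑ d ∈ q, ∑ a ∈ s, φ a b c d := by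
  rw [sum_comm]
  refine sum_congr rfl (fun b _ => ?_)
  rw [swap3]

lemma sqrt_combo {X Y A G M : ℝ} (hX0 : 0 ≤ X) (hY0 : 0 ≤ Y) (hA : 0 ≤ A) (hG : 0 ≤ G) (hM : 0 ≤ M)
    (hX : X ≤ A * G) (hY : Y ≤ A * M) : √X * √Y ≤ √(G * M) * A := by
  rw [← Real.sqrt_mul hX0]
  have h1 : X * Y ≤ (G * M) * (A * A) := by
    calc X * Y ≤ (A * G) * (A * M) := mul_le_mul hX hY hY0 (by positivity)
      _ = _ := by ring
  calc √(X * Y) ≤ √((G * M) * (A * A)) := Real.sqrt_le_sqrt h1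
    _ = _ := by
      rw [Real.sqrt_mul (by positivity), Real.sqrt_mul_self hA]

/-- The data over a chain of components. -/
structure Chain {L V Y : Type} [Fintype L] [Fintype V] [DecidableEq Y] (S : Setup L V Y) where
  par : L → ℕ
  J : ℕ → Finset Y
  level : Y → ℕ
  mem_J : ∀ k y, y ∈ J k ↔ level y = k
  level_letter : ∀ l y, level (S.aY l y) ≤ level y + 1
  C : ℕ → Finset Y
  C_zero : C 0 = J 0
  C_succ : ∀ k, C (k + 1) = J (k + 1) ∪ J k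
  doubling : ∀ k, 2 * (J k).card ≤ (J (k + 1)).card
  pos : ∀ k, 0 < (J k).card
  c1 : ℕ
  ratio : ∀ k, 2 * (C k).card + (C (k + 1)).card ≤ c1 * (J k).card
  Lc : ℕ
  Lp_card : ∀ n : ℕ, (univ.filter (fun l => par l = n % 2)).card ≤ Lc
  Kap : ℝ
  Kap_nonneg : 0 ≤ Kap
  H3 : ∀ (n k : ℕ), n ≠ k → k % 2 = n % 2 → ∀ u : V → Y → Y → ℝ, ∃ ub : V → ℝ,
    ∑ v, ∑ y₀ ∈ C n, ∑ y ∈ C k, |u v y₀ y - ub v| ≤ Kap *
      √((∑ l ∈ univ.filter (fun l => par l = n % 2), ∑ v, ∑ y₀ ∈ C n, ∑ y ∈ C k,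
          |u (S.aV l v) (S.aY l y₀) (S.aY l y) - u v y₀ y|) *
        ∑ v, ∑ y₀ ∈ C n, ∑ y ∈ C k, |u v y₀ y|)
  H2 : ∀ (n : ℕ) (a : V) (u : V → Y → ℝ), (∀ v y₀, S.R0 ≤ S.DV v a → u v y₀ = 0) →
    ∑ v, ∑ y₀ ∈ C n, |u v y₀| ≤ Kap *
      √((∑ l ∈ univ.filter (fun l => par l = n % 2), ∑ v, ∑ y₀ ∈ C n,
          |u (S.aV l v) (S.aY l y₀) - u v y₀|) *
        ∑ v, ∑ y₀ ∈ C n, |u v y₀|)

namespace Chain

variable {L V Y : Type} [Fintype L] [Fintype V] [DecidableEq Y] [DecidableEq V]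
  {S : Setup L V Y} (Ch : Chain S)

lemma mem_C (k : ℕ) (y : Y) : y ∈ Ch.C k ↔ Ch.level y = k ∨ Ch.level y + 1 = k := by
  cases k with
  | zero =>
    rw [Ch.C_zero, Ch.mem_J]
    omega
  | succ k =>
    rw [Ch.C_succ, mem_union, Ch.mem_J, Ch.mem_J]
    omega

lemma J_subset_C (k : ℕ) : Ch.J k ⊆ Ch.C k := by
  intro y hy
  rw [Ch.mem_J] at hy
  rw [Ch.mem_C]
  exact Or.inl hy

lemma J_subset_C_succ (k : ℕ) : Ch.J k ⊆ Ch.C (k + 1) := by
  intro y hy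
  rw [Ch.mem_J] at hy
  rw [Ch.mem_C]
  exact Or.inr (by omega)

lemma disjoint_C {k k' : ℕ} (hne : k ≠ k') (hpar : k % 2 = k' % 2) :
    Disjoint (Ch.C k) (Ch.C k') := by
  rw [Finset.disjoint_left]
  intro y h1 h2
  rw [Ch.mem_C] at h1 h2
  omega

lemma level_evalW (u : List L) (y : Y) : Ch.level (evalW S.aY u y) ≤ Ch.level y + u.length := by
  induction u with
  | nil => simp
  | cons l u ih =>
    simp only [evalW_cons, List.length_cons]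
    have := Ch.level_letter l (evalW S.aY u y)
    omega

variable {B : Finset S.Pt} {c : S.Pt → S.Pt → ℝ} {Lam : ℝ}

/-- The summed bound on the deviations over the sheets. -/
lemma sheet_sum (F : S.Fold B c Lam) (hLam : 0 ≤ Lam) (p : ℕ) (Ks : Finset ℕ) (f : V → ℕ → ℝ)
    (hKs : ∀ k ∈ Ks, k % 2 = p % 2)
    (hf : ∀ k ∈ Ks, ∑ v, ∑ y₀ ∈ Ch.C p, ∑ y ∈ Ch.C k, |S.mY B c (v, y₀) y - f v k| ≤ Ch.Kap *
      √((∑ l ∈ univ.filter (fun l => Ch.par l = p % 2), ∑ v, ∑ y₀ ∈ Ch.C p, ∑ y ∈ Ch.C k,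
          |S.mY B c (S.aV l v, S.aY l y₀) (S.aY l y) - S.mY B c (v, y₀) y|) *
        ∑ v, ∑ y₀ ∈ Ch.C p, ∑ y ∈ Ch.C k, |S.mY B c (v, y₀) y|)) :
    ∑ v, ∑ y₀ ∈ Ch.C p, ∑ k ∈ Ks, ∑ y ∈ Ch.C k, |S.mY B c (v, y₀) y - f v k|
      ≤ (Ch.Kap * √(Ch.Lc * ((2 * Lam + 1) / S.rho) * (3 * Lam + 2)))
        * ((Fintype.card V : ℝ) * (Ch.C p).card) := by
  have hρ := S.rho_real_pos
  set A : ℝ := (Fintype.card V : ℝ) * (Ch.C p).card with hA
  have hA0 : 0 ≤ A := by positivity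
  set Gr : ℝ := (2 * Lam + 1) / S.rho with hGr
  have hGr0 : 0 ≤ Gr := by positivity
  set Γ : ℕ → ℝ := fun k => ∑ l ∈ univ.filter (fun l => Ch.par l = p % 2), ∑ v, ∑ y₀ ∈ Ch.C p,
      ∑ y ∈ Ch.C k, |S.mY B c (S.aV l v, S.aY l y₀) (S.aY l y) - S.mY B c (v, y₀) y| with hΓ
  set Ms : ℕ → ℝ := fun k => ∑ v, ∑ y₀ ∈ Ch.C p, ∑ y ∈ Ch.C k, |S.mY B c (v, y₀) y| with hMs
  have hΓ0 : ∀ k, 0 ≤ Γ k := fun k =>
    sum_nonneg fun _ _ => sum_nonneg fun _ _ => sum_nonneg fun _ _ => sum_nonneg fun _ _ =>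
      abs_nonneg _
  have hMs0 : ∀ k, 0 ≤ Ms k := fun k =>
    sum_nonneg fun _ _ => sum_nonneg fun _ _ => sum_nonneg fun _ _ => abs_nonneg _
  have hdisj : (Ks : Set ℕ).PairwiseDisjoint Ch.C := by
    intro k hk k' hk' hne
    exact Ch.disjoint_C hne ((hKs k hk).trans (hKs k' hk').symm)
  -- the sum of the masses
  have hMsum : ∑ k ∈ Ks, Ms k ≤ A * (3 * Lam + 2) := by
    simp only [hMs]
    rw [swap3]
    calc _ ≤ ∑ _v : V, ∑ _y₀ ∈ Ch.C p, (3 * Lam + 2) := by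
          refine sum_le_sum fun v _ => sum_le_sum fun y₀ _ => ?_
          rw [← sum_biUnion hdisj]
          have := Setup.I1 F hLam (v, y₀) (Ks.biUnion Ch.C)
          linarith
      _ = _ := by
          simp only [sum_const, card_univ, nsmul_eq_mul]
          rw [hA]
          ring
  -- the sum of the gradients
  have hΓsum : ∑ k ∈ Ks, Γ k ≤ A * (Ch.Lc * Gr) := by
    simp only [hΓ]
    rw [swap4]
    calc _ ≤ ∑ _l ∈ univ.filter (fun l => Ch.par l = p % 2), ∑ _v : V, ∑ _y₀ ∈ Ch.C p, Gr := by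
          refine sum_le_sum fun l _ => sum_le_sum fun v _ => sum_le_sum fun y₀ _ => ?_
          rw [← sum_biUnion hdisj]
          exact Setup.I2 F hLam l (v, y₀) (Ks.biUnion Ch.C)
      _ = ((univ.filter (fun l => Ch.par l = p % 2)).card : ℝ) * (A * Gr) := by
          simp only [sum_const, card_univ, nsmul_eq_mul]
          rw [hA]
          ring
      _ ≤ (Ch.Lc : ℝ) * (A * Gr) := by
          gcongr
          exact_mod_cast Ch.Lp_card p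
      _ = _ := by ring
  have hmain : ∑ k ∈ Ks, √(Γ k) * √(Ms k) ≤ √(Ch.Lc * Gr * (3 * Lam + 2)) * A := by
    refine (Real.sum_sqrt_mul_sqrt_le Ks hΓ0 hMs0).trans ?_
    exact sqrt_combo (sum_nonneg fun k _ => hΓ0 k) (sum_nonneg fun k _ => hMs0 k) hA0
      (by positivity) (by positivity) hΓsum hMsum
  have hrw : ∑ v, ∑ y₀ ∈ Ch.C p, ∑ k ∈ Ks, ∑ y ∈ Ch.C k, |S.mY B c (v, y₀) y - f v k|
      = ∑ k ∈ Ks, ∑ v, ∑ y₀ ∈ Ch.C p, ∑ y ∈ Ch.C k, |S.mY B c (v, y₀) y - f v k| :=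
    (swap3 Ks univ (Ch.C p) (fun k v y₀ => ∑ y ∈ Ch.C k, |S.mY B c (v, y₀) y - f v k|)).symm
  rw [hrw]
  calc _ ≤ ∑ k ∈ Ks, Ch.Kap * (√(Γ k) * √(Ms k)) := by
        refine sum_le_sum fun k hk => ?_
        rw [← Real.sqrt_mul (hΓ0 k)]
        exact hf k hk
    _ = Ch.Kap * ∑ k ∈ Ks, √(Γ k) * √(Ms k) := by rw [mul_sum]
    _ ≤ Ch.Kap * (√(Ch.Lc * Gr * (3 * Lam + 2)) * A) :=
        mul_le_mul_of_nonneg_left hmain Ch.Kap_nonneg
    _ = _ := by ring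

/-- The hub mass vanishes far from the hub. -/
lemma mA_eq_zero {z : V × Y} {a : V} (h : S.R0 ≤ S.DV z.1 a) : S.mA B c z a = 0 := by
  unfold Setup.mA Setup.Pr
  apply sum_eq_zero
  intro w _
  rcases w with z' | b
  · simp [Setup.H']
  · have h1 : S.g z.1 a = 0 := S.g_eq_zero (by rw [S.DV_comm]; exact h)
    simp [Setup.H', h1]

/-- The summed bound on the hub masses. -/
lemma hub_sum (F : S.Fold B c Lam) (hLam : 0 ≤ Lam) (p : ℕ) :
    ∑ v, ∑ y₀ ∈ Ch.C p, ∑ a ∈ S.A, |S.mA B c (v, y₀) a|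
      ≤ (Ch.Kap * √(Ch.Lc * ((2 * Lam + 1) / S.rho) * (3 * Lam + 2)))
        * ((Fintype.card V : ℝ) * (Ch.C p).card) := by
  have hρ := S.rho_real_pos
  set A : ℝ := (Fintype.card V : ℝ) * (Ch.C p).card with hA
  have hA0 : 0 ≤ A := by positivity
  set Gr : ℝ := (2 * Lam + 1) / S.rho with hGr
  have hGr0 : 0 ≤ Gr := by positivity
  set Γ : V → ℝ := fun a => ∑ l ∈ univ.filter (fun l => Ch.par l = p % 2), ∑ v, ∑ y₀ ∈ Ch.C p,
      |S.mA B c (S.aV l v, S.aY l y₀) a - S.mA B c (v, y₀) a| with hΓ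
  set Ms : V → ℝ := fun a => ∑ v, ∑ y₀ ∈ Ch.C p, |S.mA B c (v, y₀) a| with hMs
  have hΓ0 : ∀ k, 0 ≤ Γ k := fun k =>
    sum_nonneg fun _ _ => sum_nonneg fun _ _ => sum_nonneg fun _ _ => abs_nonneg _
  have hMs0 : ∀ k, 0 ≤ Ms k := fun k =>
    sum_nonneg fun _ _ => sum_nonneg fun _ _ => abs_nonneg _
  have hMsum : ∑ a ∈ S.A, Ms a ≤ A * (3 * Lam + 2) := by
    simp only [hMs]
    rw [swap3]
    calc _ ≤ ∑ _v : V, ∑ _y₀ ∈ Ch.C p, (3 * Lam + 2) := by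
          refine sum_le_sum fun v _ => sum_le_sum fun y₀ _ => ?_
          exact Setup.I3a F hLam (v, y₀)
      _ = _ := by
          simp only [sum_const, card_univ, nsmul_eq_mul]
          rw [hA]
          ring
  have hΓsum : ∑ a ∈ S.A, Γ a ≤ A * (Ch.Lc * Gr) := by
    simp only [hΓ]
    rw [swap4]
    calc _ ≤ ∑ _l ∈ univ.filter (fun l => Ch.par l = p % 2), ∑ _v : V, ∑ _y₀ ∈ Ch.C p, Gr := by
          refine sum_le_sum fun l _ => sum_le_sum fun v _ => sum_le_sum fun y₀ _ => ?_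
          exact Setup.I3b F hLam l (v, y₀)
      _ = ((univ.filter (fun l => Ch.par l = p % 2)).card : ℝ) * (A * Gr) := by
          simp only [sum_const, card_univ, nsmul_eq_mul]
          rw [hA]
          ring
      _ ≤ (Ch.Lc : ℝ) * (A * Gr) := by
          gcongr
          exact_mod_cast Ch.Lp_card p
      _ = _ := by ring
  have hmain : ∑ a ∈ S.A, √(Γ a) * √(Ms a) ≤ √(Ch.Lc * Gr * (3 * Lam + 2)) * A := by
    refine (Real.sum_sqrt_mul_sqrt_le S.A hΓ0 hMs0).trans ?_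
    exact sqrt_combo (sum_nonneg fun k _ => hΓ0 k) (sum_nonneg fun k _ => hMs0 k) hA0
      (by positivity) (by positivity) hΓsum hMsum
  have hrw : ∑ v, ∑ y₀ ∈ Ch.C p, ∑ a ∈ S.A, |S.mA B c (v, y₀) a|
      = ∑ a ∈ S.A, ∑ v, ∑ y₀ ∈ Ch.C p, |S.mA B c (v, y₀) a| :=
    (swap3 S.A univ (Ch.C p) (fun a v y₀ => |S.mA B c (v, y₀) a|)).symm
  rw [hrw]
  calc _ ≤ ∑ a ∈ S.A, Ch.Kap * (√(Γ a) * √(Ms a)) := by
        refine sum_le_sum fun a _ => ?_
        rw [← Real.sqrt_mul (hΓ0 a)]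
        exact Ch.H2 p a (fun v y₀ => S.mA B c (v, y₀) a) (fun v y₀ h => mA_eq_zero h)
    _ = Ch.Kap * ∑ a ∈ S.A, √(Γ a) * √(Ms a) := by rw [mul_sum]
    _ ≤ Ch.Kap * (√(Ch.Lc * Gr * (3 * Lam + 2)) * A) :=
        mul_le_mul_of_nonneg_left hmain Ch.Kap_nonneg
    _ = _ := by ring

lemma sum_D_eq (m₀ : Y → ℝ) (f : ℕ → ℝ) (K : ℕ) :
    ∑ k ∈ range (K + 1), ∑ y ∈ Ch.C k, |m₀ y - f k|
      = ∑ k ∈ range (K + 1), ∑ y ∈ Ch.J k, |m₀ y - f k|
        + ∑ k ∈ range K, ∑ y ∈ Ch.J k, |m₀ y - f (k + 1)| := by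
  induction K with
  | zero => simp [Ch.C_zero]
  | succ K ih =>
    rw [sum_range_succ, ih, sum_range_succ (fun k => ∑ y ∈ Ch.J k, |m₀ y - f k|) (K + 1),
      sum_range_succ (fun k => ∑ y ∈ Ch.J k, |m₀ y - f (k + 1)|) K, Ch.C_succ, sum_union]
    · ring
    · rw [Finset.disjoint_left]
      intro y h1 h2
      rw [Ch.mem_J] at h1 h2
      omega

/-- There is no fold with a constant small compared with `√ρ`. -/
theorem no_fold [Nonempty V] (F : S.Fold B c Lam) (hLam : 0 ≤ Lam) (hρ : 2 * Lam + 1 ≤ S.rho)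
    (hsmall : 3 * (Ch.c1 : ℝ) * (Ch.Kap * √(Ch.Lc * ((2 * Lam + 1) / S.rho) * (3 * Lam + 2)))
      < 1 / 2) : False := by
  classical
  have hρ1 := S.rho_real_pos
  set τ : ℝ := Ch.Kap * √(Ch.Lc * ((2 * Lam + 1) / S.rho) * (3 * Lam + 2)) with hτ
  have hτ0 : 0 ≤ τ := mul_nonneg Ch.Kap_nonneg (Real.sqrt_nonneg _)
  -- the level bound of the support
  set J' : ℕ := B.sup (fun w => match w with
    | Sum.inl z => Ch.level z.2
    | Sum.inr _ => 0) with hJ'def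
  have hJ' : ∀ z' : V × Y, Sum.inl z' ∈ B → Ch.level z'.2 ≤ J' := by
    intro z' hz'
    exact Finset.le_sup (f := fun w : S.Pt => match w with
      | Sum.inl z => Ch.level z.2
      | Sum.inr _ => 0) hz'
  set K₀ : ℕ := J' + S.R0 + 1 with hK₀
  set n : ℕ := K₀ + 1 with hn
  have hlev : ∀ (z z' : V × Y), Sum.inl z' ∈ B → S.g z.1 z'.1 ≠ 0 →
      Ch.level (S.lab z.1 z') < K₀ := by
    intro z z' hz' hg
    have hd : S.DV z'.1 z.1 ≤ S.R0 := by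
      by_contra hcon
      exact hg (S.g_eq_zero (by omega))
    obtain ⟨u, hu, he⟩ := S.lab_word hd
    rw [he]
    have h1 := Ch.level_evalW u z'.2
    have h2 := hJ' z' hz'
    omega
  have hvan : ∀ (z : V × Y) (y : Y), K₀ ≤ Ch.level y → S.mY B c z y = 0 := by
    intro z y hy
    unfold Setup.mY Setup.Pr
    apply sum_eq_zero
    intro w hw
    rcases w with z' | b
    · by_cases hg : S.g z.1 z'.1 = 0
      · simp [Setup.H, hg]
      · have h1 := hlev z z' hw hg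
        have h2 : S.lab z.1 z' ≠ y := by
          intro h3
          rw [h3] at h1
          omega
        simp [Setup.H, h2]
    · simp [Setup.H]
  -- the constants
  have hex : ∀ k : ℕ, ∃ ub : V → ℝ, k ≤ K₀ →
      ∑ v, ∑ y₀ ∈ Ch.C (if k % 2 = n % 2 then n else n + 1), ∑ y ∈ Ch.C k,
        |S.mY B c (v, y₀) y - ub v| ≤ Ch.Kap *
      √((∑ l ∈ univ.filter (fun l => Ch.par l = (if k % 2 = n % 2 then n else n + 1) % 2), ∑ v,
          ∑ y₀ ∈ Ch.C (if k % 2 = n % 2 then n else n + 1), ∑ y ∈ Ch.C k,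
          |S.mY B c (S.aV l v, S.aY l y₀) (S.aY l y) - S.mY B c (v, y₀) y|) *
        ∑ v, ∑ y₀ ∈ Ch.C (if k % 2 = n % 2 then n else n + 1), ∑ y ∈ Ch.C k,
          |S.mY B c (v, y₀) y|) := by
    intro k
    by_cases hk : k ≤ K₀
    · obtain ⟨ub, hub⟩ := Ch.H3 (if k % 2 = n % 2 then n else n + 1) k
        (by split_ifs <;> omega) (by split_ifs <;> omega)
        (fun v y₀ y => S.mY B c (v, y₀) y)
      exact ⟨ub, fun _ => hub⟩
    · exact ⟨fun _ => 0, fun h => absurd h hk⟩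
  choose f0 hf using hex
  set f : V → ℕ → ℝ := fun v k => f0 k v with hfdef
  set Ks : Finset ℕ := (range (K₀ + 1)).filter (fun k => k % 2 = n % 2) with hKs
  set Ks' : Finset ℕ := (range (K₀ + 1)).filter (fun k => ¬ k % 2 = n % 2) with hKs'
  have h1 := Ch.sheet_sum F hLam n Ks f
    (fun k hk => (mem_filter.mp hk).2)
    (fun k hk => by
      have h3 := mem_filter.mp hk
      have h4 := hf k (by have := mem_range.mp h3.1; omega)
      rw [if_pos h3.2] at h4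
      exact h4)
  have h2 := Ch.sheet_sum F hLam (n + 1) Ks' f
    (fun k hk => by
      have h3 := mem_filter.mp hk
      omega)
    (fun k hk => by
      have h3 := mem_filter.mp hk
      have h4 := hf k (by have := mem_range.mp h3.1; omega)
      rw [if_neg h3.2] at h4
      exact h4)
  have h3 := Ch.hub_sum F hLam n
  -- the good point
  set Φ : V × Y → ℝ := fun z =>
    ∑ k ∈ Ks, ∑ y ∈ Ch.C k, |S.mY B c (z.1, z.2) y - f z.1 k|
    + ∑ k ∈ Ks', ∑ y ∈ Ch.C k, |S.mY B c (z.1, z.2) y - f z.1 k|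
    + ∑ a ∈ S.A, |S.mA B c (z.1, z.2) a| with hΦ
  have hΩ : ((univ : Finset V) ×ˢ Ch.J n).Nonempty :=
    (univ_nonempty).product (Finset.card_pos.mp (Ch.pos n))
  have hsum : ∑ z ∈ (univ : Finset V) ×ˢ Ch.J n, Φ z
      ≤ ∑ _z ∈ (univ : Finset V) ×ˢ Ch.J n, (τ * Ch.c1) := by
    rw [sum_product, sum_product (univ : Finset V) (Ch.J n) (fun _ => τ * (Ch.c1 : ℝ))]
    simp only [hΦ]
    have e1 : ∑ v, ∑ y₀ ∈ Ch.J n, ∑ k ∈ Ks, ∑ y ∈ Ch.C k, |S.mY B c (v, y₀) y - f v k|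
        ≤ ∑ v, ∑ y₀ ∈ Ch.C n, ∑ k ∈ Ks, ∑ y ∈ Ch.C k, |S.mY B c (v, y₀) y - f v k| :=
      sum_le_sum fun v _ => sum_le_sum_of_subset_of_nonneg (Ch.J_subset_C n)
        (fun _ _ _ => sum_nonneg fun _ _ => sum_nonneg fun _ _ => abs_nonneg _)
    have e2 : ∑ v, ∑ y₀ ∈ Ch.J n, ∑ k ∈ Ks', ∑ y ∈ Ch.C k, |S.mY B c (v, y₀) y - f v k|
        ≤ ∑ v, ∑ y₀ ∈ Ch.C (n + 1), ∑ k ∈ Ks', ∑ y ∈ Ch.C k, |S.mY B c (v, y₀) y - f v k| :=
      sum_le_sum fun v _ => sum_le_sum_of_subset_of_nonneg (Ch.J_subset_C_succ n)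
        (fun _ _ _ => sum_nonneg fun _ _ => sum_nonneg fun _ _ => abs_nonneg _)
    have e3 : ∑ v, ∑ y₀ ∈ Ch.J n, ∑ a ∈ S.A, |S.mA B c (v, y₀) a|
        ≤ ∑ v, ∑ y₀ ∈ Ch.C n, ∑ a ∈ S.A, |S.mA B c (v, y₀) a| :=
      sum_le_sum fun v _ => sum_le_sum_of_subset_of_nonneg (Ch.J_subset_C n)
        (fun _ _ _ => sum_nonneg fun _ _ => abs_nonneg _)
    have e4 : ∑ v, ∑ y₀ ∈ Ch.J n, (∑ k ∈ Ks, ∑ y ∈ Ch.C k, |S.mY B c (v, y₀) y - f v k|
        + ∑ k ∈ Ks', ∑ y ∈ Ch.C k, |S.mY B c (v, y₀) y - f v k|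
        + ∑ a ∈ S.A, |S.mA B c (v, y₀) a|)
        = ∑ v, ∑ y₀ ∈ Ch.J n, ∑ k ∈ Ks, ∑ y ∈ Ch.C k, |S.mY B c (v, y₀) y - f v k|
        + ∑ v, ∑ y₀ ∈ Ch.J n, ∑ k ∈ Ks', ∑ y ∈ Ch.C k, |S.mY B c (v, y₀) y - f v k|
        + ∑ v, ∑ y₀ ∈ Ch.J n, ∑ a ∈ S.A, |S.mA B c (v, y₀) a| := by
      simp only [sum_add_distrib]
    rw [e4]
    have e5 : τ * ((Fintype.card V : ℝ) * (Ch.C n).card)
        + τ * ((Fintype.card V : ℝ) * (Ch.C (n + 1)).card)
        + τ * ((Fintype.card V : ℝ) * (Ch.C n).card)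
        ≤ ∑ _v : V, ∑ _y₀ ∈ Ch.J n, (τ * Ch.c1) := by
      simp only [sum_const, card_univ, nsmul_eq_mul]
      have h6 : ((2 * (Ch.C n).card + (Ch.C (n + 1)).card : ℕ) : ℝ)
          ≤ ((Ch.c1 * (Ch.J n).card : ℕ) : ℝ) := by exact_mod_cast Ch.ratio n
      push_cast at h6
      have h7 : (0 : ℝ) ≤ Fintype.card V := Nat.cast_nonneg _
      have h8 := mul_le_mul_of_nonneg_left h6 (mul_nonneg hτ0 h7)
      nlinarith [h8]
    have e6 : ∑ v, ∑ y₀ ∈ Ch.J n, ∑ k ∈ Ks, ∑ y ∈ Ch.C k, |S.mY B c (v, y₀) y - f v k|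
        ≤ τ * ((Fintype.card V : ℝ) * (Ch.C n).card) := e1.trans h1
    have e7 : ∑ v, ∑ y₀ ∈ Ch.J n, ∑ k ∈ Ks', ∑ y ∈ Ch.C k, |S.mY B c (v, y₀) y - f v k|
        ≤ τ * ((Fintype.card V : ℝ) * (Ch.C (n + 1)).card) := e2.trans h2
    have e8 : ∑ v, ∑ y₀ ∈ Ch.J n, ∑ a ∈ S.A, |S.mA B c (v, y₀) a|
        ≤ τ * ((Fintype.card V : ℝ) * (Ch.C n).card) := e3.trans h3
    linarith [e6, e7, e8, e5]
  obtain ⟨⟨v, y₀⟩, hz, hzΦ⟩ := exists_le_of_sum_le hΩ hsum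
  set z : V × Y := (v, y₀) with hzdef
  -- the total mass
  have hI4 := Setup.I4 F hLam hρ z ((range K₀).biUnion Ch.J) (fun z' hz' hg => by
    rw [mem_biUnion]
    exact ⟨_, mem_range.mpr (hlev z z' hz' hg), (Ch.mem_J _ _).mpr rfl⟩)
  have hdisjJ : ((range K₀ : Finset ℕ) : Set ℕ).PairwiseDisjoint Ch.J := by
    intro k _ k' _ hne
    rw [Function.onFun, Finset.disjoint_left]
    intro y h1 h2
    rw [Ch.mem_J] at h1 h2
    omega
  rw [sum_biUnion hdisjJ] at hI4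
  -- the sheet part
  set E : ℝ := ∑ k ∈ Ks, ∑ y ∈ Ch.C k, |S.mY B c z y - f v k|
    + ∑ k ∈ Ks', ∑ y ∈ Ch.C k, |S.mY B c z y - f v k| with hE
  have hE' : ∑ k ∈ range (K₀ + 1), ∑ y ∈ Ch.J k, |S.mY B c z y - f v k|
      + ∑ k ∈ range K₀, ∑ y ∈ Ch.J k, |S.mY B c z y - f v (k + 1)| ≤ E := by
    rw [← Ch.sum_D_eq (S.mY B c z) (f v) K₀, hE]
    exact le_of_eq (sum_filter_add_sum_filter_not (range (K₀ + 1)) _ _).symm
  have habel := abel_chain Ch.J K₀ (S.mY B c z) (fun y hy => hvan z y (by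
    rw [Ch.mem_J] at hy; omega)) (f v) Ch.doubling E hE'
  -- the hub part
  have hhub : ∑ a ∈ S.A, S.mA B c z a ≤ ∑ a ∈ S.A, |S.mA B c z a| :=
    sum_le_sum fun a _ => le_abs_self _
  have hΦz : E + ∑ a ∈ S.A, |S.mA B c z a| ≤ τ * Ch.c1 := hzΦ
  have hhub0 : 0 ≤ ∑ a ∈ S.A, |S.mA B c z a| := sum_nonneg fun _ _ => abs_nonneg _
  have hE0 : 0 ≤ E := add_nonneg
    (sum_nonneg fun _ _ => sum_nonneg fun _ _ => abs_nonneg _)
    (sum_nonneg fun _ _ => sum_nonneg fun _ _ => abs_nonneg _)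
  have hfinal : (1 : ℝ) / 2 ≤ 3 * (τ * Ch.c1) := by linarith
  have : 3 * (Ch.c1 : ℝ) * τ < 1 / 2 := hsmall
  linarith

end Chain

end Vale.Agent.Lib.P090
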