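import Vale.Agent.Lib.P090.Fold

/-!
# Gluing pieces: if the `n`-th piece has no fold with constant `n`, the glued space fails the BAP.
-/

namespace Vale.Agent.Lib.P090

open Finset

/-- A bounded metric space with natural distances and a finite marked subset. -/
structure Piece where
  X : Type
  d : X → X → ℕ
  D : ℕ
  hubs : Finset X
  d_comm : ∀ x y, d x y = d y x
  d_tri : ∀ x y z, d x z ≤ d x y + d y z
  d_self : ∀ x, d x x = 0
  eq_of_d : ∀ {x y}, d x y = 0 → x = y
  d_le : ∀ x y, d x y ≤ D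
  D_pos : 1 ≤ D
  nonempty : Nonempty X
  countable : Countable X

/-- A piece has no fold with constant `Lam`. -/
def Piece.NoFold (P : Piece) (Lam : ℝ) : Prop :=
  ¬ ∃ (B : Finset P.X) (c : P.X → P.X → ℝ),
    (∀ h : P.X → ℝ, (∀ x y, |h x - h y| ≤ P.d x y) → (∀ x, |h x| ≤ P.D) →
      ∀ x y, |∑ w ∈ B, (c x w - c y w) * h w| ≤ Lam * P.d x y) ∧
    (∀ a ∈ P.hubs, ∀ h : P.X → ℝ, (∀ x y, |h x - h y| ≤ P.d x y) → (∀ x, |h x| ≤ P.D) →
      |∑ w ∈ B, c a w * h w - h a| ≤ 1 / 2)

section Glue

variable (P : ℕ → Piece)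

/-- The glued set. -/
abbrev Glued := Σ n : ℕ, (P n).X

open Classical in
/-- The distance of the glued set: distances between distinct pieces are the sum of the bounds. -/
noncomputable def gd : Glued P → Glued P → ℕ
  | ⟨n, x⟩, ⟨m, y⟩ => if h : n = m then (P m).d (h ▸ x) y else (P n).D + (P m).D

variable {P}

lemma gd_same (n : ℕ) (x y : (P n).X) : gd P ⟨n, x⟩ ⟨n, y⟩ = (P n).d x y := by
  simp [gd]

lemma gd_ne {n m : ℕ} (h : n ≠ m) (x : (P n).X) (y : (P m).X) :
    gd P ⟨n, x⟩ ⟨m, y⟩ = (P n).D + (P m).D := by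
  simp [gd, h]

lemma gd_comm (x y : Glued P) : gd P x y = gd P y x := by
  obtain ⟨n, x⟩ := x
  obtain ⟨m, y⟩ := y
  by_cases h : n = m
  · subst h
    rw [gd_same, gd_same, (P n).d_comm]
  · rw [gd_ne h, gd_ne (Ne.symm h), add_comm]

lemma gd_tri (x y z : Glued P) : gd P x z ≤ gd P x y + gd P y z := by
  obtain ⟨n, x⟩ := x
  obtain ⟨m, y⟩ := y
  obtain ⟨l, z⟩ := z
  by_cases h1 : n = m
  · subst h1
    by_cases h2 : n = l
    · subst h2
      simp only [gd_same]
      exact (P n).d_tri x y z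
    · simp only [gd_same, gd_ne h2]
      omega
  · by_cases h2 : m = l
    · subst h2
      simp only [gd_same, gd_ne h1]
      omega
    · by_cases h3 : n = l
      · subst h3
        simp only [gd_same, gd_ne h1, gd_ne h2]
        have := (P n).d_le x z
        omega
      · simp only [gd_ne h1, gd_ne h2, gd_ne h3]
        omega

lemma gd_self (x : Glued P) : gd P x x = 0 := by
  obtain ⟨n, x⟩ := x
  rw [gd_same, (P n).d_self]

lemma eq_of_gd {x y : Glued P} (h : gd P x y = 0) : x = y := by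
  obtain ⟨n, x⟩ := x
  obtain ⟨m, y⟩ := y
  by_cases h1 : n = m
  · subst h1
    rw [gd_same] at h
    rw [(P n).eq_of_d h]
  · rw [gd_ne h1] at h
    have := (P n).D_pos
    omega

/-- The metric of the glued set. -/
noncomputable instance gluedMetric : MetricSpace (Glued P) where
  dist x y := (gd P x y : ℝ)
  dist_self x := by simp [gd_self]
  dist_comm x y := by rw [gd_comm]
  dist_triangle x y z := by exact_mod_cast gd_tri x y z
  eq_of_dist_eq_zero h := eq_of_gd (by exact_mod_cast h)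

lemma dist_glued (x y : Glued P) : dist x y = (gd P x y : ℝ) := rfl

lemma one_le_gd {x y : Glued P} (h : x ≠ y) : 1 ≤ gd P x y := by
  by_contra hcon
  exact h (eq_of_gd (by omega))

open Classical in
/-- Extension by zero of a function on one piece. -/
noncomputable def extZero (n : ℕ) (h : (P n).X → ℝ) : Glued P → ℝ
  | ⟨m, y⟩ => if e : m = n then h (e ▸ y) else 0

lemma extZero_same (n : ℕ) (h : (P n).X → ℝ) (x : (P n).X) : extZero n h ⟨n, x⟩ = h x := by
  simp [extZero]

lemma extZero_ne {n m : ℕ} (e : m ≠ n) (h : (P n).X → ℝ) (y : (P m).X) :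
    extZero n h ⟨m, y⟩ = 0 := by
  simp [extZero, e]

lemma extZero_lip {n : ℕ} {h : (P n).X → ℝ} (hL : ∀ x y, |h x - h y| ≤ (P n).d x y)
    (hb : ∀ x, |h x| ≤ (P n).D) (x y : Glued P) :
    |extZero n h x - extZero n h y| ≤ dist x y := by
  rw [dist_glued]
  obtain ⟨m, x⟩ := x
  obtain ⟨l, y⟩ := y
  by_cases h1 : m = n
  · subst h1
    by_cases h2 : l = m
    · subst h2
      rw [extZero_same, extZero_same, gd_same]
      exact hL x y
    · rw [extZero_same, extZero_ne h2, gd_ne (Ne.symm h2), sub_zero]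
      refine (hb x).trans ?_
      push_cast
      have : (0 : ℝ) ≤ (P l).D := Nat.cast_nonneg _
      linarith
  · by_cases h2 : l = n
    · subst h2
      rw [extZero_same, extZero_ne h1, gd_ne h1, zero_sub, abs_neg]
      refine (hb y).trans ?_
      push_cast
      have : (0 : ℝ) ≤ (P m).D := Nat.cast_nonneg _
      linarith
    · rw [extZero_ne h1, extZero_ne h2, sub_zero, abs_zero]
      exact Nat.cast_nonneg _

/-- The glued space fails the bounded approximation property. -/
theorem glued_fails_bap (hP : ∀ n : ℕ, (P n).NoFold n) :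
    ¬ HasBAP (freeSpace (Glued P) ⟨0, (P 0).nonempty.some⟩) := by
  classical
  intro hbap
  obtain ⟨Lam, hLam, hfold⟩ := fold_of_bap (Glued P) ⟨0, (P 0).nonempty.some⟩ hbap
  obtain ⟨n, hn⟩ := exists_nat_ge (Lam + 1)
  have hn0 : n ≠ 0 := by
    rintro rfl
    simp only [Nat.cast_zero] at hn
    linarith
  have hinj : Function.Injective (fun x : (P n).X => (⟨n, x⟩ : Glued P)) := by
    intro x y h
    simpa using h
  obtain ⟨B, c, h1, h2⟩ := hfold ((P n).hubs.map ⟨_, hinj⟩)
  apply hP n
  refine ⟨B.preimage _ hinj.injOn, fun x w => c ⟨n, x⟩ ⟨n, w⟩, ?_, ?_⟩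
  · intro h hL hb x y
    have h3 := h1 (extZero n h) (extZero_lip hL hb) (extZero_ne (Ne.symm hn0) h _) ⟨n, x⟩ ⟨n, y⟩
    have h4 : ∑ w ∈ B, (c ⟨n, x⟩ w - c ⟨n, y⟩ w) * extZero n h w
        = ∑ w ∈ B.preimage _ hinj.injOn, (c ⟨n, x⟩ ⟨n, w⟩ - c ⟨n, y⟩ ⟨n, w⟩) * h w := by
      have h5 := Finset.sum_preimage (fun x : (P n).X => (⟨n, x⟩ : Glued P)) B hinj.injOn
        (fun w => (c ⟨n, x⟩ w - c ⟨n, y⟩ w) * extZero n h w) (by
          rintro ⟨m, w⟩ _ hr
          have hm : m ≠ n := by
            rintro rfl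
            exact hr ⟨w, rfl⟩
          simp [extZero_ne hm])
      rw [← h5]
      refine Finset.sum_congr rfl (fun w _ => ?_)
      rw [extZero_same]
    rw [h4, dist_glued, gd_same] at h3
    refine h3.trans ?_
    have : (0 : ℝ) ≤ (P n).d x y := Nat.cast_nonneg _
    nlinarith
  · intro a ha h hL hb
    have h3 := h2 ⟨n, a⟩ (by simpa using ha) (extZero n h) (extZero_lip hL hb)
      (extZero_ne (Ne.symm hn0) h _)
    have h4 : ∑ w ∈ B, c ⟨n, a⟩ w * extZero n h w
        = ∑ w ∈ B.preimage _ hinj.injOn, c ⟨n, a⟩ ⟨n, w⟩ * h w := by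
      have h5 := Finset.sum_preimage (fun x : (P n).X => (⟨n, x⟩ : Glued P)) B hinj.injOn
        (fun w => c ⟨n, a⟩ w * extZero n h w) (by
          rintro ⟨m, w⟩ _ hr
          have hm : m ≠ n := by
            rintro rfl
            exact hr ⟨w, rfl⟩
          simp [extZero_ne hm])
      rw [← h5]
      refine Finset.sum_congr rfl (fun w _ => ?_)
      rw [extZero_same]
    rw [h4, extZero_same] at h3
    exact h3

/-- The main reduction: a family of pieces without folds gives a uniformly discrete space whose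
free space fails the bounded approximation property. -/
theorem exists_of_pieces (hP : ∀ n : ℕ, (P n).NoFold n) :
    ∃ (M : Type) (_ : MetricSpace M) (o : M), Countable M ∧
      (∃ θ : ℝ, 0 < θ ∧ ∀ x y : M, x ≠ y → θ ≤ dist x y) ∧ ¬ HasBAP (freeSpace M o) := by
  have hc : ∀ n, Countable (P n).X := fun n => (P n).countable
  refine ⟨Glued P, gluedMetric, ⟨0, (P 0).nonempty.some⟩, inferInstance,
    ⟨1, one_pos, fun x y h => ?_⟩, glued_fails_bap hP⟩
  rw [dist_glued]
  exact_mod_cast one_le_gd h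

end Glue

end Vale.Agent.Lib.P090
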