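import Vale.Agent.Lib.P090.Poincare
import Vale.Agent.Lib.P090.Final
import Vale.Agent.Lib.P090.Wedge

/-!
# Assembling the pieces.
-/

set_option linter.unusedSectionVars false

namespace Vale.Agent.Lib.P090

open Finset

/-- A maximal separated subset. -/
lemma exists_separated {V : Type} [Fintype V] [DecidableEq V] (d : V → V → ℕ)
    (hd : ∀ x y, d x y = d y x) (hd0 : ∀ x, d x x = 0) (r : ℕ) (hr : 0 < r) :
    ∃ A : Finset V, (∀ a ∈ A, ∀ b ∈ A, a ≠ b → r ≤ d a b) ∧ ∀ v, ∃ a ∈ A, d v a < r := by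
  classical
  set F : Finset (Finset V) := univ.filter (fun A => ∀ a ∈ A, ∀ b ∈ A, a ≠ b → r ≤ d a b) with hF
  have hne : F.Nonempty := ⟨∅, by simp [hF]⟩
  obtain ⟨A, hA, hmax⟩ := F.exists_maximal hne
  have hA' := (mem_filter.mp hA).2
  refine ⟨A, hA', ?_⟩
  intro v
  by_contra hcon
  push Not at hcon
  have hins : insert v A ∈ F := by
    rw [hF, mem_filter]
    refine ⟨mem_univ _, ?_⟩
    intro a ha b hb hab
    by_cases h1 : a = v
    · subst h1
      by_cases h2 : b = a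
      · exact absurd h2.symm hab
      · exact hcon b ((mem_insert.mp hb).resolve_left h2)
    · have ha' : a ∈ A := (mem_insert.mp ha).resolve_left h1
      by_cases h2 : b = v
      · subst h2
        rw [hd]
        exact hcon a ha'
      · exact hA' a ha' b ((mem_insert.mp hb).resolve_left h2) hab
  have hsub : A ⊆ insert v A := subset_insert _ _
  have := hmax hins hsub
  have hv : v ∈ A := this (mem_insert_self _ _)
  have h3 := hcon v hv
  rw [hd0] at h3
  omega

/-- The parameters attached to `ρ`. -/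
def lenOf (ρ : ℕ) : ℕ := 2 * (2 * ρ + 6 * ρ ^ 2 + 1) + 2 * ρ

def tOf (ρ : ℕ) : ℕ := 2 * ρ + 6 * ρ ^ 2 + 2 * ρ + 2

section Build

variable {p : ℕ} [Fact p.Prime] {H : Type} [Group H] [Fintype H] [DecidableEq H]
  (φ : Bool → SL3 (ZMod p) →* H) (P : PrimeChain)

lemma aH_inv (l : Bool × Gen) (v : H) : aH φ (l.1, l.2.inv) (aH φ l v) = v := by
  simp only [aH]
  rw [← mul_assoc, ← map_mul, gen_inv_mul, map_one, one_mul]

/-- The setup of the piece. -/
noncomputable def mkSetup (ρ : ℕ) (hρ : 1 ≤ ρ) (hp : 2 ^ lenOf ρ + 1 < p)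
    (hres : ∀ (t : Bool) (l : List (SL3 (ZMod p))), l ≠ [] → l.length ≤ lenOf ρ →
      (∀ a ∈ l, a ≠ 1) → altProd φ t l ≠ 1) (A : Finset H)
    (hsep : ∀ a ∈ A, ∀ b ∈ A, a ≠ b → 2 * ρ ≤ wd (aH φ) (tOf ρ) a b)
    (hcov : ∀ v, ∃ a ∈ A, wd (aH φ) (tOf ρ) v a < 2 * ρ) : Setup (Bool × Gen) H P.TY where
  inv l := (l.1, l.2.inv)
  aV := aH φ
  aY := P.aY
  inv_inv l := by simp [Gen.inv_inv]
  aV_inv := aH_inv φ
  aY_inv := P.aY_inv
  rho := ρ
  T := tOf ρ
  Len := lenOf ρ
  rho_pos := hρ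
  hT := le_rfl
  hLen := le_rfl
  closure := fun w hw v hv y => closure_of_residual φ P (lenOf ρ) hp hres w hw v hv y
  A := A
  sep := hsep
  cov := hcov

lemma sum_filter_par (b : Bool) (F : Bool × Gen → ℝ) :
    ∑ l ∈ univ.filter (fun l : Bool × Gen => l.1.toNat = b.toNat), F l = ∑ s : Gen, F (b, s) := by
  rw [Finset.sum_filter, Fintype.sum_prod_type, Fintype.sum_bool]
  cases b <;> simp

lemma card_filter_par (n : ℕ) :
    (univ.filter (fun l : Bool × Gen => l.1.toNat = n % 2)).card ≤ Fintype.card Gen := by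
  set b : Bool := decide (n % 2 = 1) with hb
  have hbn : b.toNat = n % 2 := by
    simp only [hb]
    by_cases h : n % 2 = 1
    · simp [h]
    · simp [h]
      omega
  rw [← hbn]
  have h1 : (univ.filter (fun l : Bool × Gen => l.1.toNat = b.toNat))
      = (univ : Finset Gen).image (fun s => (b, s)) := by
    ext ⟨c, s⟩
    simp only [mem_filter, mem_univ, true_and, mem_image, Prod.mk.injEq, exists_eq_right]
    cases b <;> cases c <;> simp
  rw [h1]
  exact card_image_le

/-- The chain of the piece. -/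
noncomputable def mkChain (S : Setup (Bool × Gen) H P.TY) (haV : S.aV = aH φ) (haY : S.aY = P.aY)
    {K : ℝ} (hK0 : 0 ≤ K) (hK : KazhdanBound K) (hpq : ∀ k, p < P.q k)
    (hqinj : Function.Injective P.q) (hφ : ∀ b, Function.Injective (φ b))
    (hball : ∀ a : H, ∃ s : Finset H, 2 * s.card ≤ Fintype.card (SL3 (ZMod p)) ∧
      ∀ v, S.DV v a < S.R0 → v ∈ s) : Chain S where
  par l := l.1.toNat
  J := P.J
  level y := y.1.1
  mem_J := P.mem_J
  level_letter l y := by
    rw [haY]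
    exact P.level_aY l y
  C := P.C
  C_zero := rfl
  C_succ _ := rfl
  doubling k := by
    rw [P.card_J, P.card_J]
    exact P.doubling k
  pos k := by
    rw [P.card_J]
    exact P.tt_pos k
  c1 := 524292
  ratio := P.ratio
  Lc := Fintype.card Gen
  Lp_card := card_filter_par
  Kap := 3 * K
  Kap_nonneg := by positivity
  H3 := by
    intro n k hnk hpar u
    set b : Bool := decide (n % 2 = 1) with hb
    have hbn : b.toNat = n % 2 := by
      simp only [hb]
      by_cases h : n % 2 = 1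
      · simp [h]
      · simp [h]
        omega
    obtain ⟨ub, _, hub⟩ := poincare3 φ P hK0 hK b (n := n) (k := k) hbn.symm (by omega)
      (hpq n).ne (hpq k).ne (fun h => hnk (hqinj h)) u
    refine ⟨ub, hub.trans ?_⟩
    rw [← hbn, sum_filter_par b (fun l => ∑ v, ∑ y₀ ∈ P.C n, ∑ y ∈ P.C k,
      |u (S.aV l v) (S.aY l y₀) (S.aY l y) - u v y₀ y|), haV, haY]
    have h0 := Real.sqrt_nonneg ((∑ s : Gen, ∑ v, ∑ y₀ ∈ P.C n, ∑ y ∈ P.C k,
      |u (aH φ (b, s) v) (P.aY (b, s) y₀) (P.aY (b, s) y) - u v y₀ y|) *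
        ∑ v, ∑ y₀ ∈ P.C n, ∑ y ∈ P.C k, |u v y₀ y|)
    nlinarith [mul_nonneg hK0 h0]
  H2 := by
    intro n a u hu
    set b : Bool := decide (n % 2 = 1) with hb
    have hbn : b.toNat = n % 2 := by
      simp only [hb]
      by_cases h : n % 2 = 1
      · simp [h]
      · simp [h]
        omega
    obtain ⟨s, hs1, hs2⟩ := hball a
    have h2 := poincare2 φ P hK0 hK b (n := n) (k := n + 2) hbn.symm (by omega)
      (hpq n).ne (hpq (n + 2)).ne (fun h => by
        have := hqinj h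
        omega) u (hφ b) s hs1 (fun v y₀ hv => hu v y₀ (by
          by_contra hcon
          exact hv (hs2 v (by omega))))
    refine h2.trans (le_of_eq ?_)
    rw [← hbn, sum_filter_par b (fun l => ∑ v, ∑ y₀ ∈ P.C n,
      |u (S.aV l v) (S.aY l y₀) - u v y₀|), haV, haY]

end Build

/-- A setup as a piece. -/
noncomputable def Setup.toPiece {L V Y : Type} [Countable V] [Countable Y] (S : Setup L V Y)
    (hne : Nonempty S.Pt) : Piece where
  X := S.Pt
  d := S.dP
  D := S.D
  hubs := (univ : Finset {a // a ∈ S.A}).map ⟨Sum.inr, Sum.inr_injective⟩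
  d_comm := S.dP_comm
  d_tri := S.dP_tri
  d_self := S.dP_self
  eq_of_d := S.eq_of_dP_eq_zero
  d_le := S.dP_le
  D_pos := S.D_pos
  nonempty := hne
  countable := inferInstance

theorem noFold_of_chain {L V Y : Type} [Fintype L] [Fintype V] [DecidableEq Y] [DecidableEq V]
    [Nonempty V] [Countable Y] {S : Setup L V Y} (Ch : Chain S) (hne : Nonempty S.Pt) {Lam : ℝ} (hLam : 0 ≤ Lam)
    (hρ : 2 * Lam + 1 ≤ S.rho)
    (hsmall : 3 * (Ch.c1 : ℝ) * (Ch.Kap * √(Ch.Lc * ((2 * Lam + 1) / S.rho) * (3 * Lam + 2)))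
      < 1 / 2) : (S.toPiece hne).NoFold Lam := by
  rintro ⟨B, c, h1, h2⟩
  exact Ch.no_fold (B := B) (c := c) (Lam := Lam) ⟨h1, fun a h hL hb =>
    h2 (Sum.inr a) (Finset.mem_map.mpr ⟨a, mem_univ _, rfl⟩) h hL hb⟩ hLam hρ hsmall

/-- The choice of `ρ`. -/
lemma exists_rho (C L Lam : ℝ) (hC : 0 ≤ C) (hL : 0 ≤ L) (hLam : 0 ≤ Lam) :
    ∃ ρ : ℕ, 1 ≤ ρ ∧ 2 * Lam + 1 ≤ ρ ∧ C * √(L * ((2 * Lam + 1) / ρ) * (3 * Lam + 2)) < 1 / 2 := by
  set X : ℝ := L * (2 * Lam + 1) * (3 * Lam + 2) with hX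
  have hX0 : 0 ≤ X := by positivity
  obtain ⟨N, hN⟩ := exists_nat_gt (max (2 * Lam + 1) ((2 * C + 1) ^ 2 * X))
  have hN1 : 2 * Lam + 1 < N := lt_of_le_of_lt (le_max_left _ _) hN
  have hN2 : (2 * C + 1) ^ 2 * X < N := lt_of_le_of_lt (le_max_right _ _) hN
  have hNpos : (0 : ℝ) < N := by linarith
  have hN3 : 1 ≤ N := by
    have : (0 : ℝ) < N := hNpos
    exact_mod_cast this
  refine ⟨N, hN3, hN1.le, ?_⟩
  have e : L * ((2 * Lam + 1) / N) * (3 * Lam + 2) = X / N := by
    rw [hX]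
    ring
  rw [e]
  have h2C : 0 < 2 * C + 1 := by linarith
  have h1 : √(X / N) < 1 / (2 * C + 1) := by
    rw [Real.sqrt_lt' (by positivity), div_lt_iff₀ hNpos, div_pow, one_pow, div_mul_eq_mul_div,
      one_mul, lt_div_iff₀ (by positivity)]
    linarith
  calc C * √(X / N) ≤ C * (1 / (2 * C + 1)) := by gcongr
    _ < 1 / 2 := by
      rw [mul_one_div, div_lt_div_iff₀ h2C (by norm_num)]
      linarith

lemma card_SL3_ge (p : ℕ) [Fact p.Prime] : p ≤ Fintype.card (SL3 (ZMod p)) := by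
  have hinj : Function.Injective (fun r : ZMod p => el (⟨(0, 1), by decide⟩ : Root) r) := by
    intro r t h
    have h1 := congrArg (fun A : SL3 (ZMod p) => (A : Matrix (Fin 3) (Fin 3) (ZMod p)) 0 1) h
    simpa [el_coe, Matrix.transvection, Matrix.single_apply, Matrix.one_apply] using h1
  have := Fintype.card_le_of_injective _ hinj
  rwa [ZMod.card] at this

/-- A prime chain beyond a given bound. -/
lemma exists_primeChain (N : ℕ) : ∃ P : PrimeChain, ∀ k, N < P.q k := by
  obtain ⟨q0, hq0, hq0p⟩ := Nat.exists_infinite_primes (N + 1)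
  have hstep : ∀ x : {x : ℕ // x.Prime}, ∃ y : {x : ℕ // x.Prime}, 2 * x.1 ≤ y.1 ∧ y.1 ≤ 4 * x.1 := by
    rintro ⟨x, hx⟩
    obtain ⟨r, hr, h1, h2⟩ := Nat.exists_prime_lt_and_le_two_mul (2 * x) (by
      have := hx.pos
      omega)
    exact ⟨⟨r, hr⟩, h1.le, by simp only; omega⟩
  choose st hst using hstep
  let seq : ℕ → {x : ℕ // x.Prime} := fun k => Nat.rec ⟨q0, hq0p⟩ (fun _ x => st x) k
  have hseq : ∀ k, seq (k + 1) = st (seq k) := fun _ => rfl
  refine ⟨⟨fun k => (seq k).1, fun k => (seq k).2, fun k => ?_, fun k => ?_⟩, ?_⟩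
  · simp only [hseq]
    exact (hst (seq k)).1
  · simp only [hseq]
    exact (hst (seq k)).2
  · intro k
    induction k with
    | zero =>
      show N < q0
      omega
    | succ k ih =>
      simp only [hseq] at ih ⊢
      have h1 := (hst (seq k)).1
      omega

lemma PrimeChain.q_injective (P : PrimeChain) : Function.Injective P.q := by
  apply StrictMono.injective
  apply strictMono_nat_of_lt_succ
  intro k
  have h1 := P.grow k
  have h2 := P.two_le k
  omega

/-- The existence of a piece without folds of constant `Lam`. -/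
theorem exists_piece {K : ℝ} (hK0 : 0 ≤ K) (hK : KazhdanBound K) (Lam : ℕ) :
    ∃ Pc : Piece, Pc.NoFold Lam := by
  classical
  obtain ⟨ρ, hρ1, hρ2, hρ3⟩ := exists_rho (3 * ((524292 : ℕ) : ℝ) * (3 * K))
    ((Fintype.card Gen : ℕ) : ℝ) (Lam : ℝ) (by positivity) (Nat.cast_nonneg _) (Nat.cast_nonneg _)
  set R0 : ℕ := 2 * ρ + 6 * ρ ^ 2 with hR0
  -- the prime for the base
  obtain ⟨p, hp1, hpp⟩ := Nat.exists_infinite_primes
    (2 ^ lenOf ρ + 2 + 2 * (Fintype.card (Bool × Gen) + 1) ^ R0)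
  have : Fact p.Prime := ⟨hpp⟩
  -- the group
  obtain ⟨H, hG, hF, φ, hres⟩ := residual (G := SL3 (ZMod p)) (lenOf ρ)
  let _ := Fintype.ofFinite H
  -- the chain
  obtain ⟨P, hP⟩ := exists_primeChain p
  -- the hubs
  have hinv : ∀ (l : Bool × Gen) (v : H), aH φ (l.1, l.2.inv) (aH φ l v) = v := aH_inv φ
  obtain ⟨A, hsep, hcov⟩ := exists_separated (wd (aH φ) (tOf ρ))
    (fun x y => wd_comm hinv x y) wd_self (2 * ρ) (by omega)
  have hp : 2 ^ lenOf ρ + 1 < p := by omega
  set S : Setup (Bool × Gen) H P.TY := mkSetup φ P ρ hρ1 hp hres A hsep hcov with hS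
  have hφ : ∀ b, Function.Injective (φ b) := by
    intro b
    rw [injective_iff_map_eq_one]
    intro a ha
    by_contra hne
    have hlen : 1 ≤ lenOf ρ := by unfold lenOf; omega
    have := hres b [a] (by simp) (by simpa using hlen) (by simpa using hne)
    exact this (by simpa [altProd] using ha)
  have hball : ∀ a : H, ∃ s : Finset H, 2 * s.card ≤ Fintype.card (SL3 (ZMod p)) ∧
      ∀ v, S.DV v a < S.R0 → v ∈ s := by
    intro a
    obtain ⟨s, hs1, hs2⟩ := card_reach_le (a := aH φ) a R0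
    refine ⟨s, ?_, ?_⟩
    · have h1 := card_SL3_ge p
      have h0 : 0 < 2 ^ lenOf ρ := by positivity
      omega
    · intro v hv
      have hv' : wd (aH φ) (tOf ρ) v a < R0 := hv
      have hR : R0 ≤ tOf ρ := by
        simp only [hR0]
        unfold tOf
        omega
      have hlt : wd (aH φ) (tOf ρ) v a < tOf ρ := by omega
      obtain ⟨w, hw, he⟩ := exists_word_of_wd_lt hlt
      have h2 : evalW (aH φ) (invW (fun l : Bool × Gen => (l.1, l.2.inv)) w) a = v := by
        rw [← he]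
        exact evalW_invW_left (aH φ) hinv w v
      rw [← h2]
      apply hs2
      simp only [length_invW]
      omega
  have hne : Nonempty S.Pt := by
    obtain ⟨a, ha, _⟩ := hcov 1
    exact ⟨Sum.inr ⟨a, ha⟩⟩
  let Ch : Chain S := mkChain φ P S rfl rfl hK0 hK hP P.q_injective hφ hball
  refine ⟨S.toPiece hne, noFold_of_chain Ch hne (Nat.cast_nonneg _) hρ2 ?_⟩
  rw [← mul_assoc]
  exact hρ3

/-- The main theorem, from the uniform Poincaré inequality. -/
theorem main_of_kazhdan {K : ℝ} (hK0 : 0 ≤ K) (hK : KazhdanBound K) :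
    ∃ (M : Type) (_ : MetricSpace M) (o : M), Countable M ∧
      (∃ θ : ℝ, 0 < θ ∧ ∀ x y : M, x ≠ y → θ ≤ dist x y) ∧ ¬ HasBAP (freeSpace M o) := by
  choose Pc hPc using exists_piece hK0 hK
  exact exists_of_pieces hPc

end Vale.Agent.Lib.P090
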