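import Vale.Agent.Lib.P090.SL3

/-!
# The order of `SL₃(𝔽_q)`.
-/

namespace Vale.Agent.Lib.P090

open Matrix

variable (q : ℕ) [hq : Fact q.Prime]

/-- The kernel of the determinant on `GL₃` is `SL₃`. -/
noncomputable def kerDetEquiv :
    (GeneralLinearGroup.det (n := Fin 3) (R := ZMod q)).ker ≃ SL3 (ZMod q) where
  toFun g := ⟨g.1.1, by
    have h := g.2
    rw [MonoidHom.mem_ker] at h
    have h2 := congrArg Units.val h
    simpa using h2⟩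
  invFun g := ⟨(g : GL (Fin 3) (ZMod q)), by
    rw [MonoidHom.mem_ker]
    ext
    simp⟩
  left_inv g := by
    apply Subtype.ext
    ext i j
    rfl
  right_inv g := by
    apply Subtype.ext
    rfl

lemma card_SL3_mul : Nat.card (SL3 (ZMod q)) * (q - 1)
    = (q ^ 3 - q ^ 0) * (q ^ 3 - q ^ 1) * (q ^ 3 - q ^ 2) := by
  have h1 := Matrix.card_GL_field (𝔽 := ZMod q) 3
  rw [ZMod.card, Fin.prod_univ_three] at h1
  simp only [Fin.val_zero, Fin.val_one, Fin.val_two] at h1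
  rw [← h1]
  have hsurj : Function.Surjective (GeneralLinearGroup.det (n := Fin 3) (R := ZMod q)) :=
    GeneralLinearGroup.det_surjective
  have h2 := Subgroup.card_eq_card_quotient_mul_card_subgroup
    (GeneralLinearGroup.det (n := Fin 3) (R := ZMod q)).ker
  rw [h2, Nat.card_congr (QuotientGroup.quotientKerEquivOfSurjective _ hsurj).toEquiv,
    Nat.card_congr (kerDetEquiv q), mul_comm]
  congr 1
  rw [Nat.card_eq_fintype_card, ZMod.card_units]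

lemma two_le_q : 2 ≤ q := hq.out.two_le

lemma card_SL3_eq : Fintype.card (SL3 (ZMod q)) = (q ^ 3 - 1) * (q ^ 2 - 1) * q ^ 3 := by
  have h := card_SL3_mul q
  rw [Nat.card_eq_fintype_card] at h
  have h2 := two_le_q q
  have hq1 : 0 < q - 1 := by omega
  apply Nat.eq_of_mul_eq_mul_right hq1
  rw [h]
  obtain ⟨r, rfl⟩ : ∃ r, q = r + 1 := ⟨q - 1, by omega⟩
  have a1 : (r + 1) ^ 3 - (r + 1) ^ 0 = (r + 1) ^ 3 - 1 := by simp
  have a2 : (r + 1) ^ 3 - (r + 1) ^ 1 = (r + 1) * ((r + 1) ^ 2 - 1) := by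
    rw [Nat.mul_sub, pow_one, mul_one]
    ring_nf
  have a3 : (r + 1) ^ 3 - (r + 1) ^ 2 = (r + 1) ^ 2 * r := by
    have : (r + 1) ^ 3 = (r + 1) ^ 2 * r + (r + 1) ^ 2 := by ring
    rw [this]
    simp
  rw [a1, a2, a3]
  simp only [Nat.add_sub_cancel]
  ring

/-- The order of `SL₃(𝔽_q)` as a polynomial. -/
def nSL (q : ℕ) : ℕ := (q ^ 3 - 1) * (q ^ 2 - 1) * q ^ 3

lemma nSL_le_pow (q : ℕ) : nSL q ≤ q ^ 8 := by
  unfold nSL
  calc (q ^ 3 - 1) * (q ^ 2 - 1) * q ^ 3 ≤ q ^ 3 * q ^ 2 * q ^ 3 := by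
        gcongr <;> omega
    _ = q ^ 8 := by ring

lemma pow_le_four_nSL {q : ℕ} (h : 2 ≤ q) : q ^ 8 ≤ 4 * nSL q := by
  unfold nSL
  have h3 : 4 ≤ q ^ 2 := by nlinarith
  have h4 : 8 ≤ q ^ 3 := by
    calc 8 = 2 ^ 3 := rfl
      _ ≤ q ^ 3 := Nat.pow_le_pow_left h 3
  have e3 : q ^ 3 ≤ 2 * (q ^ 3 - 1) := by omega
  have e2 : q ^ 2 ≤ 2 * (q ^ 2 - 1) := by omega
  calc q ^ 8 = q ^ 3 * q ^ 2 * q ^ 3 := by ring
    _ ≤ (2 * (q ^ 3 - 1)) * (2 * (q ^ 2 - 1)) * q ^ 3 := by gcongr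
    _ = _ := by ring

lemma nSL_growth {q q' : ℕ} (h : 2 * q ≤ q') : 8 * nSL q ≤ nSL q' := by
  unfold nSL
  have h1 : q ≤ q' := by omega
  have e3 : q ^ 3 - 1 ≤ q' ^ 3 - 1 := Nat.sub_le_sub_right (Nat.pow_le_pow_left h1 3) 1
  have e2 : q ^ 2 - 1 ≤ q' ^ 2 - 1 := Nat.sub_le_sub_right (Nat.pow_le_pow_left h1 2) 1
  have e4 : 8 * q ^ 3 ≤ q' ^ 3 := by
    calc 8 * q ^ 3 = (2 * q) ^ 3 := by ring
      _ ≤ q' ^ 3 := Nat.pow_le_pow_left h 3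
  calc 8 * ((q ^ 3 - 1) * (q ^ 2 - 1) * q ^ 3) = (q ^ 3 - 1) * (q ^ 2 - 1) * (8 * q ^ 3) := by ring
    _ ≤ _ := by gcongr

lemma nSL_upper {q q' : ℕ} (h : 2 ≤ q) (h' : q' ≤ 4 * q) : nSL q' ≤ 4 ^ 9 * nSL q := by
  calc nSL q' ≤ q' ^ 8 := nSL_le_pow q'
    _ ≤ (4 * q) ^ 8 := Nat.pow_le_pow_left h' 8
    _ = 4 ^ 8 * q ^ 8 := by ring
    _ ≤ 4 ^ 8 * (4 * nSL q) := by gcongr; exact pow_le_four_nSL h
    _ = _ := by ring

lemma nSL_pos {q : ℕ} (h : 2 ≤ q) : 0 < nSL q := by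
  have := pow_le_four_nSL h
  have h2 : 0 < q ^ 8 := by positivity
  omega

end Vale.Agent.Lib.P090
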