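import Mathlib

/-!
# A finite group containing two copies of a finite group with no short relations between them.
-/

namespace Vale.Agent.Lib.P090

section Residual

variable {G : Type} [Group G]

/-- The alternating product `φ t a₀ * φ (!t) a₁ * φ t a₂ * ...`. -/
def altProd {H : Type} [Group H] (φ : Bool → G →* H) : Bool → List G → H
  | _, [] => 1
  | t, a :: as => φ t a * altProd φ (!t) as

section OneWord

variable (c : ℕ → G) (m : ℕ)

/-- The involution pairing `(c (i + 1), i)` with `(1, i + 1)`. -/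
noncomputable def betaFun (y : G × Fin (m + 1)) : G × Fin (m + 1) :=
  open Classical in
  if h : y.2.val < m ∧ y.1 = c (y.2.val + 1) then (1, ⟨y.2.val + 1, by omega⟩)
  else if h' : 1 ≤ y.2.val ∧ y.1 = 1 then (c y.2.val, ⟨y.2.val - 1, by have := y.2.2; omega⟩)
  else y

variable {c m}

lemma betaFun_first {g : G} {i : Fin (m + 1)} (h1 : i.val < m) (h2 : g = c (i.val + 1)) :
    betaFun c m (g, i) = (1, ⟨i.val + 1, by omega⟩) := by
  unfold betaFun
  simp only
  rw [dif_pos ⟨h1, h2⟩]

lemma betaFun_second (hc : ∀ i, 1 ≤ i → i ≤ m → c i ≠ 1) {i : Fin (m + 1)} (h1 : 1 ≤ i.val) :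
    betaFun c m (1, i) = (c i.val, ⟨i.val - 1, by have := i.2; omega⟩) := by
  unfold betaFun
  simp only
  have h2 : ¬ (i.val < m ∧ (1 : G) = c (i.val + 1)) := by
    rintro ⟨h3, h4⟩
    exact hc (i.val + 1) (by omega) (by omega) h4.symm
  rw [dif_neg h2, dif_pos ⟨h1, trivial⟩]

lemma betaFun_involutive (hc : ∀ i, 1 ≤ i → i ≤ m → c i ≠ 1) :
    Function.Involutive (betaFun c m) := by
  rintro ⟨g, i⟩
  by_cases h1 : i.val < m ∧ g = c (i.val + 1)
  · rw [betaFun_first h1.1 h1.2]
    have := betaFun_second hc (m := m) (i := ⟨i.val + 1, by omega⟩) (by simp)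
    rw [this]
    simp only [Nat.add_sub_cancel, h1.2]
  · by_cases h2 : 1 ≤ i.val ∧ g = 1
    · obtain ⟨h3, rfl⟩ := h2
      rw [betaFun_second hc h3]
      rw [betaFun_first (by have := i.2; simp; omega) (by simp; congr 1; omega)]
      simp only [Prod.mk.injEq, true_and]
      apply Fin.ext
      simp only
      omega
    · have : betaFun c m (g, i) = (g, i) := by
        unfold betaFun
        simp only
        rw [dif_neg h1, dif_neg h2]
      rw [this, this]

/-- Left multiplication on the first coordinate. -/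
def lamHom (m : ℕ) : G →* Equiv.Perm (G × Fin (m + 1)) where
  toFun a := Equiv.prodCongr (Equiv.mulLeft a) (Equiv.refl _)
  map_one' := by
    ext y <;> simp
  map_mul' a b := by
    ext y <;> simp [mul_assoc]

lemma lamHom_apply (a : G) (y : G × Fin (m + 1)) : lamHom m a y = (a * y.1, y.2) := rfl

/-- The invariant of the walk. -/
def WalkInv (c : ℕ → G) (j : ℕ) (y : G × Fin (m + 1)) : Prop :=
  (j % 2 = 0 ∧ y.1 = 1 ∧ y.2.val = j) ∨ (j % 2 = 1 ∧ y.1 = c j ∧ y.2.val + 1 = j)

/-- The two actions used for a word starting with the type `t₀`. -/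
noncomputable def phiWord (hc : ∀ i, 1 ≤ i → i ≤ m → c i ≠ 1) (t₀ b : Bool) :
    G →* Equiv.Perm (G × Fin (m + 1)) :=
  if b = t₀ then lamHom m
  else (MulAut.conj (Function.Involutive.toPerm _ (betaFun_involutive hc))).toMonoidHom.comp (lamHom m)

lemma walk_step (hc : ∀ i, 1 ≤ i → i ≤ m → c i ≠ 1) (t₀ t : Bool) (j : ℕ) (hj : j < m)
    (ht : t = t₀ ↔ j % 2 = 0) (a : G) (ha : c (j + 1) = a⁻¹) (y : G × Fin (m + 1))
    (hy : WalkInv c j y) : WalkInv c (j + 1) ((phiWord hc t₀ t a)⁻¹ y) := by
  by_cases hev : j % 2 = 0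
  · have ht' : t = t₀ := ht.mpr hev
    have : phiWord hc t₀ t = lamHom m := by simp [phiWord, ht']
    rw [this, ← map_inv, lamHom_apply]
    rcases hy with ⟨_, h1, h2⟩ | ⟨h0, _, _⟩
    · right
      refine ⟨by omega, ?_, ?_⟩
      · simp only [h1, mul_one, ha]
      · simp only [h2]
    · omega
  · have ht' : t ≠ t₀ := fun h => hev (ht.mp h)
    have hodd : j % 2 = 1 := by omega
    rcases hy with ⟨h0, _, _⟩ | ⟨_, h1, h2⟩
    · omega
    have : phiWord hc t₀ t = (MulAut.conj (Function.Involutive.toPerm _ (betaFun_involutive hc))).toMonoidHom.comp (lamHom m) := by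
      simp [phiWord, ht']
    rw [this, ← map_inv]
    simp only [MonoidHom.comp_apply, MulEquiv.coe_toMonoidHom, MulAut.conj_apply, Equiv.Perm.coe_mul,
      Function.comp_apply]
    obtain ⟨g, i⟩ := y
    simp only at h1 h2
    have hi1 : i.val < m := by omega
    have hg : g = c (i.val + 1) := by rw [h1, h2]
    have hinv : ∀ z, (Function.Involutive.toPerm _ (betaFun_involutive hc))⁻¹ z = betaFun c m z := by
      intro z
      rfl
    rw [hinv, betaFun_first hi1 hg]
    have h3 : (Function.Involutive.toPerm _ (betaFun_involutive hc))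
        (lamHom m a⁻¹ ((1 : G), (⟨i.val + 1, by omega⟩ : Fin (m + 1))))
        = betaFun c m (a⁻¹, ⟨i.val + 1, by omega⟩) := by
      rw [lamHom_apply]
      simp
    rw [h3, betaFun_first (by simp; omega) (by simp [h2, ha])]
    left
    refine ⟨by omega, rfl, ?_⟩
    simp only
    omega

/-- The whole walk. -/
lemma walk (hc : ∀ i, 1 ≤ i → i ≤ m → c i ≠ 1) (t₀ : Bool) (l : List G) (j : ℕ) (t : Bool)
    (hl : j + l.length ≤ m) (hcl : ∀ (i : ℕ) (h : i < l.length), c (j + 1 + i) = (l[i])⁻¹)
    (ht : t = t₀ ↔ j % 2 = 0) (y : G × Fin (m + 1)) (hy : WalkInv c j y) :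
    WalkInv c (j + l.length) ((altProd (phiWord hc t₀) t l)⁻¹ y) := by
  induction l generalizing j t y with
  | nil =>
    simpa [altProd] using hy
  | cons a as ih =>
    simp only [List.length_cons] at hl hcl ⊢
    have h0 := hcl 0 (by simp)
    simp only [add_zero, List.getElem_cons_zero] at h0
    have h1 := walk_step hc t₀ t j (by omega) ht a h0 y hy
    have h2 := ih (j + 1) (!t) (by omega) (fun i h => by
      have := hcl (i + 1) (by omega)
      simp only [List.getElem_cons_succ] at this
      rw [← this]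
      congr 1
      omega) (by
        cases t <;> cases t₀ <;> simp_all <;> omega) _ h1
    simp only [altProd, mul_inv_rev, Equiv.Perm.coe_mul, Function.comp_apply]
    have e : j + (as.length + 1) = j + 1 + as.length := by omega
    rw [e]
    exact h2

end OneWord

/-- One word can be made nontrivial. -/
lemma one_word (t : Bool) (l : List G) (hl : l ≠ []) (h1 : ∀ a ∈ l, a ≠ 1) :
    ∃ φ : Bool → G →* Equiv.Perm (G × Fin (l.length + 1)), altProd φ t l ≠ 1 := by
  set c : ℕ → G := fun i => (l.getD (i - 1) 1)⁻¹ with hc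
  have hcne : ∀ i, 1 ≤ i → i ≤ l.length → c i ≠ 1 := by
    intro i h2 h3
    simp only [hc]
    rw [List.getD_eq_getElem _ _ (by omega), ne_eq, inv_eq_one]
    exact h1 _ (List.getElem_mem _)
  refine ⟨phiWord hcne t, ?_⟩
  intro hone
  have hw := walk hcne t l 0 t (by omega) (fun i h => by
    simp only [hc]
    rw [show 0 + 1 + i - 1 = i by omega, List.getD_eq_getElem _ _ h]) (by simp) (1, ⟨0, by omega⟩)
    (Or.inl ⟨rfl, rfl, rfl⟩)
  rw [hone] at hw
  simp only [inv_one, Equiv.Perm.coe_one, id_eq, zero_add] at hw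
  have hlen : 1 ≤ l.length := List.length_pos_iff.mpr hl
  rcases hw with ⟨_, _, h3⟩ | ⟨_, h2, _⟩
  · simp only at h3
    omega
  · exact hcne _ hlen le_rfl h2.symm

lemma altProd_map {H H' : Type} [Group H] [Group H'] (f : H →* H') (φ : Bool → G →* H) (t : Bool)
    (l : List G) : f (altProd φ t l) = altProd (fun b => f.comp (φ b)) t l := by
  induction l generalizing t with
  | nil => simp [altProd]
  | cons a as ih => simp [altProd, ih]

/-- The residual finiteness statement. -/
theorem residual [Finite G] (Len : ℕ) :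
    ∃ (H : Type) (_ : Group H) (_ : Finite H) (φ : Bool → G →* H),
      ∀ (t : Bool) (l : List G), l ≠ [] → l.length ≤ Len → (∀ a ∈ l, a ≠ 1) → altProd φ t l ≠ 1 := by
  classical
  let Words := {p : Bool × List G // p.2 ≠ [] ∧ p.2.length ≤ Len ∧ ∀ a ∈ p.2, a ≠ 1}
  have hfinL : Finite {l : List G // l.length ≤ Len} := (List.finite_length_le G Len).to_subtype
  have hfin : Finite Words := by
    apply Finite.of_injective (β := Bool × {l : List G // l.length ≤ Len})
      (fun p => (p.1.1, ⟨p.1.2, p.2.2.1⟩))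
    rintro ⟨⟨a, l⟩, _⟩ ⟨⟨a', l'⟩, _⟩ h
    simp only [Prod.mk.injEq, Subtype.mk.injEq] at h
    apply Subtype.ext
    simp only [Prod.mk.injEq]
    exact h
  let H := (p : Words) → Equiv.Perm (G × Fin (p.1.2.length + 1))
  have hphi : ∀ p : Words, ∃ φ : Bool → G →* Equiv.Perm (G × Fin (p.1.2.length + 1)),
      altProd φ p.1.1 p.1.2 ≠ 1 := fun p => one_word p.1.1 p.1.2 p.2.1 p.2.2.2
  choose φ hφ using hphi
  refine ⟨H, inferInstance, inferInstance, fun b => MonoidHom.pi (fun p => φ p b), ?_⟩
  intro t l h1 h2 h3 hone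
  let p : Words := ⟨(t, l), h1, h2, h3⟩
  have h4 := altProd_map (Pi.evalMonoidHom _ p) (fun b => MonoidHom.pi (fun p => φ p b)) t l
  have h5 : (fun b => (Pi.evalMonoidHom (fun p : Words => Equiv.Perm (G × Fin (p.1.2.length + 1))) p).comp
      (MonoidHom.pi (fun p => φ p b))) = φ p := by
    funext b
    ext a y
    all_goals rfl
  rw [hone, map_one, h5] at h4
  exact hφ p h4.symm

end Residual

end Vale.Agent.Lib.P090
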