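import Mathlib

/-!
# Truncated word metrics for the action of a finite symmetric set of letters.
-/

namespace Vale.Agent.Lib.P090

section WordMetric

variable {L X X' : Type} (a : L → X → X) (a' : L → X' → X')

/-- The action of a word; the head letter acts last. -/
def evalW : List L → X → X
  | [], x => x
  | l :: w, x => a l (evalW w x)

@[simp] lemma evalW_nil (x : X) : evalW a [] x = x := rfl

@[simp] lemma evalW_cons (l : L) (w : List L) (x : X) : evalW a (l :: w) x = a l (evalW a w x) :=
  rfl

lemma evalW_append (u v : List L) (x : X) : evalW a (u ++ v) x = evalW a u (evalW a v x) := by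
  induction u with
  | nil => rfl
  | cons l u ih => simp [ih]

/-- The inverse word. -/
def invW (inv : L → L) (w : List L) : List L := (w.map inv).reverse

@[simp] lemma length_invW (inv : L → L) (w : List L) : (invW inv w).length = w.length := by
  simp [invW]

lemma evalW_invW_left {inv : L → L} (h : ∀ l x, a (inv l) (a l x) = x) (w : List L) (x : X) :
    evalW a (invW inv w) (evalW a w x) = x := by
  induction w with
  | nil => rfl
  | cons l w ih =>
    have : invW inv (l :: w) = invW inv w ++ [inv l] := by simp [invW]
    rw [this, evalW_append]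
    simp [h, ih]

lemma evalW_invW_right {inv : L → L} (h : ∀ l x, a l (a (inv l) x) = x) (w : List L) (x : X) :
    evalW a w (evalW a (invW inv w) x) = x := by
  induction w generalizing x with
  | nil => rfl
  | cons l w ih =>
    have : invW inv (l :: w) = invW inv w ++ [inv l] := by simp [invW]
    rw [this, evalW_append]
    simp only [evalW_cons, evalW_nil]
    rw [ih, h]

/-- The word distance truncated at `T`. -/
noncomputable def wd (T : ℕ) (x y : X) : ℕ :=
  sInf {n | n = T ∨ ∃ w : List L, w.length = n ∧ evalW a w x = y}

variable {a a'} {T : ℕ}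

lemma wd_le_T (x y : X) : wd a T x y ≤ T := Nat.sInf_le (Or.inl rfl)

lemma wd_le_length {w : List L} {x y : X} (h : evalW a w x = y) : wd a T x y ≤ w.length :=
  Nat.sInf_le (Or.inr ⟨w, rfl, h⟩)

lemma exists_word_of_wd_lt {x y : X} (h : wd a T x y < T) :
    ∃ w : List L, w.length = wd a T x y ∧ evalW a w x = y := by
  have hne : ({n | n = T ∨ ∃ w : List L, w.length = n ∧ evalW a w x = y} : Set ℕ).Nonempty :=
    ⟨T, Or.inl rfl⟩
  have := Nat.sInf_mem hne
  rcases this with h1 | h1
  · exact absurd h (by unfold wd; omega)
  · exact h1

lemma wd_self (x : X) : wd a T x x = 0 :=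
  Nat.le_zero.mp (wd_le_length (w := []) rfl)

lemma eq_of_wd_eq_zero (hT : 0 < T) {x y : X} (h : wd a T x y = 0) : x = y := by
  obtain ⟨w, hw, he⟩ := exists_word_of_wd_lt (a := a) (T := T) (x := x) (y := y) (by omega)
  rw [h] at hw
  rw [List.length_eq_zero_iff.mp hw] at he
  exact he

lemma wd_triangle (x y z : X) : wd a T x z ≤ wd a T x y + wd a T y z := by
  by_cases h1 : wd a T x y < T
  · by_cases h2 : wd a T y z < T
    · obtain ⟨w, hw, he⟩ := exists_word_of_wd_lt h1
      obtain ⟨w', hw', he'⟩ := exists_word_of_wd_lt h2
      have : evalW a (w' ++ w) x = z := by rw [evalW_append, he, he']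
      have h3 := wd_le_length (T := T) this
      simpa [hw, hw', add_comm] using h3
    · have := wd_le_T (a := a) (T := T) x z
      omega
  · have := wd_le_T (a := a) (T := T) x z
    omega

lemma wd_comm {inv : L → L} (h : ∀ l x, a (inv l) (a l x) = x) (x y : X) :
    wd a T x y = wd a T y x := by
  have key : ∀ u v : X, wd a T u v ≤ wd a T v u := by
    intro u v
    by_cases h1 : wd a T v u < T
    · obtain ⟨w, hw, he⟩ := exists_word_of_wd_lt h1
      have : evalW a (invW inv w) u = v := by
        rw [← he]; exact evalW_invW_left a h w v
      have h3 := wd_le_length (T := T) this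
      simpa [hw] using h3
    · have := wd_le_T (a := a) (T := T) u v
      omega
  exact le_antisymm (key x y) (key y x)

lemma wd_letter (l : L) (x : X) : wd a T x (a l x) ≤ 1 :=
  wd_le_length (w := [l]) rfl

/-- Distances do not increase under an equivariant map. -/
lemma wd_map_le {π : X → X'} (hπ : ∀ l x, π (a l x) = a' l (π x)) (x y : X) :
    wd a' T (π x) (π y) ≤ wd a T x y := by
  by_cases h1 : wd a T x y < T
  · obtain ⟨w, hw, he⟩ := exists_word_of_wd_lt h1
    have key : ∀ (w : List L) (x : X), evalW a' w (π x) = π (evalW a w x) := by
      intro w x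
      induction w with
      | nil => rfl
      | cons l w ih => simp [hπ, ih]
    have : evalW a' w (π x) = π y := by rw [key, he]
    have h3 := wd_le_length (T := T) this
    simpa [hw] using h3
  · have := wd_le_T (a := a') (T := T) (π x) (π y)
    omega

lemma evalW_map {π : X → X'} (hπ : ∀ l x, π (a l x) = a' l (π x)) (w : List L) (x : X) :
    evalW a' w (π x) = π (evalW a w x) := by
  induction w with
  | nil => rfl
  | cons l w ih => simp [hπ, ih]

/-- The set of points reachable by a word of length at most `R` has at most
`(card L + 1) ^ R` elements. -/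
lemma card_reach_le [Fintype L] [DecidableEq X] (x : X) (R : ℕ) :
    ∃ s : Finset X, s.card ≤ (Fintype.card L + 1) ^ R ∧
      ∀ w : List L, w.length ≤ R → evalW a w x ∈ s := by
  induction R with
  | zero =>
    refine ⟨{x}, by simp, ?_⟩
    intro w hw
    have : w = [] := List.length_eq_zero_iff.mp (Nat.le_zero.mp hw)
    simp [this]
  | succ R ih =>
    obtain ⟨s, hs, hw⟩ := ih
    refine ⟨s ∪ (Finset.univ : Finset L).biUnion (fun l => s.image (a l)), ?_, ?_⟩
    · calc _ ≤ s.card + ((Finset.univ : Finset L).biUnion (fun l => s.image (a l))).card :=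
            Finset.card_union_le _ _
        _ ≤ s.card + ∑ l : L, (s.image (a l)).card := by
            gcongr; exact Finset.card_biUnion_le
        _ ≤ s.card + ∑ _l : L, s.card := by
            apply Nat.add_le_add_left
            apply Finset.sum_le_sum
            intro l _
            exact Finset.card_image_le
        _ = (Fintype.card L + 1) * s.card := by
            simp [Finset.card_univ]; ring
        _ ≤ (Fintype.card L + 1) * (Fintype.card L + 1) ^ R := by gcongr
        _ = _ := by ring
    · intro w hw'
      cases w with
      | nil =>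
        apply Finset.mem_union_left
        exact hw [] (by simp)
      | cons l w =>
        apply Finset.mem_union_right
        simp only [Finset.mem_biUnion, Finset.mem_univ, true_and, Finset.mem_image]
        exact ⟨l, evalW a w x, hw w (by simpa using hw'), rfl⟩

end WordMetric

end Vale.Agent.Lib.P090
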