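import Vale.Agent.Lib.P090.Tower
import Vale.Agent.Lib.P090.Residual
import Vale.Agent.Lib.P090.WordMetric

/-!
# The closure property: a short word with a fixed point on the base acts trivially on the fibre.
-/

set_option linter.unusedSectionVars false

namespace Vale.Agent.Lib.P090

open Matrix

/-- The product of the generators of a word, in `SL₃(R)`. -/
def prodR (R : Type) [CommRing R] (w : List (Bool × Gen)) : SL3 R :=
  (w.map (fun l => gen R l.2)).prod

@[simp] lemma prodR_nil (R : Type) [CommRing R] : prodR R [] = 1 := rfl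

@[simp] lemma prodR_cons (R : Type) [CommRing R] (l : Bool × Gen) (w : List (Bool × Gen)) :
    prodR R (l :: w) = gen R l.2 * prodR R w := by
  simp [prodR]

lemma prodR_append (R : Type) [CommRing R] (u v : List (Bool × Gen)) :
    prodR R (u ++ v) = prodR R u * prodR R v := by
  simp [prodR]

lemma map_gen (R : Type) [CommRing R] (s : Gen) :
    Matrix.SpecialLinearGroup.map (Int.castRingHom R) (gen ℤ s) = gen R s := by
  obtain ⟨⟨⟨i, j⟩, hij⟩, b⟩ := s
  apply Matrix.SpecialLinearGroup.ext
  intro x y
  simp only [gen, Matrix.SpecialLinearGroup.map_apply_coe, RingHom.mapMatrix_apply, Matrix.map_apply, el_coe]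
  simp only [transvection, Matrix.add_apply, Matrix.one_apply, Matrix.single_apply]
  cases b <;> split_ifs <;> simp_all

lemma map_prodR (R : Type) [CommRing R] (w : List (Bool × Gen)) :
    Matrix.SpecialLinearGroup.map (Int.castRingHom R) (prodR ℤ w) = prodR R w := by
  induction w with
  | nil => simp
  | cons l w ih => simp [map_mul, map_gen, ih]

lemma abs_entry_prodR (w : List (Bool × Gen)) (i j : Fin 3) :
    |(prodR ℤ w : Matrix (Fin 3) (Fin 3) ℤ) i j| ≤ 2 ^ w.length := by
  induction w generalizing i j with
  | nil =>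
    simp only [prodR_nil, Matrix.SpecialLinearGroup.coe_one, List.length_nil, pow_zero, Matrix.one_apply]
    split_ifs <;> simp
  | cons l w ih =>
    obtain ⟨b, ⟨⟨u, v⟩, huv⟩, t⟩ := l
    rw [prodR_cons, Matrix.SpecialLinearGroup.coe_mul]
    simp only [gen, el_coe, List.length_cons]
    have h1 := ih i j
    by_cases hi : i = u
    · subst hi
      rw [transvection_mul_apply_same]
      have h2 := ih v j
      have h3 : ∀ c : ℤ, |c| = 1 → |(prodR ℤ w : Matrix (Fin 3) (Fin 3) ℤ) i j
          + c * (prodR ℤ w : Matrix (Fin 3) (Fin 3) ℤ) v j| ≤ 2 ^ (w.length + 1) := by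
        intro c hc
        refine (abs_add_le _ _).trans ?_
        rw [abs_mul, hc, one_mul, pow_succ]
        linarith
      cases t <;> simp only [if_true, if_false, Bool.false_eq_true] <;> exact h3 _ (by simp)
    · rw [transvection_mul_apply_of_ne _ _ _ _ hi]
      rw [pow_succ]
      have : (0 : ℤ) ≤ 2 ^ w.length := by positivity
      linarith

lemma eq_one_of_map_eq_one {p : ℕ} [Fact p.Prime] {M : SL3 ℤ} {B : ℤ}
    (hB : ∀ i j, |(M : Matrix (Fin 3) (Fin 3) ℤ) i j| ≤ B) (hp : B + 1 < p)
    (hM : Matrix.SpecialLinearGroup.map (Int.castRingHom (ZMod p)) M = 1) : M = 1 := by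
  apply Matrix.SpecialLinearGroup.ext
  intro i j
  have h1 := congrArg (fun A : SL3 (ZMod p) => (A : Matrix (Fin 3) (Fin 3) (ZMod p)) i j) hM
  simp only [Matrix.SpecialLinearGroup.map_apply_coe, RingHom.mapMatrix_apply, Matrix.map_apply,
    Matrix.SpecialLinearGroup.coe_one, Matrix.one_apply] at h1
  rw [Matrix.SpecialLinearGroup.coe_one, Matrix.one_apply]
  set δ : ℤ := if i = j then 1 else 0 with hδ
  have h2 : (((M : Matrix (Fin 3) (Fin 3) ℤ) i j - δ : ℤ) : ZMod p) = 0 := by
    rw [Int.cast_sub, sub_eq_zero]
    have h3 : ((δ : ℤ) : ZMod p) = if i = j then 1 else 0 := by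
      simp only [hδ]
      split_ifs <;> simp
    rw [h3]
    simpa using h1
  rw [ZMod.intCast_zmod_eq_zero_iff_dvd] at h2
  have h4 : |(M : Matrix (Fin 3) (Fin 3) ℤ) i j - δ| < p := by
    have h5 : |δ| ≤ 1 := by
      simp only [hδ]
      split_ifs <;> simp
    calc _ ≤ |(M : Matrix (Fin 3) (Fin 3) ℤ) i j| + |δ| := abs_sub _ _
      _ ≤ B + 1 := add_le_add (hB i j) h5
      _ < p := hp
  have h6 := Int.eq_zero_of_abs_lt_dvd h2 h4
  omega

/-- A word whose product vanishes modulo a large prime is already trivial over the integers. -/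
lemma prodR_eq_one_of_mod {p : ℕ} [Fact p.Prime] {w : List (Bool × Gen)}
    (hp : 2 ^ w.length + 1 < p) (h : prodR (ZMod p) w = 1) : prodR ℤ w = 1 := by
  apply eq_one_of_map_eq_one (p := p) (B := 2 ^ w.length) (abs_entry_prodR w) (by exact_mod_cast hp)
  rw [map_prodR, h]

lemma gen_ne_one (R : Type) [CommRing R] [Nontrivial R] (s : Gen) : gen R s ≠ 1 := by
  obtain ⟨⟨⟨i, j⟩, hij⟩, b⟩ := s
  intro h
  have h1 := congrArg (fun A : SL3 R => (A : Matrix (Fin 3) (Fin 3) R) i j) h
  simp only [gen, el_coe, Matrix.SpecialLinearGroup.coe_one, transvection, Matrix.add_apply,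
    Matrix.one_apply, Matrix.single_apply] at h1
  simp only at hij
  cases b <;> simp_all

section Closure

variable {p : ℕ} [Fact p.Prime] {H : Type} [Group H] (φ : Bool → SL3 (ZMod p) →* H)

/-- The action of a letter on the group `H`. -/
def aH (l : Bool × Gen) (v : H) : H := φ l.1 (gen _ l.2) * v

/-- The product of the word in `H`. -/
def prodH (w : List (Bool × Gen)) : H := (w.map (fun l => φ l.1 (gen _ l.2))).prod

@[simp] lemma prodH_nil : prodH φ [] = 1 := rfl

@[simp] lemma prodH_cons (l : Bool × Gen) (w : List (Bool × Gen)) :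
    prodH φ (l :: w) = φ l.1 (gen _ l.2) * prodH φ w := by
  simp [prodH]

lemma prodH_append (u v : List (Bool × Gen)) : prodH φ (u ++ v) = prodH φ u * prodH φ v := by
  simp [prodH]

lemma evalW_aH (w : List (Bool × Gen)) (v : H) : evalW (aH φ) w v = prodH φ w * v := by
  induction w with
  | nil => simp
  | cons l w ih => simp [aH, ih, mul_assoc]

lemma prodH_uniform {b : Bool} {w : List (Bool × Gen)} (hw : ∀ e ∈ w, e.1 = b) :
    prodH φ w = φ b (prodR _ w) := by
  induction w with
  | nil => simp
  | cons l w ih =>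
    have h1 : l.1 = b := hw l (by simp)
    rw [prodH_cons, prodR_cons, map_mul, h1, ih (fun e he => hw e (by simp [he]))]

/-- The syllable decomposition of a word. -/
lemma syllables (w : List (Bool × Gen)) :
    (∃ w₁ ws w₂ b, w = w₁ ++ ws ++ w₂ ∧ ws ≠ [] ∧ (∀ e ∈ ws, e.1 = b) ∧ prodR (ZMod p) ws = 1) ∨
      w = [] ∨
      (∃ (t : Bool) (a : SL3 (ZMod p)) (as : List (SL3 (ZMod p))) (wh wt : List (Bool × Gen)),
        w = wh ++ wt ∧ wh ≠ [] ∧ (∀ e ∈ wh, e.1 = t) ∧ prodR (ZMod p) wh = a ∧ a ≠ 1 ∧
        (∀ x ∈ as, x ≠ 1) ∧ (a :: as).length ≤ w.length ∧ prodH φ w = altProd φ t (a :: as)) := by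
  induction w with
  | nil => exact Or.inr (Or.inl rfl)
  | cons e w ih =>
    obtain ⟨b, s⟩ := e
    rcases ih with ⟨w₁, ws, w₂, c, h1, h2, h3, h4⟩ | h0 |
      ⟨t, a, as, wh, wt, h1, h2, h3, h4, h5, h6, h7, h8⟩
    · left
      exact ⟨(b, s) :: w₁, ws, w₂, c, by simp [h1], h2, h3, h4⟩
    · right
      right
      subst h0
      refine ⟨b, gen _ s, [], [(b, s)], [], rfl, by simp, by simp, by simp, gen_ne_one _ s,
        by simp, by simp, by simp [altProd]⟩
    · by_cases hbt : b = t
      · subst hbt
        by_cases ha : gen (ZMod p) s * a = 1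
        · left
          refine ⟨[], (b, s) :: wh, wt, b, by simp [h1], by simp, ?_, ?_⟩
          · intro e he
            rcases List.mem_cons.mp he with rfl | he
            · rfl
            · exact h3 e he
          · rw [prodR_cons, h4]
            exact ha
        · right
          right
          refine ⟨b, gen _ s * a, as, (b, s) :: wh, wt, by simp [h1], by simp, ?_, ?_, ha, h6, ?_, ?_⟩
          · intro e he
            rcases List.mem_cons.mp he with rfl | he
            · rfl
            · exact h3 e he
          · rw [prodR_cons, h4]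
          · simp only [List.length_cons] at h7 ⊢
            omega
          · rw [prodH_cons, h8]
            simp [altProd, mul_assoc]
      · right
        right
        refine ⟨b, gen _ s, a :: as, [(b, s)], w, by simp, by simp, by simp, by simp,
          gen_ne_one _ s, ?_, ?_, ?_⟩
        · intro x hx
          rcases List.mem_cons.mp hx with rfl | hx
          · exact h5
          · exact h6 x hx
        · simp only [List.length_cons] at h7 ⊢
          omega
        · rw [prodH_cons, h8]
          have : (!b) = t := by cases b <;> cases t <;> simp_all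
          simp [altProd, this]

variable (P : PrimeChain)

lemma evalW_iota {b : Bool} {w : List (Bool × Gen)} (hw : ∀ e ∈ w, e.1 = b) {k : ℕ}
    (hk : k % 2 = b.toNat) (g : SL3 (ZMod (P.q k))) :
    evalW P.aY w (P.iota k g).1 = (P.iota k (prodR _ w * g)).1 := by
  induction w with
  | nil => simp
  | cons l w ih =>
    have h1 : l.1 = b := hw l (by simp)
    obtain ⟨c, s⟩ := l
    simp only at h1
    subst h1
    rw [evalW_cons, ih (fun e he => hw e (by simp [he])), P.aY_iota s hk, prodR_cons, mul_assoc]

/-- A uniform word which is trivial over the integers acts trivially on the fibre. -/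
lemma evalW_trivial {b : Bool} {w : List (Bool × Gen)} (hw : ∀ e ∈ w, e.1 = b)
    (h1 : prodR ℤ w = 1) (y : P.TY) : evalW P.aY w y = y := by
  set k := P.cIdx b y with hk
  have hm : y ∈ P.C k := P.mem_C_cIdx b y
  have hp : k % 2 = b.toNat := P.cIdx_par b y
  obtain ⟨g, hg⟩ := (P.iota k).surjective ⟨y, hm⟩
  have hy : y = (P.iota k g).1 := by rw [hg]
  rw [hy, evalW_iota P hw hp, ← map_prodR, h1, map_one, one_mul]

/-- The closure property. -/
theorem closure_of_residual (Len : ℕ) (hp : 2 ^ Len + 1 < p)
    (hres : ∀ (t : Bool) (l : List (SL3 (ZMod p))), l ≠ [] → l.length ≤ Len →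
      (∀ a ∈ l, a ≠ 1) → altProd φ t l ≠ 1)
    (w : List (Bool × Gen)) (hw : w.length ≤ Len) (v : H) (hv : evalW (aH φ) w v = v)
    (y : P.TY) : evalW P.aY w y = y := by
  have h1 : prodH φ w = 1 := by
    rw [evalW_aH] at hv
    exact mul_eq_right.mp hv
  induction hn : w.length using Nat.strong_induction_on generalizing w y with
  | _ n ih =>
    rcases syllables φ w with ⟨w₁, ws, w₂, b, h2, h3, h4, h5⟩ | h0 |
      ⟨t, a, as, wh, wt, _, _, _, _, h6, h7, h8, h9⟩
    · have hlen : w.length = w₁.length + ws.length + w₂.length := by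
        rw [h2]
        simp only [List.length_append]
      have hwsne : 0 < ws.length := List.length_pos_iff.mpr h3
      have hH : prodH φ ws = 1 := by rw [prodH_uniform φ h4, h5, map_one]
      have hZ : prodR ℤ ws = 1 := by
        apply prodR_eq_one_of_mod (p := p) _ h5
        have : 2 ^ ws.length ≤ 2 ^ Len := Nat.pow_le_pow_right (by norm_num) (by omega)
        omega
      have hprod : prodH φ (w₁ ++ w₂) = 1 := by
        rw [h2, prodH_append, prodH_append, hH, mul_one] at h1
        rw [prodH_append]
        exact h1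
      have hshort : (w₁ ++ w₂).length ≤ Len := by
        simp only [List.length_append]
        omega
      have hv' : evalW (aH φ) (w₁ ++ w₂) v = v := by
        rw [evalW_aH, hprod, one_mul]
      have h10 := ih (w₁ ++ w₂).length (by simp only [List.length_append]; omega) (w₁ ++ w₂)
        hshort hv' y hprod rfl
      rw [h2, evalW_append, evalW_append, evalW_trivial P h4 hZ]
      rw [evalW_append] at h10
      exact h10
    · subst h0
      rfl
    · exfalso
      exact hres t (a :: as) (by simp) (by omega) (by
        intro x hx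
        rcases List.mem_cons.mp hx with rfl | hx
        · exact h6
        · exact h7 x hx) (h9.symm.trans h1)

end Closure

end Vale.Agent.Lib.P090
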