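import Mathlib

/-!
# Lipschitz-free spaces and the bounded approximation property

The definitions used in the statement of the P090 hand-in.
-/

namespace Vale.Agent.Lib.P090

open Set

/-- The subspace of `M → ℝ` of Lipschitz functions vanishing at the base point. -/
def lip0Submodule (M : Type) [MetricSpace M] (o : M) : Submodule ℝ (M → ℝ) where
  carrier := {f | (∃ K : NNReal, LipschitzWith K f) ∧ f o = 0}
  add_mem' := by
    rintro f g ⟨⟨K, hK⟩, hf⟩ ⟨⟨L, hL⟩, hg⟩
    exact ⟨⟨K + L, hK.add hL⟩, by simp [hf, hg]⟩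
  zero_mem' := ⟨⟨0, LipschitzWith.const' 0⟩, rfl⟩
  smul_mem' := by
    rintro c f ⟨⟨K, hK⟩, hf⟩
    refine ⟨⟨‖c‖₊ * K, ?_⟩, by simp [hf]⟩
    apply LipschitzWith.of_dist_le_mul
    intro x y
    have h := hK.dist_le_mul x y
    simp only [Pi.smul_apply, smul_eq_mul, Real.dist_eq, NNReal.coe_mul, coe_nnnorm,
      Real.norm_eq_abs] at h ⊢
    rw [← mul_sub, abs_mul, mul_assoc]
    exact mul_le_mul_of_nonneg_left h (abs_nonneg _)

/-- `Lip0 M o`: real Lipschitz functions on `M` vanishing at `o`. It is a type of its own, so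
that its only topology is the one of the Lipschitz norm defined below. -/
def Lip0 (M : Type) [MetricSpace M] (o : M) : Type := lip0Submodule M o

/-- The Lipschitz constant of a function. -/
noncomputable def lipConst {M : Type} [MetricSpace M] (f : M → ℝ) : ℝ :=
  sInf {K : ℝ | 0 ≤ K ∧ ∀ x y, |f x - f y| ≤ K * dist x y}

section LipNorm

variable {M : Type} [MetricSpace M] {o : M}

/-- The underlying function. -/
def Lip0.val (f : Lip0 M o) : M → ℝ := Subtype.val f

noncomputable instance : AddCommGroup (Lip0 M o) :=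
  inferInstanceAs (AddCommGroup (lip0Submodule M o))

noncomputable instance : Module ℝ (Lip0 M o) :=
  inferInstanceAs (Module ℝ (lip0Submodule M o))

lemma Lip0.val_zero : (0 : Lip0 M o).val = 0 := rfl

lemma Lip0.val_add (f g : Lip0 M o) : (f + g).val = f.val + g.val := rfl

lemma Lip0.val_neg (f : Lip0 M o) : (-f).val = -f.val := rfl

lemma Lip0.val_smul (c : ℝ) (f : Lip0 M o) : (c • f).val = c • f.val := rfl

lemma Lip0.val_base (f : Lip0 M o) : f.val o = 0 := f.2.2

lemma Lip0.ext' {f g : Lip0 M o} (h : f.val = g.val) : f = g := Subtype.ext h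

lemma lip_bound_set_nonempty (f : Lip0 M o) :
    ({K : ℝ | 0 ≤ K ∧ ∀ x y, |f.val x - f.val y| ≤ K * dist x y}).Nonempty := by
  obtain ⟨K, hK⟩ := f.2.1
  refine ⟨K, K.2, fun x y => ?_⟩
  have := hK.dist_le_mul x y
  rw [Real.dist_eq] at this
  exact this

lemma lipConst_nonneg (f : M → ℝ) : 0 ≤ lipConst f :=
  Real.sInf_nonneg (fun _ h => h.1)

lemma abs_sub_le_lipConst (f : Lip0 M o) (x y : M) :
    |f.val x - f.val y| ≤ lipConst f.val * dist x y := by
  have hd : 0 ≤ dist x y := dist_nonneg
  by_cases h0 : dist x y = 0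
  · have : x = y := dist_eq_zero.mp h0
    simp [this]
  · have hd' : 0 < dist x y := lt_of_le_of_ne hd (Ne.symm h0)
    rw [← div_le_iff₀ hd']
    apply le_csInf (lip_bound_set_nonempty f)
    rintro K ⟨_, hK⟩
    rw [div_le_iff₀ hd']
    exact hK x y

lemma lipConst_le {f : M → ℝ} {K : ℝ} (hK : 0 ≤ K) (h : ∀ x y, |f x - f y| ≤ K * dist x y) :
    lipConst f ≤ K :=
  csInf_le ⟨0, fun _ h => h.1⟩ ⟨hK, h⟩

/-- The norm of `Lip0 M o`, equal to the Lipschitz constant. -/
noncomputable def lipGroupNorm : AddGroupNorm (Lip0 M o) where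
  toFun f := lipConst f.val
  map_zero' := by
    apply le_antisymm _ (lipConst_nonneg _)
    apply lipConst_le le_rfl
    intro x y
    simp [Lip0.val_zero]
  add_le' f g := by
    apply lipConst_le (add_nonneg (lipConst_nonneg _) (lipConst_nonneg _))
    intro x y
    have h1 := abs_sub_le_lipConst f x y
    have h2 := abs_sub_le_lipConst g x y
    have h3 : (f + g).val x - (f + g).val y = (f.val x - f.val y) + (g.val x - g.val y) := by
      simp only [Lip0.val_add, Pi.add_apply]; ring
    rw [h3]
    calc _ ≤ |f.val x - f.val y| + |g.val x - g.val y| := abs_add_le _ _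
      _ ≤ _ := by nlinarith
  neg' f := by
    have key : ∀ g : Lip0 M o, lipConst (-g).val ≤ lipConst g.val := by
      intro g
      apply lipConst_le (lipConst_nonneg _)
      intro x y
      have h1 := abs_sub_le_lipConst g x y
      have h3 : (-g).val x - (-g).val y = -(g.val x - g.val y) := by
        simp only [Lip0.val_neg, Pi.neg_apply]; ring
      rw [h3, abs_neg]
      exact h1
    apply le_antisymm (key f)
    have := key (-f)
    simpa using this
  eq_zero_of_map_eq_zero' f hf := by
    apply Lip0.ext'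
    funext x
    have h := abs_sub_le_lipConst f x o
    rw [hf, zero_mul, f.val_base, sub_zero] at h
    rw [Lip0.val_zero]
    exact abs_nonpos_iff.mp h

noncomputable instance : NormedAddCommGroup (Lip0 M o) := lipGroupNorm.toNormedAddCommGroup

lemma lip0_norm_def (f : Lip0 M o) : ‖f‖ = lipConst f.val := rfl

noncomputable instance : NormedSpace ℝ (Lip0 M o) where
  norm_smul_le c f := by
    rw [lip0_norm_def, lip0_norm_def, Real.norm_eq_abs]
    apply lipConst_le (mul_nonneg (abs_nonneg _) (lipConst_nonneg _))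
    intro x y
    have h1 := abs_sub_le_lipConst f x y
    have h3 : (c • f).val x - (c • f).val y = c * (f.val x - f.val y) := by
      simp only [Lip0.val_smul, Pi.smul_apply, smul_eq_mul]; ring
    rw [h3, abs_mul, mul_assoc]
    exact mul_le_mul_of_nonneg_left h1 (abs_nonneg _)

lemma abs_apply_le_norm_mul (f : Lip0 M o) (x : M) : |f.val x| ≤ ‖f‖ * dist x o := by
  have h := abs_sub_le_lipConst f x o
  rwa [f.val_base, sub_zero] at h

/-- The evaluation functional `δ_x` on `Lip0 M o`. -/
noncomputable def delta (o : M) (x : M) : StrongDual ℝ (Lip0 M o) :=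
  LinearMap.mkContinuous
    ({ toFun := fun f : Lip0 M o => f.val x
       map_add' := fun _ _ => rfl
       map_smul' := fun _ _ => rfl } : Lip0 M o →ₗ[ℝ] ℝ)
    (dist x o)
    (fun f => by
      rw [mul_comm, Real.norm_eq_abs]
      exact abs_apply_le_norm_mul f x)

lemma delta_apply (x : M) (f : Lip0 M o) : delta o x f = f.val x := rfl

end LipNorm

/-- The Lipschitz-free space `F(M)`: the closed linear span of the evaluations in the dual
of `Lip0 M o`. -/
noncomputable def freeSpace (M : Type) [MetricSpace M] (o : M) :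
    Submodule ℝ (StrongDual ℝ (Lip0 M o)) :=
  (Submodule.span ℝ (Set.range (delta o))).topologicalClosure

/-- The bounded approximation property: for some `lam`, every compact set is uniformly
approximated to within any `ε > 0` by a finite-rank operator of norm at most `lam`. -/
def HasBAP (X : Type) [NormedAddCommGroup X] [NormedSpace ℝ X] : Prop :=
  ∃ lam : ℝ, ∀ C : Set X, IsCompact C → ∀ ε : ℝ, 0 < ε →
    ∃ T : X →L[ℝ] X, FiniteDimensional ℝ (LinearMap.range T.toLinearMap) ∧ ‖T‖ ≤ lam ∧
      ∀ u ∈ C, ‖T u - u‖ < ε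

end Vale.Agent.Lib.P090
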