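import Vale.Agent.Lib.P090.Defs

/-!
# The bounded approximation property of the free space gives finite-support folds
-/

namespace Vale.Agent.Lib.P090

open Finset

variable {M : Type} [MetricSpace M] {o : M}

/-- A `1`-Lipschitz function vanishing at the base point, as an element of `Lip0`. -/
noncomputable def mkLip (f : M → ℝ) (hf : ∀ x y, |f x - f y| ≤ dist x y) (h0 : f o = 0) :
    Lip0 M o :=
  (⟨f, ⟨⟨1, LipschitzWith.of_dist_le_mul (fun x y => by
      simpa [Real.dist_eq] using hf x y)⟩, h0⟩⟩ : lip0Submodule M o)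

lemma mkLip_val (f : M → ℝ) (hf : ∀ x y, |f x - f y| ≤ dist x y) (h0 : f o = 0) :
    (mkLip (o := o) f hf h0).val = f := rfl

lemma mkLip_norm (f : M → ℝ) (hf : ∀ x y, |f x - f y| ≤ dist x y) (h0 : f o = 0) :
    ‖mkLip (o := o) f hf h0‖ ≤ 1 := by
  rw [lip0_norm_def]
  apply lipConst_le zero_le_one
  intro x y
  simpa [mkLip_val] using hf x y

/-- The evaluation at `x`, as an element of the free space. -/
noncomputable def deltaF (o : M) (x : M) : freeSpace M o :=
  ⟨delta o x, by
    have h : delta o x ∈ Submodule.span ℝ (Set.range (delta o)) :=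
      Submodule.subset_span ⟨x, rfl⟩
    exact Submodule.le_topologicalClosure _ h⟩

lemma norm_free_nonneg (u : freeSpace M o) : 0 ≤ ‖u‖ :=
  ContinuousLinearMap.opNorm_nonneg (u : StrongDual ℝ (Lip0 M o))

lemma deltaF_apply (x : M) (g : Lip0 M o) :
    ((deltaF o x : freeSpace M o) : StrongDual ℝ (Lip0 M o)) g = g.val x := rfl

lemma norm_deltaF_sub_le (x y : M) : ‖deltaF o x - deltaF o y‖ ≤ dist x y := by
  show ‖((deltaF o x - deltaF o y : freeSpace M o) : StrongDual ℝ (Lip0 M o))‖ ≤ dist x y
  apply ContinuousLinearMap.opNorm_le_bound _ dist_nonneg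
  intro g
  have h : (((deltaF o x - deltaF o y : freeSpace M o)) : StrongDual ℝ (Lip0 M o)) g
      = g.val x - g.val y := rfl
  rw [h, Real.norm_eq_abs, mul_comm]
  exact abs_sub_le_lipConst g x y

/-- A finite rank operator on a normed space splits as a finite sum of rank one maps whose
coefficient functionals are controlled by the norm of the image. -/
lemma finite_rank_decomp {X : Type} [NormedAddCommGroup X] [NormedSpace ℝ X] (T : X →L[ℝ] X)
    (hfin : FiniteDimensional ℝ (LinearMap.range T.toLinearMap)) :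
    ∃ (n : ℕ) (φ : Fin n → X →ₗ[ℝ] ℝ) (e : Fin n → X) (C : ℝ), 0 ≤ C ∧
      (∀ u, T u = ∑ i, φ i u • e i) ∧ ∀ i u, |φ i u| ≤ C * ‖T u‖ := by
  let R := LinearMap.range T.toLinearMap
  let T' : X →ₗ[ℝ] R := T.toLinearMap.rangeRestrict
  let b := Module.finBasis ℝ R
  let ψ : Fin (Module.finrank ℝ R) → (R →L[ℝ] ℝ) :=
    fun i => LinearMap.toContinuousLinearMap (b.coord i)
  refine ⟨Module.finrank ℝ R, fun i => (b.coord i).comp T', fun i => (b i : X),
    ∑ i, ‖ψ i‖, Finset.sum_nonneg (fun _ _ => ContinuousLinearMap.opNorm_nonneg _), ?_, ?_⟩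
  · intro u
    have h1 : T' u = ∑ i, b.repr (T' u) i • b i := (b.sum_repr (T' u)).symm
    have h2 : T u = ((T' u : R) : X) := rfl
    rw [h2, h1]
    simp only [Submodule.coe_sum, Submodule.coe_smul]
    exact Finset.sum_congr rfl (fun i _ => rfl)
  · intro i u
    have h := (ψ i).le_opNorm (T' u)
    rw [Real.norm_eq_abs] at h
    have h3 : ‖T' u‖ = ‖T u‖ := rfl
    rw [h3] at h
    refine h.trans (mul_le_mul_of_nonneg_right ?_ (norm_nonneg _))
    exact Finset.single_le_sum (f := fun i => ‖ψ i‖)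
      (fun _ _ => ContinuousLinearMap.opNorm_nonneg _) (Finset.mem_univ i)

theorem fold_of_bap (M : Type) [MetricSpace M] (o : M) (h : HasBAP (freeSpace M o)) :
    ∃ Lam : ℝ, 0 ≤ Lam ∧ ∀ A : Finset M, ∃ (B : Finset M) (c : M → M → ℝ),
      (∀ f : M → ℝ, (∀ x y, |f x - f y| ≤ dist x y) → f o = 0 →
        ∀ x y, |∑ w ∈ B, (c x w - c y w) * f w| ≤ Lam * dist x y) ∧
      (∀ a ∈ A, ∀ f : M → ℝ, (∀ x y, |f x - f y| ≤ dist x y) → f o = 0 →
        |∑ w ∈ B, c a w * f w - f a| ≤ 1 / 2) := by
  classical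
  obtain ⟨lam, hlam⟩ := h
  refine ⟨|lam| + 1, by positivity, fun A => ?_⟩
  -- the finite rank operator
  have hC : IsCompact ((fun x => deltaF o x) '' (A : Set M)) :=
    (A.finite_toSet.image _).isCompact
  obtain ⟨T, hfin, hTnorm, hT⟩ := hlam _ hC (1 / 4) (by norm_num)
  obtain ⟨n, φ, e, C, hC0, hdec, hφ⟩ := finite_rank_decomp T hfin
  set Y : ℝ := 1 + ∑ a ∈ A, ‖deltaF o a‖ with hY
  have hY1 : 1 ≤ Y := by
    have : 0 ≤ ∑ a ∈ A, ‖deltaF o a‖ := Finset.sum_nonneg (fun _ _ => norm_free_nonneg _)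
    linarith
  set W : ℝ := (n : ℝ) * (C * (|lam| + 1)) with hW
  have hW0 : 0 ≤ W := by positivity
  set η : ℝ := 1 / (4 * (W * Y + 1)) with hη
  have hWY : 0 < W * Y + 1 := by positivity
  have hη0 : 0 < η := by positivity
  have hWYη : W * Y * η ≤ 1 / 4 := by
    rw [hη, mul_one_div, div_le_div_iff₀ (by positivity) (by norm_num)]
    nlinarith
  have hWη : W * η ≤ 1 / 4 := by
    have : W * η ≤ W * Y * η := by
      have : 0 ≤ W * η := by positivity
      nlinarith
    linarith
  -- approximating the basis vectors by elements of the span of the evaluations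
  have happrox : ∀ i, ∃ β : M →₀ ℝ,
      dist (e i : StrongDual ℝ (Lip0 M o))
        (β.sum fun w a => a • delta o w) < η := by
    intro i
    have hmem : (e i : StrongDual ℝ (Lip0 M o)) ∈
        closure ((Submodule.span ℝ (Set.range (delta o)) : Submodule ℝ _) :
          Set (StrongDual ℝ (Lip0 M o))) := by
      have h' : (e i : StrongDual ℝ (Lip0 M o)) ∈
          (Submodule.span ℝ (Set.range (delta o))).topologicalClosure := (e i).2
      rwa [← SetLike.mem_coe, Submodule.topologicalClosure_coe] at h'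
    rw [Metric.mem_closure_iff] at hmem
    obtain ⟨z, hz, hd⟩ := hmem η hη0
    have hz' : z ∈ Submodule.span ℝ (Set.range (delta o)) := hz
    rw [Finsupp.mem_span_range_iff_exists_finsupp] at hz'
    obtain ⟨β, rfl⟩ := hz'
    exact ⟨β, hd⟩
  choose β hβ using happrox
  let B : Finset M := Finset.univ.biUnion (fun i => (β i).support)
  let c : M → M → ℝ := fun x w => ∑ i, φ i (deltaF o x) * β i w
  -- evaluation of the approximants
  have hev : ∀ (i) (g : Lip0 M o),
      (((β i).sum fun w a => a • delta o w) : StrongDual ℝ (Lip0 M o)) g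
        = ∑ w ∈ B, β i w * g.val w := by
    intro i g
    have hsub : (β i).support ⊆ B := fun w hw =>
      Finset.mem_biUnion.mpr ⟨i, Finset.mem_univ _, hw⟩
    rw [Finsupp.sum, _root_.sum_apply]
    rw [Finset.sum_subset hsub]
    · exact Finset.sum_congr rfl (fun w _ => rfl)
    · intro w _ hw
      rw [Finsupp.notMem_support_iff] at hw
      simp [hw]
  -- the main identity and the main estimate
  have hsum : ∀ (x : M) (g : Lip0 M o), ∑ w ∈ B, c x w * g.val w
      = ∑ i, φ i (deltaF o x) * (∑ w ∈ B, β i w * g.val w) := by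
    intro x g
    simp only [c, Finset.sum_mul, Finset.mul_sum]
    rw [Finset.sum_comm]
    exact Finset.sum_congr rfl (fun i _ => Finset.sum_congr rfl (fun w _ => by ring))
  have hexp : ∀ (u : freeSpace M o) (g : Lip0 M o),
      ((T u : freeSpace M o) : StrongDual ℝ (Lip0 M o)) g
        = ∑ i, φ i u * (e i : StrongDual ℝ (Lip0 M o)) g := by
    intro u g
    have h2 : ((T u : freeSpace M o) : StrongDual ℝ (Lip0 M o))
        = ∑ i, φ i u • (e i : StrongDual ℝ (Lip0 M o)) := by
      rw [hdec u]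
      push_cast
      rfl
    rw [h2, _root_.sum_apply]
    exact Finset.sum_congr rfl (fun i _ => rfl)
  have hmain : ∀ (u : freeSpace M o) (g : Lip0 M o), ‖g‖ ≤ 1 →
      |((T u : freeSpace M o) : StrongDual ℝ (Lip0 M o)) g
        - ∑ i, φ i u * (∑ w ∈ B, β i w * g.val w)| ≤ W * η * ‖u‖ := by
    intro u g hg
    rw [hexp u g, ← Finset.sum_sub_distrib]
    refine (Finset.abs_sum_le_sum_abs _ _).trans ?_
    have hterm : ∀ i ∈ (Finset.univ : Finset (Fin n)),
        |φ i u * (e i : StrongDual ℝ (Lip0 M o)) g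
          - φ i u * (∑ w ∈ B, β i w * g.val w)|
        ≤ C * (|lam| + 1) * η * ‖u‖ := by
      intro i _
      rw [← mul_sub, abs_mul]
      have h1 : |φ i u| ≤ C * ((|lam| + 1) * ‖u‖) := by
        refine (hφ i u).trans (mul_le_mul_of_nonneg_left ?_ hC0)
        refine (T.le_opNorm u).trans (mul_le_mul_of_nonneg_right ?_ (norm_free_nonneg _))
        have := le_abs_self lam
        linarith
      have h2 : |(e i : StrongDual ℝ (Lip0 M o)) g
          - ∑ w ∈ B, β i w * g.val w| ≤ η := by
        rw [← hev i g]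
        have h4 := hβ i
        rw [dist_eq_norm] at h4
        have h5 := (((e i : StrongDual ℝ (Lip0 M o))
          - ((β i).sum fun w a => a • delta o w))).le_opNorm g
        rw [Real.norm_eq_abs, sub_apply] at h5
        refine h5.trans ?_
        calc _ ≤ η * 1 := mul_le_mul h4.le hg (norm_nonneg _) hη0.le
          _ = η := mul_one _
      calc _ ≤ (C * ((|lam| + 1) * ‖u‖)) * η :=
            mul_le_mul h1 h2 (abs_nonneg _) (by positivity)
        _ = _ := by ring
    refine (Finset.sum_le_sum hterm).trans (le_of_eq ?_)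
    rw [Finset.sum_const, Finset.card_univ, Fintype.card_fin, nsmul_eq_mul, hW]
    ring
  refine ⟨B, c, ?_, ?_⟩
  · -- the Lipschitz bound
    intro f hf h0 x y
    set F := mkLip (o := o) f hf h0 with hF
    have hFn : ‖F‖ ≤ 1 := mkLip_norm f hf h0
    have hFv : F.val = f := rfl
    have hlhs : ∑ w ∈ B, (c x w - c y w) * f w
        = ∑ i, φ i (deltaF o x - deltaF o y) * (∑ w ∈ B, β i w * F.val w) := by
      have h1 : ∑ w ∈ B, (c x w - c y w) * f w
          = ∑ w ∈ B, c x w * F.val w - ∑ w ∈ B, c y w * F.val w := by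
        rw [← Finset.sum_sub_distrib, hFv]
        exact Finset.sum_congr rfl (fun w _ => by ring)
      rw [h1, hsum x F, hsum y F, ← Finset.sum_sub_distrib]
      refine Finset.sum_congr rfl (fun i _ => ?_)
      rw [(φ i).map_sub]
      ring
    rw [hlhs]
    set u := deltaF o x - deltaF o y with hu
    have hun : ‖u‖ ≤ dist x y := norm_deltaF_sub_le x y
    have hm := hmain u F hFn
    have hTu : |((T u : freeSpace M o) : StrongDual ℝ (Lip0 M o)) F| ≤ |lam| * dist x y := by
      have h1 := (((T u : freeSpace M o) : StrongDual ℝ (Lip0 M o))).le_opNorm F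
      rw [Real.norm_eq_abs] at h1
      refine h1.trans ?_
      have h2 : ‖((T u : freeSpace M o) : StrongDual ℝ (Lip0 M o))‖ = ‖T u‖ := rfl
      rw [h2]
      have h3 : ‖T u‖ ≤ |lam| * dist x y := by
        refine (T.le_opNorm u).trans ?_
        exact mul_le_mul (hTnorm.trans (le_abs_self _)) hun (norm_free_nonneg _) (abs_nonneg _)
      calc _ ≤ (|lam| * dist x y) * 1 :=
            mul_le_mul h3 hFn (norm_nonneg _) (by positivity)
        _ = _ := mul_one _
    have hWu : W * η * ‖u‖ ≤ dist x y := by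
      have h1 : W * η * ‖u‖ ≤ (1 / 4) * dist x y :=
        mul_le_mul hWη hun (norm_free_nonneg _) (by norm_num)
      have h2 : (0 : ℝ) ≤ dist x y := dist_nonneg
      linarith
    have := abs_sub_abs_le_abs_sub
      (∑ i, φ i u * (∑ w ∈ B, β i w * F.val w))
      (((T u : freeSpace M o) : StrongDual ℝ (Lip0 M o)) F)
    rw [abs_sub_comm] at this
    have h5 := this.trans hm
    nlinarith
  · -- the approximate identity on `A`
    intro a ha f hf h0
    set F := mkLip (o := o) f hf h0 with hF
    have hFn : ‖F‖ ≤ 1 := mkLip_norm f hf h0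
    have hFv : F.val = f := rfl
    have hu := hmain (deltaF o a) F hFn
    have hWu : W * η * ‖deltaF o a‖ ≤ 1 / 4 := by
      have h1 : ‖deltaF o a‖ ≤ Y := by
        have : ‖deltaF o a‖ ≤ ∑ a ∈ A, ‖deltaF o a‖ :=
          Finset.single_le_sum (f := fun a => ‖deltaF o a‖)
            (fun _ _ => norm_free_nonneg _) ha
        rw [hY]; linarith
      have h2 : W * η * ‖deltaF o a‖ ≤ W * η * Y :=
        mul_le_mul_of_nonneg_left h1 (by positivity)
      have h3 : W * η * Y = W * Y * η := by ring
      linarith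
    have hclose : ‖T (deltaF o a) - deltaF o a‖ < 1 / 4 :=
      hT _ ⟨a, ha, rfl⟩
    have hclose2 : |((T (deltaF o a) : freeSpace M o) : StrongDual ℝ (Lip0 M o)) F - f a| ≤ 1 / 4 := by
      have h1 := ((((T (deltaF o a) - deltaF o a : freeSpace M o)) :
        StrongDual ℝ (Lip0 M o))).le_opNorm F
      rw [Real.norm_eq_abs] at h1
      have h2 : ((((T (deltaF o a) - deltaF o a : freeSpace M o)) :
        StrongDual ℝ (Lip0 M o))) F
          = ((T (deltaF o a) : freeSpace M o) : StrongDual ℝ (Lip0 M o)) F - f a := rfl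
      rw [h2] at h1
      refine h1.trans ?_
      have h3 : ‖(((T (deltaF o a) - deltaF o a : freeSpace M o)) :
        StrongDual ℝ (Lip0 M o))‖ = ‖T (deltaF o a) - deltaF o a‖ := rfl
      rw [h3]
      calc _ ≤ (1 / 4 : ℝ) * 1 := mul_le_mul hclose.le hFn (norm_nonneg _) (by norm_num)
        _ = 1 / 4 := mul_one _
    have hs := hsum a F
    rw [hFv] at hs
    rw [hs]
    rw [hFv] at hu
    have hu2 := hu.trans hWu
    rw [abs_le] at hu2 hclose2 ⊢
    constructor <;> linarith [hu2.1, hu2.2, hclose2.1, hclose2.2]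

end Vale.Agent.Lib.P090
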