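import Vale.Agent.Lib.P090.Label

/-!
# The inequalities satisfied by the mass functions extracted from a fold.
-/

set_option linter.unusedSectionVars false

namespace Vale.Agent.Lib.P090

open Finset

namespace Setup

variable {L V Y : Type} (S : Setup L V Y)

/-- A fold of the piece with constant `Lam`: finitely supported coefficients. -/
structure Fold (B : Finset S.Pt) (c : S.Pt → S.Pt → ℝ) (Lam : ℝ) : Prop where
  grad : ∀ h : S.Pt → ℝ, (∀ x y, |h x - h y| ≤ S.dP x y) → (∀ x, |h x| ≤ S.D) →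
    ∀ x y, |∑ w ∈ B, (c x w - c y w) * h w| ≤ Lam * S.dP x y
  hub : ∀ (a : {a // a ∈ S.A}) (h : S.Pt → ℝ), (∀ x y, |h x - h y| ≤ S.dP x y) →
    (∀ x, |h x| ≤ S.D) → |∑ w ∈ B, c (Sum.inr a) w * h w - h (Sum.inr a)| ≤ 1 / 2

/-- The pairing of the coefficients of `x` with a function. -/
def Pr (B : Finset S.Pt) (c : S.Pt → S.Pt → ℝ) (x : S.Pt) (h : S.Pt → ℝ) : ℝ :=
  ∑ w ∈ B, c x w * h w

variable {S} {B : Finset S.Pt} {c : S.Pt → S.Pt → ℝ} {Lam : ℝ}

lemma Pr_congr {x : S.Pt} {h h' : S.Pt → ℝ} (hh : ∀ w, h w = h' w) :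
    S.Pr B c x h = S.Pr B c x h' := by
  unfold Pr
  exact Finset.sum_congr rfl (fun w _ => by rw [hh w])

lemma Pr_sub (x : S.Pt) (h h' : S.Pt → ℝ) :
    S.Pr B c x (fun w => h w - h' w) = S.Pr B c x h - S.Pr B c x h' := by
  unfold Pr
  rw [← Finset.sum_sub_distrib]
  exact Finset.sum_congr rfl (fun w _ => by ring)

lemma Pr_const_mul (x : S.Pt) (k : ℝ) (h : S.Pt → ℝ) :
    S.Pr B c x (fun w => k * h w) = k * S.Pr B c x h := by
  unfold Pr
  rw [Finset.mul_sum]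
  exact Finset.sum_congr rfl (fun w _ => by ring)

lemma Pr_sum {ι : Type} (s : Finset ι) (x : S.Pt) (f : ι → ℝ) (h : ι → S.Pt → ℝ) :
    S.Pr B c x (fun w => ∑ i ∈ s, f i * h i w) = ∑ i ∈ s, f i * S.Pr B c x (h i) := by
  unfold Pr
  simp only [Finset.mul_sum]
  rw [Finset.sum_comm]
  refine Finset.sum_congr rfl (fun i _ => Finset.sum_congr rfl (fun w _ => by ring))

/-- The scaled Lipschitz estimate. -/
lemma Pr_sub_le (F : S.Fold B c Lam) {K : ℝ} (hK : 0 < K) {h : S.Pt → ℝ}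
    (hL : ∀ x y, |h x - h y| ≤ K * S.dP x y) (hb : ∀ x, |h x| ≤ K * S.D) (x y : S.Pt) :
    |S.Pr B c x h - S.Pr B c y h| ≤ K * (Lam * S.dP x y) := by
  have h1 := F.grad (fun w => K⁻¹ * h w)
    (fun x y => by
      rw [← mul_sub, abs_mul, abs_of_pos (inv_pos.mpr hK), inv_mul_le_iff₀ hK]
      exact hL x y)
    (fun x => by
      rw [abs_mul, abs_of_pos (inv_pos.mpr hK), inv_mul_le_iff₀ hK]
      exact hb x) x y
  have h2 : ∑ w ∈ B, (c x w - c y w) * (K⁻¹ * h w) = K⁻¹ * (S.Pr B c x h - S.Pr B c y h) := by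
    unfold Pr
    rw [← Finset.sum_sub_distrib, Finset.mul_sum]
    exact Finset.sum_congr rfl (fun w _ => by ring)
  rw [h2, abs_mul, abs_of_pos (inv_pos.mpr hK), inv_mul_le_iff₀ hK] at h1
  exact h1

/-- The scaled estimate at a hub. -/
lemma Pr_hub_le (F : S.Fold B c Lam) {K : ℝ} (hK : 0 < K) {h : S.Pt → ℝ}
    (hL : ∀ x y, |h x - h y| ≤ K * S.dP x y) (hb : ∀ x, |h x| ≤ K * S.D) (a : {a // a ∈ S.A}) :
    |S.Pr B c (Sum.inr a) h - h (Sum.inr a)| ≤ K * (1 / 2) := by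
  have h1 := F.hub a (fun w => K⁻¹ * h w)
    (fun x y => by
      rw [← mul_sub, abs_mul, abs_of_pos (inv_pos.mpr hK), inv_mul_le_iff₀ hK]
      exact hL x y)
    (fun x => by
      rw [abs_mul, abs_of_pos (inv_pos.mpr hK), inv_mul_le_iff₀ hK]
      exact hb x)
  have h2 : ∑ w ∈ B, c (Sum.inr a) w * (K⁻¹ * h w) - K⁻¹ * h (Sum.inr a)
      = K⁻¹ * (S.Pr B c (Sum.inr a) h - h (Sum.inr a)) := by
    unfold Pr
    rw [mul_sub, Finset.mul_sum]
    congr 1
    exact Finset.sum_congr rfl (fun w _ => by ring)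
  rw [h2, abs_mul, abs_of_pos (inv_pos.mpr hK), inv_mul_le_iff₀ hK] at h1
  exact h1

/-- The estimate at a point near a hub. -/
lemma Pr_near_le (F : S.Fold B c Lam) (hLam : 0 ≤ Lam) {K : ℝ} (hK : 0 < K) {h : S.Pt → ℝ}
    (hL : ∀ x y, |h x - h y| ≤ K * S.dP x y) (hb : ∀ x, |h x| ≤ K * S.D)
    (z : V × Y) (a : {a // a ∈ S.A}) (hza : S.DV z.1 a.1 < 2 * S.rho) :
    |S.Pr B c (Sum.inl z) h - h (Sum.inr a)| ≤ K * (Lam * (3 * S.rho) + 1 / 2) := by
  have h1 := Pr_sub_le F hK hL hb (Sum.inl z) (Sum.inr a)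
  have h2 := Pr_hub_le F hK hL hb a
  have h3 : (S.dP (Sum.inl z) (Sum.inr a) : ℝ) ≤ 3 * S.rho := by
    exact_mod_cast S.dP_hub_lt hza
  have h4 : K * (Lam * S.dP (Sum.inl z) (Sum.inr a)) ≤ K * (Lam * (3 * S.rho)) := by gcongr
  calc _ = |(S.Pr B c (Sum.inl z) h - S.Pr B c (Sum.inr a) h)
        + (S.Pr B c (Sum.inr a) h - h (Sum.inr a))| := by ring_nf
    _ ≤ _ := abs_add_le _ _
    _ ≤ K * (Lam * (3 * S.rho)) + K * (1 / 2) := add_le_add (h1.trans h4) h2
    _ = _ := by ring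

variable (S)
variable [DecidableEq Y] [DecidableEq V]

/-- The coefficient function of the label `y` around `v`. -/
noncomputable def H (v : V) (y : Y) : S.Pt → ℝ
  | Sum.inl z => if S.lab v z = y then S.g v z.1 else 0
  | Sum.inr _ => 0

/-- The coefficient function of the hub `a` around `v`. -/
noncomputable def H' (v a : V) : S.Pt → ℝ
  | Sum.inl _ => 0
  | Sum.inr b => if b.1 = a then S.g v a else 0

/-- The mass that the coefficients of `z` put on the sheet `y` near `z`. -/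
noncomputable def mY (B : Finset S.Pt) (c : S.Pt → S.Pt → ℝ) (z : V × Y) (y : Y) : ℝ :=
  S.Pr B c (Sum.inl z) (S.H z.1 y)

/-- The mass that the coefficients of `z` put on the hub `a` near `z`. -/
noncomputable def mA (B : Finset S.Pt) (c : S.Pt → S.Pt → ℝ) (z : V × Y) (a : V) : ℝ :=
  S.Pr B c (Sum.inl z) (S.H' z.1 a)

/-- The sign of a real number, as a real number. -/
noncomputable def sg (t : ℝ) : ℝ := if 0 ≤ t then 1 else -1

lemma abs_sg (t : ℝ) : |sg t| ≤ 1 := by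
  unfold sg
  split_ifs <;> simp

lemma sg_mul (t : ℝ) : sg t * t = |t| := by
  unfold sg
  split_ifs with h
  · rw [one_mul, abs_of_nonneg h]
  · rw [abs_of_neg (not_le.mp h)]
    ring

/-- Rewriting a label test function as a combination of the coefficient functions. -/
lemma F1_eq_sum (v : V) (σ : Y → ℝ) {τ τi : Y → Y} (h1 : ∀ y, τi (τ y) = y)
    (h2 : ∀ t, τ (τi t) = t) (s : Finset Y) (h0 : ∀ y, y ∉ s → σ y = 0) (w : S.Pt) :
    S.F1 v (fun t => σ (τi t)) (S.g v) w = S.rho * ∑ y ∈ s, σ y * S.H v (τ y) w := by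
  rcases w with z | a
  · simp only [F1, H]
    have h3 : ∀ y, (if S.lab v z = τ y then S.g v z.1 else 0)
        = if y = τi (S.lab v z) then S.g v z.1 else 0 := by
      intro y
      by_cases h : S.lab v z = τ y
      · rw [if_pos h, if_pos (by rw [h, h1])]
      · rw [if_neg h, if_neg (fun h' => h (by rw [h', h2]))]
    simp only [h3, mul_ite, mul_zero, Finset.sum_ite_eq', mul_assoc]
    by_cases hs : τi (S.lab v z) ∈ s
    · rw [if_pos hs]
    · rw [if_neg hs, h0 _ hs]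
      ring
  · simp [F1, H]

/-- Rewriting a hub test function as a combination of the coefficient functions. -/
lemma F2_eq_sum (v : V) (σ : V → ℝ) (w : S.Pt) :
    S.F2 σ (S.g v) w = S.rho * ∑ a ∈ S.A, σ a * S.H' v a w := by
  rcases w with z | b
  · simp [F2, H']
  · simp only [F2, H']
    have h3 : ∀ a, (if b.1 = a then S.g v a else 0) = if a = b.1 then S.g v b.1 else 0 := by
      intro a
      by_cases h : b.1 = a
      · subst h; simp
      · rw [if_neg h, if_neg (fun h' => h h'.symm)]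
    simp only [h3, mul_ite, mul_zero, Finset.sum_ite_eq', mul_assoc]
    rw [if_pos b.2]

lemma rho_le_D : (S.rho : ℝ) ≤ S.D := by
  unfold D
  push_cast
  have h1 : (0 : ℝ) ≤ S.T := Nat.cast_nonneg _
  have h2 : (0 : ℝ) ≤ S.rho := Nat.cast_nonneg _
  linarith

lemma W_le_D : S.W ≤ S.D := by
  have h : 6 * S.rho ^ 2 ≤ S.D := by
    unfold D
    have := S.hT
    omega
  unfold W
  exact_mod_cast h

lemma DV_letter (l : L) (v : V) : S.DV (S.aV l v) v ≤ 1 := by
  rw [S.DV_comm]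
  exact wd_letter l v

lemma rho_div_W : (S.rho : ℝ) * (1 / S.W) = 1 / (6 * S.rho) := by
  have := S.rho_real_pos
  unfold W
  field_simp

lemma rho_div_W_le : (S.rho : ℝ) * (1 / S.W) ≤ 1 := by
  rw [S.rho_div_W]
  have := S.rho_real_pos
  rw [div_le_one (by positivity)]
  linarith

lemma one_div_W_le_one : 1 / S.W ≤ 1 := by
  have h := S.rho_div_W_le
  have h1 := S.rho_real_pos
  have h2 : 0 ≤ 1 / S.W := by have := S.W_pos; positivity
  nlinarith

lemma g_lip_q' (v q q' : V) : |S.g v q - S.g v q'| ≤ (1 / S.W) * S.DV q q' := by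
  have := S.g_lip_q v q q'
  rwa [div_eq_mul_one_div, mul_comm] at this

variable {S}

/-- The bound for the pairing against a test function over `V × Y`. -/
lemma Pr_F1_le (F : S.Fold B c Lam) (hLam : 0 ≤ Lam) {v : V} {σ : Y → ℝ} {G : V → ℝ}
    {K K' γ : ℝ} (hK : 0 < K) (hσ : ∀ y, |σ y| ≤ 1)
    (hG0 : ∀ q, S.R0 < S.DV q v → G q = 0) (hG1 : ∀ q, |G q| ≤ γ)
    (hG2 : ∀ q q', |G q - G q'| ≤ K' * S.DV q q') (hK1 : S.rho * K' ≤ K) (hγ : γ ≤ K)
    (hK' : 0 ≤ K') (z : V × Y) :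
    |S.Pr B c (Sum.inl z) (S.F1 v σ G)| ≤ K * (Lam * (3 * S.rho) + 1 / 2) := by
  obtain ⟨a, ha, hd⟩ := S.cov z.1
  have hγ0 : 0 ≤ γ := (abs_nonneg _).trans (hG1 v)
  have h1 := Pr_near_le F hLam hK (h := S.F1 v σ G)
    (fun x y => S.F1_lip hσ hG0 hG1 hG2 hK1 hγ hK' x y)
    (fun x => by
      refine (S.abs_F1_le hσ hG1 hγ0 x).trans ?_
      have h3 := S.rho_le_D
      have h4 : (0 : ℝ) ≤ S.rho := Nat.cast_nonneg _
      calc (S.rho : ℝ) * γ ≤ S.D * K := by gcongr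
        _ = K * S.D := by ring) z ⟨a, ha⟩ hd
  simpa [F1] using h1

/-- The bound for the pairing against a test function on the hubs. -/
lemma Pr_F2_le (F : S.Fold B c Lam) (hLam : 0 ≤ Lam) {σ : V → ℝ} {G : V → ℝ}
    {K γ : ℝ} (hK : 0 < K) (hσ : ∀ y, |σ y| ≤ 1) (hG1 : ∀ q, |G q| ≤ γ) (hγ : γ ≤ K)
    (z : V × Y) :
    |S.Pr B c (Sum.inl z) (S.F2 σ G)| ≤ K * (Lam * (3 * S.rho) + 1 / 2) + S.rho * γ := by
  obtain ⟨a, ha, hd⟩ := S.cov z.1
  have hγ0 : 0 ≤ γ := (abs_nonneg _).trans (hG1 z.1)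
  have h1 := Pr_near_le F hLam hK (h := S.F2 σ G)
    (fun x y => S.F2_lip hσ hG1 hγ x y)
    (fun x => by
      refine (S.abs_F2_le hσ hG1 hγ0 x).trans ?_
      have h3 := S.rho_le_D
      have h4 : (0 : ℝ) ≤ S.rho := Nat.cast_nonneg _
      calc (S.rho : ℝ) * γ ≤ S.D * K := by gcongr
        _ = K * S.D := by ring) z ⟨a, ha⟩ hd
  have h2 := S.abs_F2_le hσ hG1 hγ0 (Sum.inr ⟨a, ha⟩)
  calc _ = |(S.Pr B c (Sum.inl z) (S.F2 σ G) - S.F2 σ G (Sum.inr ⟨a, ha⟩))
        + S.F2 σ G (Sum.inr ⟨a, ha⟩)| := by ring_nf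
    _ ≤ _ := abs_add_le _ _
    _ ≤ _ := add_le_add h1 h2

lemma g_facts (v : V) : (∀ q, S.R0 < S.DV q v → S.g v q = 0) := fun _ h => S.g_eq_zero h.le

/-- The test function of a bounded `σ` and the bump function is `1`-Lipschitz and bounded. -/
lemma F1_g_lip (v : V) {σ : Y → ℝ} (hσ : ∀ y, |σ y| ≤ 1) :
    (∀ x y, |S.F1 v σ (S.g v) x - S.F1 v σ (S.g v) y| ≤ 1 * S.dP x y) ∧
      (∀ x, |S.F1 v σ (S.g v) x| ≤ 1 * S.D) := by
  have hW := S.W_pos
  constructor
  · intro x y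
    exact S.F1_lip hσ (g_facts v) (S.abs_g_le v) (S.g_lip_q' v) S.rho_div_W_le le_rfl (by positivity)
      x y
  · intro x
    refine (S.abs_F1_le hσ (S.abs_g_le v) zero_le_one x).trans ?_
    rw [mul_one, one_mul]
    exact S.rho_le_D

/-- The total mass over the sheets is bounded. -/
theorem I1 (F : S.Fold B c Lam) (hLam : 0 ≤ Lam) (z : V × Y) (s : Finset Y) :
    ∑ y ∈ s, |S.mY B c z y| ≤ 3 * Lam + 1 := by
  set σ : Y → ℝ := fun y => if y ∈ s then sg (S.mY B c z y) else 0 with hσdef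
  have hσ : ∀ y, |σ y| ≤ 1 := by
    intro y
    simp only [hσdef]
    split_ifs
    · exact abs_sg _
    · simp
  have h0 : ∀ y, y ∉ s → σ y = 0 := fun y hy => by simp [hσdef, hy]
  have hW := S.W_pos
  have hρ := S.rho_real_pos
  have h1 := Pr_F1_le (v := z.1) (σ := σ) F hLam one_pos hσ (g_facts z.1) (S.abs_g_le z.1)
    (S.g_lip_q' z.1) S.rho_div_W_le le_rfl (by positivity) z
  have h2 : S.Pr B c (Sum.inl z) (S.F1 z.1 σ (S.g z.1))
      = S.rho * ∑ y ∈ s, |S.mY B c z y| := by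
    have h3 := fun w => S.F1_eq_sum z.1 σ (τ := id) (τi := id) (fun _ => rfl) (fun _ => rfl) s h0 w
    simp only [id] at h3
    rw [Pr_congr h3, Pr_const_mul, Pr_sum]
    congr 1
    refine Finset.sum_congr rfl (fun y hy => ?_)
    change σ y * S.mY B c z y = _
    simp only [hσdef, if_pos hy]
    exact sg_mul _
  rw [h2, abs_mul, Nat.abs_cast, abs_of_nonneg (Finset.sum_nonneg (fun _ _ => abs_nonneg _))] at h1
  have h4 : (S.rho : ℝ) * ∑ y ∈ s, |S.mY B c z y| ≤ S.rho * (3 * Lam + 1) := by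
    nlinarith
  exact le_of_mul_le_mul_left h4 (by linarith)

lemma aZ_fst (l : L) (z : V × Y) : (S.aZ l z).1 = S.aV l z.1 := rfl

/-- The difference of consecutive test functions. -/
lemma F1_letter (l : L) (v : V) (σ : Y → ℝ) (w : S.Pt) :
    S.F1 (S.aV l v) (fun t => σ (S.aY (S.inv l) t)) (S.g (S.aV l v)) w - S.F1 v σ (S.g v) w
      = S.F1 v σ (fun q => S.g (S.aV l v) q - S.g v q) w := by
  rcases w with z | a
  · simp only [F1]
    by_cases h : S.DV z.1 v ≤ S.R0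
    · rw [S.lab_letter l h, S.aY_inv]
      ring
    · have h1 : S.g v z.1 = 0 := S.g_eq_zero (by omega)
      have h2 : S.g (S.aV l v) z.1 = 0 := by
        apply S.g_eq_zero
        have h3 := S.DV_tri z.1 (S.aV l v) v
        have h4 := S.DV_letter l v
        omega
      rw [h1, h2]
      ring
  · simp [F1]

/-- The gradient of the mass over the sheets is small. -/
theorem I2 (F : S.Fold B c Lam) (hLam : 0 ≤ Lam) (l : L) (z : V × Y) (s : Finset Y) :
    ∑ y ∈ s, |S.mY B c (S.aZ l z) (S.aY l y) - S.mY B c z y| ≤ (2 * Lam + 1) / S.rho := by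
  set z' := S.aZ l z with hz'
  set σ : Y → ℝ := fun y => if y ∈ s then sg (S.mY B c z' (S.aY l y) - S.mY B c z y) else 0
    with hσdef
  have hσ : ∀ y, |σ y| ≤ 1 := by
    intro y
    simp only [hσdef]
    split_ifs
    · exact abs_sg _
    · simp
  have h0 : ∀ y, y ∉ s → σ y = 0 := fun y hy => by simp [hσdef, hy]
  have hW := S.W_pos
  have hρ := S.rho_real_pos
  -- the two pairings
  have hA : S.Pr B c (Sum.inl z') (S.F1 (S.aV l z.1) (fun t => σ (S.aY (S.inv l) t))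
      (S.g (S.aV l z.1))) = S.rho * ∑ y ∈ s, σ y * S.mY B c z' (S.aY l y) := by
    have h3 := fun w => S.F1_eq_sum (S.aV l z.1) σ (τ := S.aY l) (τi := S.aY (S.inv l))
      (S.aY_inv l) (S.aY_inv' l) s h0 w
    rw [Pr_congr h3, Pr_const_mul, Pr_sum]
    rfl
  have hB : S.Pr B c (Sum.inl z) (S.F1 z.1 σ (S.g z.1))
      = S.rho * ∑ y ∈ s, σ y * S.mY B c z y := by
    have h3 := fun w => S.F1_eq_sum z.1 σ (τ := id) (τi := id) (fun _ => rfl) (fun _ => rfl) s h0 w
    simp only [id] at h3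
    rw [Pr_congr h3, Pr_const_mul, Pr_sum]
    rfl
  have hsum : (S.rho : ℝ) * ∑ y ∈ s, |S.mY B c z' (S.aY l y) - S.mY B c z y|
      = S.Pr B c (Sum.inl z') (S.F1 (S.aV l z.1) (fun t => σ (S.aY (S.inv l) t))
          (S.g (S.aV l z.1))) - S.Pr B c (Sum.inl z) (S.F1 z.1 σ (S.g z.1)) := by
    rw [hA, hB, ← mul_sub, ← Finset.sum_sub_distrib]
    congr 1
    refine Finset.sum_congr rfl (fun y hy => ?_)
    rw [← mul_sub]
    simp only [hσdef, if_pos hy]
    exact (sg_mul _).symm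
  -- the first term
  have hE : |S.Pr B c (Sum.inl z') (S.F1 z.1 σ (fun q => S.g (S.aV l z.1) q - S.g z.1 q))|
      ≤ (S.rho * (2 * (1 / S.W))) * (Lam * (3 * S.rho) + 1 / 2) := by
    apply Pr_F1_le F hLam (K' := 2 * (1 / S.W)) (γ := 1 / S.W) (by positivity) hσ
    · intro q hq
      have h1 : S.g z.1 q = 0 := S.g_eq_zero hq.le
      have h2 : S.g (S.aV l z.1) q = 0 := by
        apply S.g_eq_zero
        have h3 := S.DV_tri q (S.aV l z.1) z.1
        have h4 := S.DV_letter l z.1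
        omega
      rw [h1, h2, sub_zero]
    · intro q
      have h1 := S.g_lip_v (S.aV l z.1) z.1 q
      have h2 : ((S.DV (S.aV l z.1) z.1 : ℕ) : ℝ) ≤ 1 := by exact_mod_cast S.DV_letter l z.1
      refine h1.trans ?_
      gcongr
    · intro q q'
      have h1 := S.g_lip_q' (S.aV l z.1) q q'
      have h2 := S.g_lip_q' z.1 q q'
      have h3 : S.g (S.aV l z.1) q - S.g z.1 q - (S.g (S.aV l z.1) q' - S.g z.1 q')
          = (S.g (S.aV l z.1) q - S.g (S.aV l z.1) q') - (S.g z.1 q - S.g z.1 q') := by ring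
      rw [h3]
      refine (abs_sub _ _).trans ?_
      have h4 := add_le_add h1 h2
      calc _ ≤ _ := h4
        _ = _ := by ring
    · exact le_rfl
    · have : (1 : ℝ) * (1 / S.W) ≤ S.rho * (2 * (1 / S.W)) := by
        have h5 : 0 < 1 / S.W := by positivity
        nlinarith
      linarith
    · positivity
  -- the second term
  have hG := F1_g_lip (S := S) z.1 hσ
  have hgrad := Pr_sub_le F one_pos hG.1 hG.2 (Sum.inl z') (Sum.inl z)
  have hd1 : ((S.dP (Sum.inl z') (Sum.inl z) : ℕ) : ℝ) ≤ 1 := by exact_mod_cast S.dP_letter l z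
  have h2nd : |S.Pr B c (Sum.inl z') (S.F1 z.1 σ (S.g z.1))
      - S.Pr B c (Sum.inl z) (S.F1 z.1 σ (S.g z.1))| ≤ Lam := by
    refine hgrad.trans ?_
    rw [one_mul]
    nlinarith
  -- combining
  have hsplit : S.Pr B c (Sum.inl z') (S.F1 (S.aV l z.1) (fun t => σ (S.aY (S.inv l) t))
          (S.g (S.aV l z.1))) - S.Pr B c (Sum.inl z) (S.F1 z.1 σ (S.g z.1))
      = S.Pr B c (Sum.inl z') (S.F1 z.1 σ (fun q => S.g (S.aV l z.1) q - S.g z.1 q))
        + (S.Pr B c (Sum.inl z') (S.F1 z.1 σ (S.g z.1))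
          - S.Pr B c (Sum.inl z) (S.F1 z.1 σ (S.g z.1))) := by
    have h3 := fun w => F1_letter (S := S) l z.1 σ w
    have h4 := Pr_sub (B := B) (c := c) (Sum.inl z')
      (S.F1 (S.aV l z.1) (fun t => σ (S.aY (S.inv l) t)) (S.g (S.aV l z.1)))
      (S.F1 z.1 σ (S.g z.1))
    rw [Pr_congr h3] at h4
    rw [h4]
    ring
  have hK : ((S.rho : ℝ) * (2 * (1 / S.W))) * (Lam * (3 * S.rho) + 1 / 2) = Lam + 1 / (6 * S.rho) := by
    unfold W
    field_simp
    ring
  have hfin : (S.rho : ℝ) * ∑ y ∈ s, |S.mY B c z' (S.aY l y) - S.mY B c z y| ≤ 2 * Lam + 1 := by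
    rw [hsum, hsplit]
    have h6 := abs_le.mp hE
    have h7 := abs_le.mp h2nd
    have h8 : 1 / (6 * (S.rho : ℝ)) ≤ 1 := by
      rw [div_le_one (by positivity)]
      linarith
    rw [hK] at h6
    linarith [h6.2, h7.2]
  rw [le_div_iff₀ (by linarith)]
  linarith

/-- The hub test function of bounded `σ` with the bump function. -/
theorem I3a (F : S.Fold B c Lam) (hLam : 0 ≤ Lam) (z : V × Y) :
    ∑ a ∈ S.A, |S.mA B c z a| ≤ 3 * Lam + 2 := by
  set σ : V → ℝ := fun a => sg (S.mA B c z a) with hσdef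
  have hσ : ∀ y, |σ y| ≤ 1 := fun y => abs_sg _
  have hW := S.W_pos
  have hρ := S.rho_real_pos
  have h1 := Pr_F2_le F hLam one_pos hσ (S.abs_g_le z.1) le_rfl z
  have h2 : S.Pr B c (Sum.inl z) (S.F2 σ (S.g z.1)) = S.rho * ∑ a ∈ S.A, |S.mA B c z a| := by
    have h3 := fun w => S.F2_eq_sum z.1 σ w
    rw [Pr_congr h3, Pr_const_mul, Pr_sum]
    congr 1
    refine Finset.sum_congr rfl (fun a _ => ?_)
    exact sg_mul _
  rw [h2, abs_mul, Nat.abs_cast, abs_of_nonneg (Finset.sum_nonneg (fun _ _ => abs_nonneg _))] at h1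
  have h4 : (S.rho : ℝ) * ∑ a ∈ S.A, |S.mA B c z a| ≤ S.rho * (3 * Lam + 2) := by
    nlinarith
  exact le_of_mul_le_mul_left h4 (by linarith)

/-- The gradient of the mass over the hubs is small. -/
theorem I3b (F : S.Fold B c Lam) (hLam : 0 ≤ Lam) (l : L) (z : V × Y) :
    ∑ a ∈ S.A, |S.mA B c (S.aZ l z) a - S.mA B c z a| ≤ (2 * Lam + 1) / S.rho := by
  set z' := S.aZ l z with hz'
  set σ : V → ℝ := fun a => sg (S.mA B c z' a - S.mA B c z a) with hσdef
  have hσ : ∀ y, |σ y| ≤ 1 := fun y => abs_sg _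
  have hW := S.W_pos
  have hρ := S.rho_real_pos
  have hA : S.Pr B c (Sum.inl z') (S.F2 σ (S.g (S.aV l z.1)))
      = S.rho * ∑ a ∈ S.A, σ a * S.mA B c z' a := by
    have h3 := fun w => S.F2_eq_sum (S.aV l z.1) σ w
    rw [Pr_congr h3, Pr_const_mul, Pr_sum]
    rfl
  have hB : S.Pr B c (Sum.inl z) (S.F2 σ (S.g z.1)) = S.rho * ∑ a ∈ S.A, σ a * S.mA B c z a := by
    have h3 := fun w => S.F2_eq_sum z.1 σ w
    rw [Pr_congr h3, Pr_const_mul, Pr_sum]
    rfl
  have hsum : (S.rho : ℝ) * ∑ a ∈ S.A, |S.mA B c z' a - S.mA B c z a|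
      = S.Pr B c (Sum.inl z') (S.F2 σ (S.g (S.aV l z.1)))
        - S.Pr B c (Sum.inl z) (S.F2 σ (S.g z.1)) := by
    rw [hA, hB, ← mul_sub, ← Finset.sum_sub_distrib]
    congr 1
    refine Finset.sum_congr rfl (fun a _ => ?_)
    rw [← mul_sub]
    exact (sg_mul _).symm
  have hE : |S.Pr B c (Sum.inl z') (S.F2 σ (fun q => S.g (S.aV l z.1) q - S.g z.1 q))|
      ≤ (1 / S.W) * (Lam * (3 * S.rho) + 1 / 2) + S.rho * (1 / S.W) := by
    apply Pr_F2_le F hLam (γ := 1 / S.W) (by positivity) hσ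
    · intro q
      have h1 := S.g_lip_v (S.aV l z.1) z.1 q
      have h2 : ((S.DV (S.aV l z.1) z.1 : ℕ) : ℝ) ≤ 1 := by exact_mod_cast S.DV_letter l z.1
      refine h1.trans ?_
      gcongr
    · exact le_rfl
  have hG : (∀ x y, |S.F2 σ (S.g z.1) x - S.F2 σ (S.g z.1) y| ≤ 1 * S.dP x y) ∧
      (∀ x, |S.F2 σ (S.g z.1) x| ≤ 1 * S.D) := by
    constructor
    · intro x y
      exact S.F2_lip hσ (S.abs_g_le z.1) le_rfl x y
    · intro x
      refine (S.abs_F2_le hσ (S.abs_g_le z.1) zero_le_one x).trans ?_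
      rw [mul_one, one_mul]
      exact S.rho_le_D
  have hgrad := Pr_sub_le F one_pos hG.1 hG.2 (Sum.inl z') (Sum.inl z)
  have hd1 : ((S.dP (Sum.inl z') (Sum.inl z) : ℕ) : ℝ) ≤ 1 := by exact_mod_cast S.dP_letter l z
  have h2nd : |S.Pr B c (Sum.inl z') (S.F2 σ (S.g z.1))
      - S.Pr B c (Sum.inl z) (S.F2 σ (S.g z.1))| ≤ Lam := by
    refine hgrad.trans ?_
    rw [one_mul]
    nlinarith
  have hsplit : S.Pr B c (Sum.inl z') (S.F2 σ (S.g (S.aV l z.1)))
        - S.Pr B c (Sum.inl z) (S.F2 σ (S.g z.1))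
      = S.Pr B c (Sum.inl z') (S.F2 σ (fun q => S.g (S.aV l z.1) q - S.g z.1 q))
        + (S.Pr B c (Sum.inl z') (S.F2 σ (S.g z.1))
          - S.Pr B c (Sum.inl z) (S.F2 σ (S.g z.1))) := by
    have h3 : ∀ w, S.F2 σ (S.g (S.aV l z.1)) w - S.F2 σ (S.g z.1) w
        = S.F2 σ (fun q => S.g (S.aV l z.1) q - S.g z.1 q) w := by
      intro w
      rcases w with w | a
      · simp [F2]
      · simp only [F2]; ring
    have h4 := Pr_sub (B := B) (c := c) (Sum.inl z')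
      (S.F2 σ (S.g (S.aV l z.1))) (S.F2 σ (S.g z.1))
    rw [Pr_congr h3] at h4
    rw [h4]
    ring
  have hK : (1 / S.W) * (Lam * (3 * S.rho) + 1 / 2) + S.rho * (1 / S.W)
      = Lam / (2 * S.rho) + 1 / (12 * S.rho ^ 2) + 1 / (6 * S.rho) := by
    unfold W
    field_simp
    ring
  have hfin : (S.rho : ℝ) * ∑ a ∈ S.A, |S.mA B c z' a - S.mA B c z a| ≤ 2 * Lam + 1 := by
    rw [hsum, hsplit]
    have h6 := abs_le.mp hE
    have h7 := abs_le.mp h2nd
    have h8 : 1 / (6 * (S.rho : ℝ)) ≤ 1 / 2 := by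
      rw [div_le_div_iff₀ (by positivity) (by positivity)]
      linarith
    have h9 : 1 / (12 * (S.rho : ℝ) ^ 2) ≤ 1 / 2 := by
      rw [div_le_div_iff₀ (by positivity) (by positivity)]
      nlinarith
    have h10 : Lam / (2 * (S.rho : ℝ)) ≤ Lam := by
      rw [div_le_iff₀ (by positivity)]
      nlinarith
    rw [hK] at h6
    linarith [h6.2, h7.2]
  rw [le_div_iff₀ (by linarith)]
  linarith

/-- Most of the mass stays: the total mass near `z` is at least `1/2`, when `ρ ≥ 2 Lam + 1`. -/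
theorem I4 (F : S.Fold B c Lam) (hLam : 0 ≤ Lam) (hρLam : 2 * Lam + 1 ≤ S.rho) (z : V × Y)
    (s : Finset Y)
    (hs : ∀ z' : V × Y, Sum.inl z' ∈ B → S.g z.1 z'.1 ≠ 0 → S.lab z.1 z' ∈ s) :
    1 / 2 ≤ ∑ y ∈ s, S.mY B c z y + ∑ a ∈ S.A, S.mA B c z a := by
  have hW := S.W_pos
  have hρ := S.rho_real_pos
  obtain ⟨a, ha, hd⟩ := S.cov z.1
  have hL : ∀ x y, |S.F3 (S.g z.1) x - S.F3 (S.g z.1) y| ≤ (S.rho * (1 / S.W)) * S.dP x y :=
    fun x y => S.F3_lip (S.g_lip_q' z.1) (by positivity) x y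
  have hb : ∀ x, |S.F3 (S.g z.1) x| ≤ (S.rho * (1 / S.W)) * S.D := by
    intro x
    unfold F3
    rw [abs_mul, Nat.abs_cast]
    have h1 := S.abs_g_le z.1 (S.pi x)
    have h2 := S.W_le_D
    have h3 : 1 ≤ (1 / S.W) * S.D := by
      rw [one_div, le_inv_mul_iff₀ hW]
      linarith
    rw [mul_assoc]
    gcongr
    linarith
  have h1 := Pr_near_le F hLam (K := S.rho * (1 / S.W)) (by positivity) hL hb z ⟨a, ha⟩ hd
  have h2 : S.F3 (S.g z.1) (Sum.inr ⟨a, ha⟩) = S.rho := by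
    have : S.g z.1 a = 1 := by
      apply S.g_eq_one
      rw [S.DV_comm]
      have hd' : S.DV z.1 a < 2 * S.rho := hd
      exact hd'.le
    simp [F3, pi, this]
  rw [h2] at h1
  have h3 : S.Pr B c (Sum.inl z) (S.F3 (S.g z.1))
      = S.rho * (∑ y ∈ s, S.mY B c z y + ∑ a ∈ S.A, S.mA B c z a) := by
    have h4 : ∑ y ∈ s, S.mY B c z y + ∑ a ∈ S.A, S.mA B c z a
        = S.Pr B c (Sum.inl z) (fun w => ∑ y ∈ s, (1 : ℝ) * S.H z.1 y w)
          + S.Pr B c (Sum.inl z) (fun w => ∑ a ∈ S.A, (1 : ℝ) * S.H' z.1 a w) := by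
      rw [Pr_sum, Pr_sum]
      simp only [one_mul]
      rfl
    rw [h4]
    unfold Pr
    rw [← Finset.sum_add_distrib, Finset.mul_sum]
    refine Finset.sum_congr rfl (fun w hw => ?_)
    rcases w with z' | b
    · have h5 : ∑ y ∈ s, (1 : ℝ) * S.H z.1 y (Sum.inl z') = S.g z.1 z'.1 := by
        by_cases hg : S.g z.1 z'.1 = 0
        · rw [hg]
          apply Finset.sum_eq_zero
          intro y _
          simp [H, hg]
        · have h6 := hs z' hw hg
          simp only [H, one_mul]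
          rw [Finset.sum_ite_eq]
          rw [if_pos h6]
      have h7 : ∑ a ∈ S.A, (1 : ℝ) * S.H' z.1 a (Sum.inl z') = 0 := by
        simp [H']
      beta_reduce
      rw [h5, h7]
      simp only [F3, pi]
      ring
    · have h5 : ∑ y ∈ s, (1 : ℝ) * S.H z.1 y (Sum.inr b) = 0 := by
        simp [H]
      have h7 : ∑ a ∈ S.A, (1 : ℝ) * S.H' z.1 a (Sum.inr b) = S.g z.1 b.1 := by
        simp only [H', one_mul]
        have : ∀ a, (if b.1 = a then S.g z.1 a else 0) = if b.1 = a then S.g z.1 b.1 else 0 := by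
          intro a
          by_cases h : b.1 = a
          · subst h; simp
          · simp [h]
        simp only [this]
        rw [Finset.sum_ite_eq, if_pos b.2]
      beta_reduce
      rw [h5, h7]
      simp only [F3, pi]
      ring
  rw [h3] at h1
  have hK : ((S.rho : ℝ) * (1 / S.W)) * (Lam * (3 * S.rho) + 1 / 2)
      = Lam / 2 + 1 / (12 * S.rho) := by
    unfold W
    field_simp
    ring
  rw [hK] at h1
  have h6 := (abs_le.mp h1).1
  have h8 : 1 / (12 * (S.rho : ℝ)) ≤ 1 := by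
    rw [div_le_one (by positivity)]
    linarith
  by_contra hcon
  push Not at hcon
  set X := ∑ y ∈ s, S.mY B c z y + ∑ a ∈ S.A, S.mA B c z a with hX
  have h9 : (S.rho : ℝ) * X ≤ S.rho * (1 / 2) := by nlinarith
  have h10 : (S.rho : ℝ) * (1 / 2) ≥ S.rho - Lam / 2 - 1 / (12 * S.rho) := by linarith
  have h11 : 1 / (12 * (S.rho : ℝ)) ≤ 1 / 12 := by
    rw [div_le_div_iff₀ (by positivity) (by positivity)]
    linarith
  have h12 : X < 1 / 2 := hcon
  nlinarith

end Setup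

end Vale.Agent.Lib.P090
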