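import Vale.Agent.Lib.P090.KFourier

/-!
# The combinatorial shear lemma on `(ZMod N)²` (module K of P090).
-/

namespace Vale.Agent.Lib.P090.KF

open Finset

set_option linter.unusedSectionVars false

noncomputable section

section generic

variable {X : Type} [Fintype X] [DecidableEq X]

lemma one_image (μ : X → ℝ) (hμ : ∀ x, 0 ≤ μ x) (A : X → X) (hA : Function.Injective A)
    (S W : Finset X) (hSW : ∀ x ∈ S, A x ∈ W) (τ : ℝ) (hτ : ∑ x, |μ (A x) - μ x| ≤ τ) :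
    ∑ x ∈ S, μ x ≤ ∑ x ∈ W, μ x + τ := by
  have h1 : ∑ x ∈ S, μ x ≤ ∑ x ∈ S, μ (A x) + ∑ x ∈ S, |μ (A x) - μ x| := by
    rw [← Finset.sum_add_distrib]
    refine Finset.sum_le_sum fun x _ => ?_
    linarith [neg_abs_le (μ (A x) - μ x)]
  have h2 : ∑ x ∈ S, |μ (A x) - μ x| ≤ τ :=
    (Finset.sum_le_sum_of_subset_of_nonneg (Finset.subset_univ S) fun _ _ _ => abs_nonneg _).trans hτ
  have h3 : ∑ x ∈ S, μ (A x) ≤ ∑ x ∈ W, μ x := by
    rw [← Finset.sum_image (f := μ) (g := A) (s := S) fun x _ y _ h => hA h]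
    refine Finset.sum_le_sum_of_subset_of_nonneg ?_ fun x _ _ => hμ x
    intro y hy
    obtain ⟨x, hx, rfl⟩ := Finset.mem_image.mp hy
    exact hSW x hx
  linarith

lemma two_images (μ : X → ℝ) (hμ : ∀ x, 0 ≤ μ x) (A B : X → X)
    (hA : Function.Injective A) (hB : Function.Injective B)
    (S W : Finset X) (hSA : ∀ x ∈ S, A x ∈ W) (hSB : ∀ x ∈ S, B x ∈ W)
    (hdisj : ∀ x ∈ S, ∀ y ∈ S, A x ≠ B y) (τ : ℝ)
    (hτA : ∑ x, |μ (A x) - μ x| ≤ τ) (hτB : ∑ x, |μ (B x) - μ x| ≤ τ) :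
    2 * ∑ x ∈ S, μ x ≤ ∑ x ∈ W, μ x + 2 * τ := by
  have hS : ∀ C : X → X, ∑ x, |μ (C x) - μ x| ≤ τ → ∑ x ∈ S, μ x ≤ ∑ x ∈ S, μ (C x) + τ := by
    intro C hC
    have h1 : ∑ x ∈ S, μ x ≤ ∑ x ∈ S, μ (C x) + ∑ x ∈ S, |μ (C x) - μ x| := by
      rw [← Finset.sum_add_distrib]
      refine Finset.sum_le_sum fun x _ => ?_
      linarith [neg_abs_le (μ (C x) - μ x)]
    have h2 : ∑ x ∈ S, |μ (C x) - μ x| ≤ τ :=
      (Finset.sum_le_sum_of_subset_of_nonneg (Finset.subset_univ S)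
        fun _ _ _ => abs_nonneg _).trans hC
    linarith
  have h1 := hS A hτA
  have h2 := hS B hτB
  have h3 : ∑ x ∈ S, μ (A x) + ∑ x ∈ S, μ (B x) ≤ ∑ x ∈ W, μ x := by
    rw [← Finset.sum_image (f := μ) (g := A) (s := S) fun x _ y _ h => hA h,
      ← Finset.sum_image (f := μ) (g := B) (s := S) fun x _ y _ h => hB h,
      ← Finset.sum_union]
    · refine Finset.sum_le_sum_of_subset_of_nonneg ?_ fun x _ _ => hμ x
      intro y hy
      rcases Finset.mem_union.mp hy with hy | hy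
      · obtain ⟨x, hx, rfl⟩ := Finset.mem_image.mp hy
        exact hSA x hx
      · obtain ⟨x, hx, rfl⟩ := Finset.mem_image.mp hy
        exact hSB x hx
    · rw [Finset.disjoint_left]
      intro y hy hy'
      obtain ⟨x, hx, rfl⟩ := Finset.mem_image.mp hy
      obtain ⟨z, hz, hzx⟩ := Finset.mem_image.mp hy'
      exact hdisj x hx z hz hzx.symm
  linarith

end generic

variable {N : ℕ} [NeZero N]

/-- The balanced representative. -/
def vv (a : ZMod N) : ℤ := a.valMinAbs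

lemma vv_eq_zero {a : ZMod N} : vv a = 0 ↔ a = 0 := ZMod.valMinAbs_eq_zero a

lemma vv_add_of_small {a b : ZMod N} (ha : 8 * |vv a| ≤ (N : ℤ)) (hb : 8 * |vv b| ≤ (N : ℤ)) :
    vv (a + b) = vv a + vv b := by
  have hN : (0 : ℤ) < N := by exact_mod_cast Nat.pos_of_ne_zero (NeZero.ne N)
  unfold vv at *
  rw [ZMod.valMinAbs_spec]
  constructor
  · simp [ZMod.coe_valMinAbs]
  · constructor
    · have := neg_abs_le (a.valMinAbs)
      have := neg_abs_le (b.valMinAbs)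
      linarith
    · have := le_abs_self (a.valMinAbs)
      have := le_abs_self (b.valMinAbs)
      linarith

lemma vv_neg_of_small {a : ZMod N} (ha : 8 * |vv a| ≤ (N : ℤ)) : vv (-a) = - vv a := by
  have hN : (0 : ℤ) < N := by exact_mod_cast Nat.pos_of_ne_zero (NeZero.ne N)
  unfold vv at *
  rw [ZMod.valMinAbs_spec]
  constructor
  · simp [ZMod.coe_valMinAbs]
  · constructor
    · have := le_abs_self (a.valMinAbs)
      linarith
    · have := neg_abs_le (a.valMinAbs)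
      linarith

lemma abs_vv_neg (a : ZMod N) (ha : 8 * |vv a| ≤ (N : ℤ)) : 8 * |vv (-a)| ≤ (N : ℤ) := by
  rw [vv_neg_of_small ha, abs_neg]; exact ha

lemma vv_sub_of_small {a b : ZMod N} (ha : 8 * |vv a| ≤ (N : ℤ)) (hb : 8 * |vv b| ≤ (N : ℤ)) :
    vv (a - b) = vv a - vv b := by
  rw [sub_eq_add_neg, vv_add_of_small ha (abs_vv_neg b hb), vv_neg_of_small hb]; ring

/-- The box of small characters. -/
def InBox (χ : ZMod N × ZMod N) : Prop := 8 * |vv χ.1| ≤ (N : ℤ) ∧ 8 * |vv χ.2| ≤ (N : ℤ)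

instance : DecidablePred (InBox (N := N)) := fun _ => by unfold InBox; infer_instance

/-- The horizontal shear. -/
def shT (t : ZMod N) (χ : ZMod N × ZMod N) : ZMod N × ZMod N := (χ.1 + t * χ.2, χ.2)

/-- The vertical shear. -/
def shU (t : ZMod N) (χ : ZMod N × ZMod N) : ZMod N × ZMod N := (χ.1, χ.2 + t * χ.1)

lemma shT_inj (t : ZMod N) : Function.Injective (shT t) := by
  rintro ⟨a, b⟩ ⟨a', b'⟩ h
  simp only [shT, Prod.mk.injEq] at h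
  obtain ⟨h1, h2⟩ := h
  subst h2
  simpa using h1

lemma shU_inj (t : ZMod N) : Function.Injective (shU t) := by
  rintro ⟨a, b⟩ ⟨a', b'⟩ h
  simp only [shU, Prod.mk.injEq] at h
  obtain ⟨h1, h2⟩ := h
  subst h1
  simpa using h2

/-- The combinatorial lemma. -/
theorem comb_shear (μ : ZMod N × ZMod N → ℝ) (hμ : ∀ χ, 0 ≤ μ χ) (κ τ : ℝ)
    (hT1 : ∑ χ, |μ (shT 1 χ) - μ χ| ≤ τ) (hTm : ∑ χ, |μ (shT (-1) χ) - μ χ| ≤ τ)
    (hU1 : ∑ χ, |μ (shU 1 χ) - μ χ| ≤ τ) (hUm : ∑ χ, |μ (shU (-1) χ) - μ χ| ≤ τ)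
    (hκ : ∑ χ ∈ univ.filter (fun χ => ¬ InBox χ), μ χ ≤ κ) :
    ∑ χ ∈ univ.filter (fun χ : ZMod N × ZMod N => χ ≠ 0), μ χ ≤ 5 * κ + 10 * τ := by
  classical
  set Sp : Finset (ZMod N × ZMod N) := univ.filter (fun χ => InBox χ ∧ 0 < vv χ.1 * vv χ.2) with hSp
  set Sm : Finset (ZMod N × ZMod N) := univ.filter (fun χ => InBox χ ∧ vv χ.1 * vv χ.2 < 0) with hSm
  set Wp : Finset (ZMod N × ZMod N) := univ.filter (fun χ => 0 < vv χ.1 * vv χ.2) with hWp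
  set Wm : Finset (ZMod N × ZMod N) := univ.filter (fun χ => vv χ.1 * vv χ.2 < 0) with hWm
  set Bc : Finset (ZMod N × ZMod N) := univ.filter (fun χ => ¬ InBox χ) with hBc
  set S3 : Finset (ZMod N × ZMod N) := univ.filter (fun χ => InBox χ ∧ χ.2 = 0 ∧ χ.1 ≠ 0) with hS3
  set S4 : Finset (ZMod N × ZMod N) := univ.filter (fun χ => InBox χ ∧ χ.1 = 0 ∧ χ.2 ≠ 0) with hS4
  have hκ0 : 0 ≤ ∑ χ ∈ Bc, μ χ := Finset.sum_nonneg fun χ _ => hμ χ
  have union_le : ∀ s t u : Finset (ZMod N × ZMod N), s ⊆ t ∪ u →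
      ∑ χ ∈ s, μ χ ≤ ∑ χ ∈ t, μ χ + ∑ χ ∈ u, μ χ := by
    intro s t u h
    have h1 := Finset.sum_le_sum_of_subset_of_nonneg h (fun χ _ _ => hμ χ)
    have h2 := Finset.sum_union_inter (s₁ := t) (s₂ := u) (f := μ)
    have h3 : 0 ≤ ∑ χ ∈ t ∩ u, μ χ := Finset.sum_nonneg fun χ _ => hμ χ
    linarith
  -- the positive quadrant
  have hWpS : ∑ χ ∈ Wp, μ χ ≤ ∑ χ ∈ Sp, μ χ + ∑ χ ∈ Bc, μ χ := by
    apply union_le
    intro χ hχ
    simp only [hWp, hSp, hBc, Finset.mem_union, Finset.mem_filter, Finset.mem_univ, true_and] at hχ ⊢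
    by_cases hb : InBox χ
    · exact Or.inl ⟨hb, hχ⟩
    · exact Or.inr hb
  have hWmS : ∑ χ ∈ Wm, μ χ ≤ ∑ χ ∈ Sm, μ χ + ∑ χ ∈ Bc, μ χ := by
    apply union_le
    intro χ hχ
    simp only [hWm, hSm, hBc, Finset.mem_union, Finset.mem_filter, Finset.mem_univ, true_and] at hχ ⊢
    by_cases hb : InBox χ
    · exact Or.inl ⟨hb, hχ⟩
    · exact Or.inr hb
  have hSpm : ∀ {a b : ZMod N}, (a, b) ∈ Sp →
      (8 * |vv a| ≤ (N : ℤ) ∧ 8 * |vv b| ≤ (N : ℤ)) ∧ 0 < vv a * vv b := by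
    intro a b h
    exact (Finset.mem_filter.mp h).2
  have hSmm : ∀ {a b : ZMod N}, (a, b) ∈ Sm →
      (8 * |vv a| ≤ (N : ℤ) ∧ 8 * |vv b| ≤ (N : ℤ)) ∧ vv a * vv b < 0 := by
    intro a b h
    exact (Finset.mem_filter.mp h).2
  have hS3m : ∀ {a b : ZMod N}, (a, b) ∈ S3 →
      (8 * |vv a| ≤ (N : ℤ) ∧ 8 * |vv b| ≤ (N : ℤ)) ∧ b = 0 ∧ a ≠ 0 := by
    intro a b h
    exact (Finset.mem_filter.mp h).2
  have hS4m : ∀ {a b : ZMod N}, (a, b) ∈ S4 →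
      (8 * |vv a| ≤ (N : ℤ) ∧ 8 * |vv b| ≤ (N : ℤ)) ∧ a = 0 ∧ b ≠ 0 := by
    intro a b h
    exact (Finset.mem_filter.mp h).2
  have hWpm : ∀ {a b : ZMod N}, 0 < vv a * vv b → (a, b) ∈ Wp := by
    intro a b h
    exact Finset.mem_filter.mpr ⟨Finset.mem_univ _, h⟩
  have hWmm : ∀ {a b : ZMod N}, vv a * vv b < 0 → (a, b) ∈ Wm := by
    intro a b h
    exact Finset.mem_filter.mpr ⟨Finset.mem_univ _, h⟩
  have hSpi : ∀ {a b : ZMod N}, 8 * |vv a| ≤ (N : ℤ) → 8 * |vv b| ≤ (N : ℤ) → 0 < vv a * vv b →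
      (a, b) ∈ Sp := by
    intro a b h1 h2 h3
    exact Finset.mem_filter.mpr ⟨Finset.mem_univ _, ⟨h1, h2⟩, h3⟩
  have hSp2 : 2 * ∑ χ ∈ Sp, μ χ ≤ ∑ χ ∈ Wp, μ χ + 2 * τ := by
    refine two_images μ hμ (shT 1) (shU 1) (shT_inj 1) (shU_inj 1) Sp Wp ?_ ?_ ?_ τ hT1 hU1
    · rintro ⟨a, b⟩ hχ
      obtain ⟨⟨ha, hb⟩, hab⟩ := hSpm hχ
      simp only [shT, one_mul]
      apply hWpm
      rw [vv_add_of_small ha hb]
      nlinarith [sq_nonneg (vv b)]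
    · rintro ⟨a, b⟩ hχ
      obtain ⟨⟨ha, hb⟩, hab⟩ := hSpm hχ
      simp only [shU, one_mul]
      apply hWpm
      rw [add_comm b a, vv_add_of_small ha hb]
      nlinarith [sq_nonneg (vv a)]
    · rintro ⟨a, b⟩ hχ ⟨a', b'⟩ hχ' heq
      simp only [shT, shU, one_mul, Prod.mk.injEq] at heq
      obtain ⟨⟨ha, hb⟩, hab⟩ := hSpm hχ
      obtain ⟨⟨ha', hb'⟩, hab'⟩ := hSpm hχ'
      obtain ⟨h1, h2⟩ := heq
      have e1 := vv_add_of_small ha hb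
      have e2 := vv_add_of_small hb' ha'
      rw [h1] at e1
      rw [← h2] at e2
      have e4 : vv b' = - vv a := by linarith
      rw [e1, e4] at hab'
      nlinarith [sq_nonneg (vv a)]
  have hSm2 : 2 * ∑ χ ∈ Sm, μ χ ≤ ∑ χ ∈ Wm, μ χ + 2 * τ := by
    refine two_images μ hμ (shT (-1)) (shU (-1)) (shT_inj _) (shU_inj _) Sm Wm ?_ ?_ ?_ τ hTm hUm
    · rintro ⟨a, b⟩ hχ
      obtain ⟨⟨ha, hb⟩, hab⟩ := hSmm hχ
      simp only [shT, neg_mul, one_mul]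
      apply hWmm
      rw [← sub_eq_add_neg, vv_sub_of_small ha hb]
      nlinarith [sq_nonneg (vv b)]
    · rintro ⟨a, b⟩ hχ
      obtain ⟨⟨ha, hb⟩, hab⟩ := hSmm hχ
      simp only [shU, neg_mul, one_mul]
      apply hWmm
      rw [← sub_eq_add_neg, vv_sub_of_small hb ha]
      nlinarith [sq_nonneg (vv a)]
    · rintro ⟨a, b⟩ hχ ⟨a', b'⟩ hχ' heq
      simp only [shT, shU, neg_mul, one_mul, Prod.mk.injEq] at heq
      obtain ⟨⟨ha, hb⟩, hab⟩ := hSmm hχ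
      obtain ⟨⟨ha', hb'⟩, hab'⟩ := hSmm hχ'
      obtain ⟨h1, h2⟩ := heq
      rw [← sub_eq_add_neg] at h1 h2
      have e1 := vv_sub_of_small ha hb
      have e2 := vv_sub_of_small hb' ha'
      rw [h1] at e1
      rw [← h2] at e2
      have e4 : vv b' = vv a := by linarith
      rw [e1, e4] at hab'
      nlinarith [sq_nonneg (vv a)]
  have hSpb : ∑ χ ∈ Sp, μ χ ≤ ∑ χ ∈ Bc, μ χ + 2 * τ := by linarith
  have hSmb : ∑ χ ∈ Sm, μ χ ≤ ∑ χ ∈ Bc, μ χ + 2 * τ := by linarith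
  have hS3b : ∑ χ ∈ S3, μ χ ≤ ∑ χ ∈ Sp, μ χ + τ := by
    refine one_image μ hμ (shU 1) (shU_inj 1) S3 Sp ?_ τ hU1
    rintro ⟨a, b⟩ hχ
    obtain ⟨⟨ha, hb⟩, hb0, ha0⟩ := hS3m hχ
    subst hb0
    simp only [shU, one_mul, zero_add]
    have : vv a ≠ 0 := fun h => ha0 (vv_eq_zero.mp h)
    exact hSpi ha ha (mul_self_pos.mpr this)
  have hS4b : ∑ χ ∈ S4, μ χ ≤ ∑ χ ∈ Sp, μ χ + τ := by
    refine one_image μ hμ (shT 1) (shT_inj 1) S4 Sp ?_ τ hT1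
    rintro ⟨a, b⟩ hχ
    obtain ⟨⟨ha, hb⟩, ha0, hb0⟩ := hS4m hχ
    subst ha0
    simp only [shT, one_mul, zero_add]
    have : vv b ≠ 0 := fun h => hb0 (vv_eq_zero.mp h)
    exact hSpi hb hb (mul_self_pos.mpr this)
  have hcover : univ.filter (fun χ : ZMod N × ZMod N => χ ≠ 0) ⊆ Bc ∪ (Sp ∪ (Sm ∪ (S3 ∪ S4))) := by
    rintro ⟨a, b⟩ hχ
    simp only [Finset.mem_filter, Finset.mem_univ, true_and, ne_eq, Prod.mk_eq_zero, not_and] at hχ
    simp only [hBc, hSp, hSm, hS3, hS4, Finset.mem_union, Finset.mem_filter, Finset.mem_univ,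
      true_and]
    by_cases hb : InBox (a, b)
    · right
      by_cases ha0 : a = 0
      · right; right; right
        exact ⟨hb, ha0, hχ ha0⟩
      · by_cases hb0 : b = 0
        · right; right; left
          exact ⟨hb, hb0, ha0⟩
        · have h1 : vv a ≠ 0 := fun h => ha0 (vv_eq_zero.mp h)
          have h2 : vv b ≠ 0 := fun h => hb0 (vv_eq_zero.mp h)
          have h3 : vv a * vv b ≠ 0 := mul_ne_zero h1 h2
          rcases lt_or_gt_of_ne h3 with h4 | h4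
          · right; left; exact ⟨hb, h4⟩
          · left; exact ⟨hb, h4⟩
    · left; exact hb
  have h1 := union_le _ _ _ hcover
  have h2 := union_le (Sp ∪ (Sm ∪ (S3 ∪ S4))) Sp (Sm ∪ (S3 ∪ S4)) (le_refl _)
  have h3 := union_le (Sm ∪ (S3 ∪ S4)) Sm (S3 ∪ S4) (le_refl _)
  have h4 := union_le (S3 ∪ S4) S3 S4 (le_refl _)
  linarith

end

end Vale.Agent.Lib.P090.KF
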