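import Mathlib

/-!
# Fourier analysis on `ZMod N × ZMod N` for a translation action (module K of P090).
-/

namespace Vale.Agent.Lib.P090.KF

open Finset

set_option linter.unusedSectionVars false

noncomputable section

variable {N : ℕ} [NeZero N]

/-- The pairing on `(ZMod N)²`. -/
def pair (χ u : ZMod N × ZMod N) : ZMod N := χ.1 * u.1 + χ.2 * u.2

/-- The standard additive character. -/
abbrev psi : AddChar (ZMod N) ℂ := ZMod.stdAddChar

lemma pair_add_right (χ u v : ZMod N × ZMod N) : pair χ (u + v) = pair χ u + pair χ v := by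
  simp only [pair, Prod.fst_add, Prod.snd_add]; ring

lemma sum_psi_mul (b : ZMod N) :
    ∑ x : ZMod N, psi (x * b) = if b = 0 then (N : ℂ) else 0 := by
  have := AddChar.sum_mulShift (R := ZMod N) (R' := ℂ) (ψ := ZMod.stdAddChar) b
    (ZMod.isPrimitive_stdAddChar N)
  rw [this]
  by_cases hb : b = 0
  · simp [hb, ZMod.card]
  · simp [hb]

lemma sum_pair_char (w : ZMod N × ZMod N) :
    ∑ χ : ZMod N × ZMod N, psi (pair χ w) = if w = 0 then (N : ℂ) ^ 2 else 0 := by
  have h1 : ∑ χ : ZMod N × ZMod N, psi (pair χ w) =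
      (∑ a : ZMod N, psi (a * w.1)) * ∑ b : ZMod N, psi (b * w.2) := by
    rw [Fintype.sum_prod_type, Finset.sum_mul_sum]
    refine Finset.sum_congr rfl fun a _ => Finset.sum_congr rfl fun b _ => ?_
    simp only [pair]
    rw [AddChar.map_add_eq_mul]
  rw [h1, sum_psi_mul, sum_psi_mul]
  by_cases h : w = 0
  · subst h
    simp [sq]
  · rw [if_neg h]
    by_cases h2 : w.1 = 0
    · have h3 : w.2 ≠ 0 := fun h3 => h (Prod.ext h2 h3)
      simp [h3]
    · simp [h2]

/-- Parseval on `(ZMod N)²`. -/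
lemma parseval (F : ZMod N × ZMod N → ℂ) :
    ∑ χ : ZMod N × ZMod N, ‖∑ u, psi (-(pair χ u)) * F u‖ ^ 2
      = (N : ℝ) ^ 2 * ∑ u, ‖F u‖ ^ 2 := by
  have key : ((∑ χ : ZMod N × ZMod N, ‖∑ u, psi (-(pair χ u)) * F u‖ ^ 2 : ℝ) : ℂ)
      = (((N : ℝ) ^ 2 * ∑ u, ‖F u‖ ^ 2 : ℝ) : ℂ) := by
    push_cast
    have hz : ∀ z : ℂ, ((‖z‖ : ℂ)) ^ 2 = z * (starRingEnd ℂ) z := by
      intro z
      rw [Complex.mul_conj, Complex.normSq_eq_norm_sq]
      push_cast
      rfl
    simp_rw [hz, map_sum, map_mul, ← AddChar.map_neg_eq_conj, neg_neg]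
    simp_rw [Finset.sum_mul_sum]
    rw [Finset.sum_comm]
    have : ∀ u : ZMod N × ZMod N,
        ∑ χ : ZMod N × ZMod N, ∑ v : ZMod N × ZMod N,
          psi (-(pair χ u)) * F u * (psi (pair χ v) * (starRingEnd ℂ) (F v))
        = (N : ℂ) ^ 2 * (F u * (starRingEnd ℂ) (F u)) := by
      intro u
      rw [Finset.sum_comm]
      rw [Finset.sum_eq_single u]
      · have : ∀ χ : ZMod N × ZMod N,
            psi (-(pair χ u)) * F u * (psi (pair χ u) * (starRingEnd ℂ) (F u))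
            = F u * (starRingEnd ℂ) (F u) := by
          intro χ
          have h0 : psi (-(pair χ u)) * psi (pair χ u) = (1 : ℂ) := by
            rw [← AddChar.map_add_eq_mul]
            simp
          calc _ = (psi (-(pair χ u)) * psi (pair χ u)) * (F u * (starRingEnd ℂ) (F u)) := by ring
            _ = _ := by rw [h0, one_mul]
        simp_rw [this]
        simp [Finset.card_univ, ZMod.card, sq, nsmul_eq_mul]
      · intro v _ hv
        have : ∀ χ : ZMod N × ZMod N,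
            psi (-(pair χ u)) * F u * (psi (pair χ v) * (starRingEnd ℂ) (F v))
            = psi (pair χ (v - u)) * (F u * (starRingEnd ℂ) (F v)) := by
          intro χ
          have h0 : psi (pair χ (v - u)) = psi (-(pair χ u)) * psi (pair χ v) := by
            rw [← AddChar.map_add_eq_mul]
            congr 1
            simp only [pair, Prod.fst_sub, Prod.snd_sub]; ring
          rw [h0]; ring
        simp_rw [this]
        rw [← Finset.sum_mul, sum_pair_char, if_neg (sub_ne_zero.mpr hv), zero_mul]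
      · intro h; exact absurd (Finset.mem_univ u) h
    simp_rw [this]
    rw [← Finset.mul_sum]
  exact_mod_cast key

variable {GG : Type} [Group GG] [Fintype GG]

/-- Left translation of a function. -/
def Lt (s : GG) (f : GG → ℂ) : GG → ℂ := fun g => f (s * g)

/-- The squared `ℓ²` norm. -/
def N2 (f : GG → ℂ) : ℝ := ∑ g, ‖f g‖ ^ 2

lemma N2_nonneg (f : GG → ℂ) : 0 ≤ N2 f := Finset.sum_nonneg fun _ _ => by positivity

lemma N2_Lt (s : GG) (f : GG → ℂ) : N2 (Lt s f) = N2 f := by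
  simp only [N2, Lt]
  exact Equiv.sum_comp (Equiv.mulLeft s) (fun g => ‖f g‖ ^ 2)

variable (h : ZMod N × ZMod N → GG)

/-- The spectral projection attached to the character `χ`. -/
def PP (χ : ZMod N × ZMod N) (f : GG → ℂ) (g : GG) : ℂ :=
  ((N : ℂ) ^ 2)⁻¹ * ∑ u, psi (-(pair χ u)) * f (h u * g)

/-- The spectral measure. -/
def mu (f : GG → ℂ) (χ : ZMod N × ZMod N) : ℝ := N2 (PP h χ f)

lemma mu_nonneg (f : GG → ℂ) (χ : ZMod N × ZMod N) : 0 ≤ mu h f χ := N2_nonneg _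

lemma PP_sub (χ : ZMod N × ZMod N) (f f' : GG → ℂ) (g : GG) :
    PP h χ (fun x => f x - f' x) g = PP h χ f g - PP h χ f' g := by
  simp only [PP, mul_sub, Finset.sum_sub_distrib]

lemma mu_sum (f : GG → ℂ) : ∑ χ, mu h f χ = N2 f := by
  have hN : (N : ℝ) ≠ 0 := by exact_mod_cast NeZero.ne N
  simp only [mu, N2, PP]
  rw [Finset.sum_comm]
  have : ∀ g : GG, ∑ χ : ZMod N × ZMod N,
      ‖((N : ℂ) ^ 2)⁻¹ * ∑ u, psi (-(pair χ u)) * f (h u * g)‖ ^ 2
      = ((N : ℝ) ^ 2)⁻¹ * ∑ u, ‖f (h u * g)‖ ^ 2 := by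
    intro g
    have h1 := parseval (N := N) (fun u => f (h u * g))
    simp_rw [norm_mul, mul_pow]
    rw [← Finset.mul_sum, h1]
    have : ‖((N : ℂ) ^ 2)⁻¹‖ ^ 2 = (((N : ℝ) ^ 2)⁻¹) ^ 2 := by
      simp
    rw [this]
    field_simp
  simp_rw [this]
  rw [← Finset.mul_sum, Finset.sum_comm]
  have h2 : ∀ u : ZMod N × ZMod N, ∑ g : GG, ‖f (h u * g)‖ ^ 2 = ∑ g : GG, ‖f g‖ ^ 2 := fun u =>
    Equiv.sum_comp (Equiv.mulLeft (h u)) (fun g => ‖f g‖ ^ 2)
  simp_rw [h2]
  simp [Finset.card_univ, ZMod.card, sq]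
  field_simp

/-- Translating by `h v` multiplies the projection by a character value. -/
lemma PP_Lt_h (hh : ∀ u v, h v * h u = h (u + v)) (χ v : ZMod N × ZMod N) (f : GG → ℂ) (g : GG) :
    PP h χ (Lt (h v) f) g = psi (pair χ v) * PP h χ f g := by
  simp only [PP, Lt]
  have h1 : ∑ u, psi (-(pair χ u)) * f (h v * (h u * g))
      = ∑ u, psi (pair χ v) * (psi (-(pair χ (u + v))) * f (h (u + v) * g)) := by
    refine Finset.sum_congr rfl fun u _ => ?_
    rw [← mul_assoc (h v), hh, ← mul_assoc, ← AddChar.map_add_eq_mul]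
    congr 2
    rw [pair_add_right]; ring
  rw [h1, ← Finset.mul_sum]
  have h2 := Equiv.sum_comp (Equiv.addRight v)
    (fun u => psi (-(pair χ u)) * f (h u * g))
  simp only [Equiv.coe_addRight] at h2
  rw [h2]
  ring

/-- The key identity for translations by `h v`. -/
lemma N2_Lt_h_sub (hh : ∀ u v, h v * h u = h (u + v)) (v : ZMod N × ZMod N) (f : GG → ℂ) :
    N2 (fun x => Lt (h v) f x - f x) = ∑ χ, ‖psi (pair χ v) - 1‖ ^ 2 * mu h f χ := by
  rw [← mu_sum h (fun x => Lt (h v) f x - f x)]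
  refine Finset.sum_congr rfl fun χ _ => ?_
  simp only [mu, N2]
  rw [Finset.mul_sum]
  refine Finset.sum_congr rfl fun g _ => ?_
  rw [PP_sub, PP_Lt_h h hh, ← sub_one_mul, norm_mul, mul_pow]

/-- The projection of a translate by a shearing element. -/
lemma PP_Lt_shear (S : ZMod N × ZMod N ≃ ZMod N × ZMod N) (S' : ZMod N × ZMod N → ZMod N × ZMod N)
    (hS' : ∀ χ u, pair χ u = pair (S' χ) (S u)) (s : GG) (hs : ∀ u, s * h u = h (S u) * s)
    (χ : ZMod N × ZMod N) (f : GG → ℂ) (g : GG) :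
    PP h χ (Lt s f) g = PP h (S' χ) f (s * g) := by
  simp only [PP, Lt]
  congr 1
  calc ∑ u, psi (-(pair χ u)) * f (s * (h u * g))
      = ∑ u, psi (-(pair (S' χ) (S u))) * f (h (S u) * (s * g)) := by
        refine Finset.sum_congr rfl fun u _ => ?_
        rw [hS', ← mul_assoc, hs, mul_assoc]
    _ = ∑ w, psi (-(pair (S' χ) w)) * f (h w * (s * g)) :=
        Equiv.sum_comp S (fun w => psi (-(pair (S' χ) w)) * f (h w * (s * g)))

lemma mu_Lt_shear (S : ZMod N × ZMod N ≃ ZMod N × ZMod N) (S' : ZMod N × ZMod N → ZMod N × ZMod N)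
    (hS' : ∀ χ u, pair χ u = pair (S' χ) (S u)) (s : GG) (hs : ∀ u, s * h u = h (S u) * s)
    (χ : ZMod N × ZMod N) (f : GG → ℂ) :
    mu h (Lt s f) χ = mu h f (S' χ) := by
  simp only [mu, N2]
  simp_rw [PP_Lt_shear h S S' hS' s hs χ f]
  exact Equiv.sum_comp (Equiv.mulLeft s) (fun g => ‖PP h (S' χ) f g‖ ^ 2)

/-- Total variation distance of the spectral measures of `a` and `b`. -/
lemma tv_mu (a b : GG → ℂ) :
    ∑ χ, |mu h a χ - mu h b χ| ≤ √(N2 (fun x => a x - b x)) * √(2 * N2 a + 2 * N2 b) := by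
  classical
  have h1 : ∀ χ, |mu h a χ - mu h b χ| ≤
      ∑ g, ‖PP h χ (fun x => a x - b x) g‖ * (‖PP h χ a g‖ + ‖PP h χ b g‖) := by
    intro χ
    simp only [mu, N2]
    rw [← Finset.sum_sub_distrib]
    refine (Finset.abs_sum_le_sum_abs _ _).trans (Finset.sum_le_sum fun g _ => ?_)
    rw [PP_sub]
    have h2 : ‖PP h χ a g‖ ^ 2 - ‖PP h χ b g‖ ^ 2
        = (‖PP h χ a g‖ - ‖PP h χ b g‖) * (‖PP h χ a g‖ + ‖PP h χ b g‖) := by ring
    rw [h2, abs_mul, abs_of_nonneg (by positivity : 0 ≤ ‖PP h χ a g‖ + ‖PP h χ b g‖)]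
    exact mul_le_mul_of_nonneg_right (abs_norm_sub_norm_le _ _) (by positivity)
  refine (Finset.sum_le_sum fun χ _ => h1 χ).trans ?_
  rw [← Finset.sum_product']
  refine (Real.sum_mul_le_sqrt_mul_sqrt _ _ _).trans ?_
  have h3 : ∑ i ∈ (univ : Finset (ZMod N × ZMod N)) ×ˢ (univ : Finset GG),
      ‖PP h i.1 (fun x => a x - b x) i.2‖ ^ 2 = N2 (fun x => a x - b x) := by
    rw [Finset.sum_product, ← mu_sum h]
    rfl
  have h4 : ∑ i ∈ (univ : Finset (ZMod N × ZMod N)) ×ˢ (univ : Finset GG),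
      (‖PP h i.1 a i.2‖ + ‖PP h i.1 b i.2‖) ^ 2 ≤ 2 * N2 a + 2 * N2 b := by
    rw [← mu_sum h a, ← mu_sum h b, Finset.mul_sum, Finset.mul_sum, ← Finset.sum_add_distrib,
      Finset.sum_product]
    refine Finset.sum_le_sum fun χ _ => ?_
    simp only [mu, N2]
    rw [Finset.mul_sum, Finset.mul_sum, ← Finset.sum_add_distrib]
    refine Finset.sum_le_sum fun g _ => ?_
    nlinarith [sq_nonneg (‖PP h χ a g‖ - ‖PP h χ b g‖)]
  rw [h3]
  exact mul_le_mul_of_nonneg_left (Real.sqrt_le_sqrt h4) (Real.sqrt_nonneg _)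

end

end Vale.Agent.Lib.P090.KF
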