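import Vale.Agent.Lib.P090.KPoinc

/-!
# Bounded generation of `SL₃` over fields along a fixed pattern (module K of P090).
-/

namespace Vale.Agent.Lib.P090.KF

open Matrix

open Vale.Agent.Lib.P090

set_option linter.unusedSectionVars false
set_option linter.unusedSimpArgs false

noncomputable section

section ops

variable {R : Type} [CommRing R]

lemma elmul_same (a : Root) (r : R) (g : SL3 R) (y : Fin 3) :
    (el a r * g).1 a.1.1 y = g.1 a.1.1 y + r * g.1 a.1.2 y :=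
  transvection_mul_apply_same a.1.1 a.1.2 y r g.1

lemma elmul_ne (a : Root) (r : R) (g : SL3 R) (x y : Fin 3) (hx : x ≠ a.1.1) :
    (el a r * g).1 x y = g.1 x y :=
  transvection_mul_apply_of_ne a.1.1 a.1.2 x y hx r g.1

lemma mulel_same (a : Root) (r : R) (g : SL3 R) (x : Fin 3) :
    (g * el a r).1 x a.1.2 = g.1 x a.1.2 + r * g.1 x a.1.1 :=
  mul_transvection_apply_same a.1.1 a.1.2 x r g.1

lemma mulel_ne (a : Root) (r : R) (g : SL3 R) (x y : Fin 3) (hy : y ≠ a.1.2) :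
    (g * el a r).1 x y = g.1 x y :=
  mul_transvection_apply_of_ne a.1.1 a.1.2 x y hy r g.1

end ops

variable {F : Type} [Field F]

lemma col_zero_ne (g : SL3 F) : ¬ (g.1 0 0 = 0 ∧ g.1 1 0 = 0 ∧ g.1 2 0 = 0) := by
  rintro ⟨h0, h1, h2⟩
  have hd := g.2
  rw [Matrix.det_fin_three, h0, h1, h2] at hd
  simp at hd

/-- First reduction: make the entry `(1, 0)` nonzero. -/
lemma step_nonzero (g : SL3 F) : ∃ s' s : F, (el r10 s * (el r12 s' * g)).1 1 0 ≠ 0 := by
  have e : ∀ s' s : F, (el r10 s * (el r12 s' * g)).1 1 0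
      = g.1 1 0 + s' * g.1 2 0 + s * g.1 0 0 := by
    intro s' s
    have h1 : (el r10 s * (el r12 s' * g)).1 1 0 = (el r12 s' * g).1 1 0 + s * (el r12 s' * g).1 0 0 :=
      elmul_same r10 s _ 0
    have h2 : (el r12 s' * g).1 1 0 = g.1 1 0 + s' * g.1 2 0 := elmul_same r12 s' g 0
    have h3 : (el r12 s' * g).1 0 0 = g.1 0 0 := elmul_ne r12 s' g 0 0 (by decide)
    rw [h1, h2, h3]
  by_cases h0 : g.1 0 0 = 0
  · by_cases h1 : g.1 1 0 = 0
    · have h2 : g.1 2 0 ≠ 0 := fun h2 => col_zero_ne g ⟨h0, h1, h2⟩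
      refine ⟨(g.1 2 0)⁻¹, 0, ?_⟩
      rw [e, h1, h0]
      simp [h2]
    · refine ⟨0, 0, ?_⟩
      rw [e]
      simpa using h1
  · refine ⟨0, (1 - g.1 1 0) / g.1 0 0, ?_⟩
    rw [e]
    field_simp
    simp

/-- Every element of `SL₃(F)` is a product along the pattern. -/
theorem exists_pat (g : SL3 F) : ∃ t : Fin 11 → F, g = prodPat t := by
  obtain ⟨s', s, hs⟩ := step_nonzero g
  set g1 := el r10 s * (el r12 s' * g) with hg1
  -- make the corner equal to one
  set t := (1 - g1.1 0 0) / g1.1 1 0 with ht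
  set g2 := el r01 t * g1 with hg2
  have g2_00 : g2.1 0 0 = 1 := by
    have : g2.1 0 0 = g1.1 0 0 + t * g1.1 1 0 := elmul_same r01 t g1 0
    rw [this, ht]
    field_simp
    ring
  set u := - g2.1 1 0 with hu
  set g3 := el r10 u * g2 with hg3
  have g3_00 : g3.1 0 0 = 1 := by
    have : g3.1 0 0 = g2.1 0 0 := elmul_ne r10 u g2 0 0 (by decide)
    rw [this, g2_00]
  have g3_10 : g3.1 1 0 = 0 := by
    have : g3.1 1 0 = g2.1 1 0 + u * g2.1 0 0 := elmul_same r10 u g2 0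
    rw [this, g2_00, hu]
    ring
  set v := - g3.1 2 0 with hv
  set g4 := el r20 v * g3 with hg4
  have g4_00 : g4.1 0 0 = 1 := by
    have : g4.1 0 0 = g3.1 0 0 := elmul_ne r20 v g3 0 0 (by decide)
    rw [this, g3_00]
  have g4_10 : g4.1 1 0 = 0 := by
    have : g4.1 1 0 = g3.1 1 0 := elmul_ne r20 v g3 1 0 (by decide)
    rw [this, g3_10]
  have g4_20 : g4.1 2 0 = 0 := by
    have : g4.1 2 0 = g3.1 2 0 + v * g3.1 0 0 := elmul_same r20 v g3 0
    rw [this, g3_00, hv]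
    ring
  -- clear the first row
  set w := - g4.1 0 1 with hw
  set g5 := g4 * el r01 w with hg5
  have g5_c : ∀ x, g5.1 x 0 = g4.1 x 0 := fun x => mulel_ne r01 w g4 x 0 (by decide)
  have g5_01 : g5.1 0 1 = 0 := by
    have : g5.1 0 1 = g4.1 0 1 + w * g4.1 0 0 := mulel_same r01 w g4 0
    rw [this, g4_00, hw]
    ring
  set z := - g5.1 0 2 with hz
  set M := g5 * el r02 z with hM
  have M_c : ∀ x, M.1 x 0 = g5.1 x 0 := fun x => mulel_ne r02 z g5 x 0 (by decide)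
  have M_00 : M.1 0 0 = 1 := by rw [M_c, g5_c, g4_00]
  have M_10 : M.1 1 0 = 0 := by rw [M_c, g5_c, g4_10]
  have M_20 : M.1 2 0 = 0 := by rw [M_c, g5_c, g4_20]
  have M_01 : M.1 0 1 = 0 := by
    have : M.1 0 1 = g5.1 0 1 := mulel_ne r02 z g5 0 1 (by decide)
    rw [this, g5_01]
  have M_02 : M.1 0 2 = 0 := by
    have : M.1 0 2 = g5.1 0 2 + z * g5.1 0 0 := mulel_same r02 z g5 0
    rw [this, g5_c, g4_00, hz]
    ring
  have Mdet : M.1 1 1 * M.1 2 2 - M.1 1 2 * M.1 2 1 = 1 := by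
    have hd := M.2
    rw [Matrix.det_fin_three, M_00, M_01, M_02, M_10, M_20] at hd
    linear_combination hd
  -- the block
  obtain ⟨a, ha⟩ : ∃ a : F, M.1 2 1 + a * M.1 1 1 ≠ 0 := by
    by_cases h : M.1 1 1 = 0
    · refine ⟨0, ?_⟩
      intro h2
      rw [h] at Mdet
      have : M.1 2 1 = 0 := by simpa using h2
      rw [this] at Mdet
      simp at Mdet
    · refine ⟨(1 - M.1 2 1) / M.1 1 1, ?_⟩
      field_simp
      simp
  set M1 := el r21 a * M with hM1
  have M1_0 : ∀ y, M1.1 0 y = M.1 0 y := fun y => elmul_ne r21 a M 0 y (by decide)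
  have M1_1 : ∀ y, M1.1 1 y = M.1 1 y := fun y => elmul_ne r21 a M 1 y (by decide)
  have M1_2 : ∀ y, M1.1 2 y = M.1 2 y + a * M.1 1 y := fun y => elmul_same r21 a M y
  have hγ : M1.1 2 1 ≠ 0 := by rw [M1_2]; exact ha
  set b := (1 - M1.1 1 1) / M1.1 2 1 with hb
  set M2 := el r12 b * M1 with hM2
  have M2_0 : ∀ y, M2.1 0 y = M1.1 0 y := fun y => elmul_ne r12 b M1 0 y (by decide)
  have M2_2 : ∀ y, M2.1 2 y = M1.1 2 y := fun y => elmul_ne r12 b M1 2 y (by decide)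
  have M2_1 : ∀ y, M2.1 1 y = M1.1 1 y + b * M1.1 2 y := fun y => elmul_same r12 b M1 y
  have M2_11 : M2.1 1 1 = 1 := by
    rw [M2_1, hb]
    field_simp
    ring
  set c := - M2.1 2 1 with hc
  set M3 := el r21 c * M2 with hM3
  have M3_0 : ∀ y, M3.1 0 y = M2.1 0 y := fun y => elmul_ne r21 c M2 0 y (by decide)
  have M3_1 : ∀ y, M3.1 1 y = M2.1 1 y := fun y => elmul_ne r21 c M2 1 y (by decide)
  have M3_2 : ∀ y, M3.1 2 y = M2.1 2 y + c * M2.1 1 y := fun y => elmul_same r21 c M2 y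
  have N00 : M3.1 0 0 = 1 := by rw [M3_0, M2_0, M1_0, M_00]
  have N01 : M3.1 0 1 = 0 := by rw [M3_0, M2_0, M1_0, M_01]
  have N02 : M3.1 0 2 = 0 := by rw [M3_0, M2_0, M1_0, M_02]
  have N10 : M3.1 1 0 = 0 := by rw [M3_1, M2_1, M1_1, M1_2, M_10, M_20]; ring
  have N11 : M3.1 1 1 = 1 := by rw [M3_1, M2_11]
  have N20 : M3.1 2 0 = 0 := by rw [M3_2, M2_2, M1_2, M2_1, M1_1, M1_2, M_10, M_20]; ring
  have N21 : M3.1 2 1 = 0 := by rw [M3_2, M2_11, hc]; ring
  have N22 : M3.1 2 2 = 1 := by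
    have hd := M3.2
    rw [Matrix.det_fin_three, N00, N01, N02, N10, N11, N20, N21] at hd
    linear_combination hd
  set β := M3.1 1 2 with hβ
  have hfinal : M3 = el r12 β := by
    apply Matrix.SpecialLinearGroup.ext
    intro x y
    have hel : ∀ x y, (el r12 β).1 x y = (transvection (1 : Fin 3) 2 β) x y := fun _ _ => rfl
    show M3.1 x y = (el r12 β).1 x y
    rw [hel]
    fin_cases x <;> fin_cases y <;>
      simp [transvection, Matrix.one_apply, Matrix.single_apply, N00, N01, N02, N10, N11, N20, N21,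
        N22, hβ]
  refine ⟨![-s', -s, -t, -u, -v, -a, -b, -c, β, -z, -w], ?_⟩
  simp only [prodPat, el_neg]
  have e : ((fun i : Fin 11 => (![-s', -s, -t, -u, -v, -a, -b, -c, β, -z, -w] : Fin 11 → F) i)) =
      ![-s', -s, -t, -u, -v, -a, -b, -c, β, -z, -w] := rfl
  show g = el r12 (-s') * el r10 (-s) * el r01 (-t) * el r10 (-u) * el r20 (-v) *
    el r21 (-a) * el r12 (-b) * el r21 (-c) * el r12 β * el r02 (-z) * el r01 (-w)
  rw [← hfinal, hM3, hM2, hM1, hM, hg5, hg4, hg3, hg2, hg1]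
  simp only [el_neg]
  group

end

end Vale.Agent.Lib.P090.KF
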