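import Vale.Agent.Lib.P090.KSL3

/-!
# From root bounds to the Poincaré inequality (module K of P090).
-/

namespace Vale.Agent.Lib.P090.KF

open Matrix Finset

open Vale.Agent.Lib.P090

set_option linter.unusedSectionVars false
set_option linter.unusedSimpArgs false

noncomputable section

variable {GG : Type} [Group GG] [Fintype GG]

/-- Triangle inequality for the `ℓ²` norm. -/
lemma sqrt_N2_add (a b : GG → ℂ) : √(N2 (fun x => a x + b x)) ≤ √(N2 a) + √(N2 b) := by
  have h1 := Real.sum_mul_le_sqrt_mul_sqrt (univ : Finset GG) (fun g => ‖a g‖) (fun g => ‖b g‖)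
  have ha := N2_nonneg a
  have hb := N2_nonneg b
  have h2 : N2 (fun x => a x + b x) ≤ (√(N2 a) + √(N2 b)) ^ 2 := by
    have h3 : (√(N2 a) + √(N2 b)) ^ 2 = N2 a + N2 b + 2 * (√(N2 a) * √(N2 b)) := by
      have e1 := Real.sq_sqrt ha
      have e2 := Real.sq_sqrt hb
      nlinarith
    rw [h3]
    have h4 : N2 (fun x => a x + b x) ≤ ∑ g, (‖a g‖ ^ 2 + ‖b g‖ ^ 2 + 2 * (‖a g‖ * ‖b g‖)) := by
      refine Finset.sum_le_sum fun g _ => ?_
      have h5 := norm_add_le (a g) (b g)
      have h6 := norm_nonneg (a g + b g)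
      nlinarith
    rw [Finset.sum_add_distrib, Finset.sum_add_distrib, ← Finset.mul_sum] at h4
    have h7 : N2 a + N2 b + 2 * ∑ g, ‖a g‖ * ‖b g‖ ≤ N2 a + N2 b + 2 * (√(N2 a) * √(N2 b)) := by
      have : ∑ g, ‖a g‖ * ‖b g‖ ≤ √(N2 a) * √(N2 b) := h1
      linarith
    exact h4.trans h7
  calc √(N2 (fun x => a x + b x)) ≤ √((√(N2 a) + √(N2 b)) ^ 2) := Real.sqrt_le_sqrt h2
    _ = √(N2 a) + √(N2 b) := Real.sqrt_sq (by positivity)

/-- The displacement of `f` under a translation. -/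
def DD (f : GG → ℂ) (g : GG) : ℝ := √(N2 (fun x => Lt g f x - f x))

lemma DD_nonneg (f : GG → ℂ) (g : GG) : 0 ≤ DD f g := Real.sqrt_nonneg _

lemma DD_mul (f : GG → ℂ) (g g' : GG) : DD f (g * g') ≤ DD f g + DD f g' := by
  have h1 : N2 (fun x => Lt (g * g') f x - f x)
      = N2 (fun x => Lt g' (fun y => Lt g f y - f y) x + (Lt g' f x - f x)) := by
    simp only [N2, Lt]
    refine Finset.sum_congr rfl fun x _ => ?_
    congr 2
    rw [mul_assoc]
    ring
  have h2 := sqrt_N2_add (Lt g' (fun y => Lt g f y - f y)) (fun x => Lt g' f x - f x)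
  rw [N2_Lt] at h2
  unfold DD
  rw [h1]
  exact h2

/-- A mean zero function is bounded by its largest displacement. -/
lemma N2_le_of_mean_zero (f : GG → ℂ) (hf : ∑ g, f g = 0) (C : ℝ)
    (hC : ∀ g, N2 (fun x => Lt g f x - f x) ≤ C) : N2 f ≤ C := by
  classical
  have hcard : (0 : ℝ) < Fintype.card GG := by exact_mod_cast Fintype.card_pos
  have h1 : ∀ x : GG, ∑ g : GG, (f (g * x) - f x) = -((Fintype.card GG : ℂ) * f x) := by
    intro x
    rw [Finset.sum_sub_distrib]
    have h2 : ∑ g : GG, f (g * x) = 0 := by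
      rw [← hf]
      exact Equiv.sum_comp (Equiv.mulRight x) f
    rw [h2]
    simp [Finset.card_univ]
  have h3 : ∀ x : GG, ((Fintype.card GG : ℝ)) ^ 2 * ‖f x‖ ^ 2
      ≤ (Fintype.card GG : ℝ) * ∑ g : GG, ‖f (g * x) - f x‖ ^ 2 := by
    intro x
    have h4 : (Fintype.card GG : ℝ) * ‖f x‖ ≤ ∑ g : GG, ‖f (g * x) - f x‖ := by
      have h5 := norm_sum_le (univ : Finset GG) (fun g => f (g * x) - f x)
      rw [h1 x, norm_neg, norm_mul] at h5
      simpa using h5
    have h6 := sq_sum_le_card_mul_sum_sq (s := (univ : Finset GG))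
      (f := fun g => ‖f (g * x) - f x‖)
    have h7 : ((Fintype.card GG : ℝ) * ‖f x‖) ^ 2 ≤ (∑ g : GG, ‖f (g * x) - f x‖) ^ 2 :=
      pow_le_pow_left₀ (by positivity) h4 2
    rw [mul_pow] at h7
    refine h7.trans ?_
    simpa [Finset.card_univ] using h6
  have h8 : ((Fintype.card GG : ℝ)) ^ 2 * N2 f
      ≤ (Fintype.card GG : ℝ) * ∑ g : GG, N2 (fun x => Lt g f x - f x) := by
    simp only [N2, Lt]
    rw [Finset.mul_sum, Finset.sum_comm, Finset.mul_sum]
    exact Finset.sum_le_sum fun x _ => h3 x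
  have h9 : ∑ g : GG, N2 (fun x => Lt g f x - f x) ≤ (Fintype.card GG : ℝ) * C := by
    have := Finset.sum_le_card_nsmul (univ : Finset GG) _ C (fun g _ => hC g)
    simpa [Finset.card_univ] using this
  have h10 : ((Fintype.card GG : ℝ)) ^ 2 * N2 f ≤ ((Fintype.card GG : ℝ)) ^ 2 * C := by
    refine h8.trans ?_
    calc (Fintype.card GG : ℝ) * ∑ g : GG, N2 (fun x => Lt g f x - f x)
        ≤ (Fintype.card GG : ℝ) * ((Fintype.card GG : ℝ) * C) :=
          mul_le_mul_of_nonneg_left h9 hcard.le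
      _ = _ := by ring
  exact le_of_mul_le_mul_left h10 (by positivity)

/-- The pattern of eleven roots. -/
def r01 : Root := ⟨(0, 1), by decide⟩
/-- A root. -/
def r02 : Root := ⟨(0, 2), by decide⟩
/-- A root. -/
def r10 : Root := ⟨(1, 0), by decide⟩
/-- A root. -/
def r12 : Root := ⟨(1, 2), by decide⟩
/-- A root. -/
def r20 : Root := ⟨(2, 0), by decide⟩
/-- A root. -/
def r21 : Root := ⟨(2, 1), by decide⟩

/-- The product along the fixed pattern. -/
def prodPat {R : Type} [CommRing R] (t : Fin 11 → R) : SL3 R :=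
  el r12 (t 0) * el r10 (t 1) * el r01 (t 2) * el r10 (t 3) * el r20 (t 4) *
    el r21 (t 5) * el r12 (t 6) * el r21 (t 7) * el r12 (t 8) * el r02 (t 9) * el r01 (t 10)

variable {N : ℕ} [NeZero N]

/-- The Poincaré constant on the square root scale. -/
def K1 : ℝ := 9820

theorem poincare_of_hom (φ : SL3 (ZMod N) →* GG)
    (hgen : ∀ g : GG, ∃ t : Fin 11 → ZMod N, g = φ (prodPat t)) (f : GG → ℂ)
    (hf : ∑ g, f g = 0) : N2 f ≤ K1 ^ 2 * E2 φ f := by
  set E := √(E2 φ f) with hE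
  set x := √(N2 f) with hx
  have hE0 : 0 ≤ E := Real.sqrt_nonneg _
  have hx0 : 0 ≤ x := Real.sqrt_nonneg _
  have hEs : E ^ 2 = E2 φ f := Real.sq_sqrt (E2_nonneg φ f)
  have hxs : x ^ 2 = N2 f := Real.sq_sqrt (N2_nonneg f)
  set B := √(4 * (40 * E2 φ f + 20 * E * x)) with hB
  have hB0 : 0 ≤ B := Real.sqrt_nonneg _
  have hBs : B ^ 2 = 4 * (40 * E2 φ f + 20 * E * x) :=
    Real.sq_sqrt (by have := E2_nonneg φ f; positivity)
  have hroot : ∀ (a : Root) (t : ZMod N), DD f (φ (el a t)) ≤ B := by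
    intro a t
    exact Real.sqrt_le_sqrt (root_bound φ f a t)
  have hall : ∀ g : GG, DD f g ≤ 11 * B := by
    intro g
    obtain ⟨t, rfl⟩ := hgen g
    simp only [prodPat, map_mul]
    have step : ∀ (g : GG) (a : Root) (s : ZMod N) (C : ℝ), DD f g ≤ C →
        DD f (g * φ (el a s)) ≤ C + B := fun g a s C hC =>
      (DD_mul f _ _).trans (add_le_add hC (hroot a s))
    have h0 := hroot r12 (t 0)
    have h1 := step _ r10 (t 1) _ h0
    have h2 := step _ r01 (t 2) _ h1
    have h3 := step _ r10 (t 3) _ h2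
    have h4 := step _ r20 (t 4) _ h3
    have h5 := step _ r21 (t 5) _ h4
    have h6 := step _ r12 (t 6) _ h5
    have h7 := step _ r21 (t 7) _ h6
    have h8 := step _ r12 (t 8) _ h7
    have h9 := step _ r02 (t 9) _ h8
    have h10 := step _ r01 (t 10) _ h9
    linarith
  have hmean : N2 f ≤ (11 * B) ^ 2 := by
    refine N2_le_of_mean_zero f hf _ fun g => ?_
    have h1 := hall g
    have h2 : √(N2 (fun x => Lt g f x - f x)) ≤ 11 * B := h1
    have h3 := Real.sq_sqrt (N2_nonneg (fun x => Lt g f x - f x))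
    have h4 := Real.sqrt_nonneg (N2 (fun x => Lt g f x - f x))
    nlinarith
  have hq : x ^ 2 ≤ 19360 * E ^ 2 + 9680 * E * x := by
    rw [hxs]
    refine hmean.trans (le_of_eq ?_)
    rw [mul_pow, hBs, hEs]
    ring
  have hfinal : x ≤ K1 * E := by
    by_contra hcon
    push Not at hcon
    have hK : K1 = 9820 := rfl
    rw [hK] at hcon
    nlinarith [mul_nonneg hE0 hE0, mul_nonneg hE0 hx0]
  have hK0 : 0 ≤ K1 := by norm_num [K1]
  rw [← hxs, ← hEs, ← mul_pow]
  exact pow_le_pow_left₀ hx0 hfinal 2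

end

end Vale.Agent.Lib.P090.KF
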