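import Vale.Agent.Lib.P090.KComb

/-!
# Relative property (T) for the shear configuration (module K of P090).
-/

namespace Vale.Agent.Lib.P090.KF

open Finset

set_option linter.unusedSectionVars false

noncomputable section

variable {N : ℕ} [NeZero N]

lemma psi_sub_one_sq_ge (a : ZMod N) (ha : (N : ℤ) < 8 * |vv a|) :
    1 / 4 ≤ ‖psi a - 1‖ ^ 2 := by
  have hN : (0 : ℝ) < N := by exact_mod_cast Nat.pos_of_ne_zero (NeZero.ne N)
  set v : ℤ := vv a with hv
  have hcast : ((v : ℤ) : ZMod N) = a := ZMod.coe_valMinAbs a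
  have h2v : 2 * |v| ≤ (N : ℤ) := by
    have h := ZMod.natAbs_valMinAbs_le a
    have h3 : |v| = (v.natAbs : ℤ) := Int.abs_eq_natAbs v
    rw [h3]
    have : (v.natAbs) * 2 ≤ N := by
      have h4 : v.natAbs ≤ N / 2 := h
      omega
    exact_mod_cast (by omega : 2 * v.natAbs ≤ N)
  have h1 : psi a = Complex.exp (Complex.I * ((2 * Real.pi * v / N : ℝ) : ℂ)) := by
    have := ZMod.stdAddChar_coe (N := N) v
    rw [hcast] at this
    rw [psi, this]
    congr 1
    push_cast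
    ring
  rw [h1, Complex.norm_exp_I_mul_ofReal_sub_one]
  set x : ℝ := Real.pi * |(v : ℝ)| / N with hx
  have hx0 : 0 ≤ x := by positivity
  have hvr : (2 : ℝ) * |(v : ℝ)| ≤ N := by exact_mod_cast h2v
  have hvr2 : (N : ℝ) < 8 * |(v : ℝ)| := by exact_mod_cast ha
  have hx1 : x ≤ Real.pi / 2 := by
    rw [hx, div_le_iff₀ hN]
    nlinarith [Real.pi_pos]
  have hs := Real.mul_le_sin hx0 hx1
  have hs2 : 2 / Real.pi * x = 2 * |(v : ℝ)| / N := by
    rw [hx]; field_simp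
  have hs3 : (1 : ℝ) / 4 ≤ 2 * |(v : ℝ)| / N := by
    rw [le_div_iff₀ hN]; linarith
  have hsin : (1 : ℝ) / 4 ≤ Real.sin x := by linarith
  have habs : |Real.sin (2 * Real.pi * v / N / 2)| = Real.sin x := by
    have e : 2 * Real.pi * (v : ℝ) / N / 2 = Real.pi * (v : ℝ) / N := by ring
    rw [e]
    rcases le_total 0 (v : ℝ) with hv0 | hv0
    · have ex : Real.pi * (v : ℝ) / N = x := by rw [hx, abs_of_nonneg hv0]
      rw [ex]
      exact abs_of_nonneg (by linarith)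
    · have ex : Real.pi * (v : ℝ) / N = -x := by rw [hx, abs_of_nonpos hv0]; ring
      rw [ex, Real.sin_neg, abs_neg]
      exact abs_of_nonneg (by linarith)
  rw [Real.norm_eq_abs, abs_mul, habs, abs_of_pos (by norm_num : (0 : ℝ) < 2)]
  nlinarith

variable {GG : Type} [Group GG] [Fintype GG]

/-- The configuration: `h` is a homomorphism from `(ZMod N)²` with four shearing elements. -/
structure ShearConf (h : ZMod N × ZMod N → GG) (sT1 sTm sU1 sUm : GG) : Prop where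
  hh : ∀ u v, h v * h u = h (u + v)
  rT1 : ∀ u, sT1 * h u = h (u.1 + u.2, u.2) * sT1
  rTm : ∀ u, sTm * h u = h (u.1 - u.2, u.2) * sTm
  rU1 : ∀ u, sU1 * h u = h (u.1, u.2 + u.1) * sU1
  rUm : ∀ u, sUm * h u = h (u.1, u.2 - u.1) * sUm

/-- The bijection `(u₁, u₂) ↦ (u₁ + t u₂, u₂)`. -/
def eqT (t : ZMod N) : ZMod N × ZMod N ≃ ZMod N × ZMod N where
  toFun u := (u.1 + t * u.2, u.2)
  invFun u := (u.1 - t * u.2, u.2)
  left_inv u := by simp
  right_inv u := by simp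

/-- The bijection `(u₁, u₂) ↦ (u₁, u₂ + t u₁)`. -/
def eqU (t : ZMod N) : ZMod N × ZMod N ≃ ZMod N × ZMod N where
  toFun u := (u.1, u.2 + t * u.1)
  invFun u := (u.1, u.2 - t * u.1)
  left_inv u := by simp
  right_inv u := by simp

theorem rel_T (h : ZMod N × ZMod N → GG) (sT1 sTm sU1 sUm : GG)
    (hc : ShearConf h sT1 sTm sU1 sUm) (f : GG → ℂ) (e : ℝ) (he : 0 ≤ e)
    (h10 : N2 (fun x => Lt (h (1, 0)) f x - f x) ≤ e ^ 2)
    (h01 : N2 (fun x => Lt (h (0, 1)) f x - f x) ≤ e ^ 2)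
    (hT1 : N2 (fun x => Lt sT1 f x - f x) ≤ e ^ 2)
    (hTm : N2 (fun x => Lt sTm f x - f x) ≤ e ^ 2)
    (hU1 : N2 (fun x => Lt sU1 f x - f x) ≤ e ^ 2)
    (hUm : N2 (fun x => Lt sUm f x - f x) ≤ e ^ 2) (v : ZMod N × ZMod N) :
    N2 (fun x => Lt (h v) f x - f x) ≤ 4 * (40 * e ^ 2 + 20 * e * √(N2 f)) := by
  classical
  set μ := mu h f with hμdef
  have hμ : ∀ χ, 0 ≤ μ χ := mu_nonneg h f
  set τ : ℝ := 2 * e * √(N2 f) with hτ
  -- total variation for a shear
  have hTV : ∀ s : GG, N2 (fun x => Lt s f x - f x) ≤ e ^ 2 →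
      ∑ χ, |mu h (Lt s f) χ - μ χ| ≤ τ := by
    intro s hs
    refine (tv_mu h (Lt s f) f).trans ?_
    rw [N2_Lt]
    have h1 : √(N2 (fun x => Lt s f x - f x)) ≤ e := by
      rw [← Real.sqrt_sq he]
      exact Real.sqrt_le_sqrt hs
    have h2 : √(2 * N2 f + 2 * N2 f) = 2 * √(N2 f) := by
      have : 2 * N2 f + 2 * N2 f = 2 ^ 2 * N2 f := by ring
      rw [this, Real.sqrt_mul (by positivity), Real.sqrt_sq (by norm_num)]
    rw [h2, hτ]
    have h3 := Real.sqrt_nonneg (N2 f)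
    nlinarith [mul_le_mul_of_nonneg_right h1 h3]
  -- the four shears
  have h1U : ∑ χ, |μ (shU (-1) χ) - μ χ| ≤ τ := by
    have := hTV sT1 hT1
    refine le_trans (le_of_eq ?_) this
    refine Finset.sum_congr rfl fun χ _ => ?_
    rw [mu_Lt_shear h (eqT 1) (shU (-1)) ?_ sT1 ?_ χ f]
    · intro χ u
      simp [pair, eqT, shU]; ring
    · intro u
      have := hc.rT1 u
      simpa [eqT] using this
  have h2U : ∑ χ, |μ (shU 1 χ) - μ χ| ≤ τ := by
    have := hTV sTm hTm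
    refine le_trans (le_of_eq ?_) this
    refine Finset.sum_congr rfl fun χ _ => ?_
    rw [mu_Lt_shear h (eqT (-1)) (shU 1) ?_ sTm ?_ χ f]
    · intro χ u
      simp [pair, eqT, shU]; ring
    · intro u
      have := hc.rTm u
      simpa [eqT, sub_eq_add_neg] using this
  have h1T : ∑ χ, |μ (shT (-1) χ) - μ χ| ≤ τ := by
    have := hTV sU1 hU1
    refine le_trans (le_of_eq ?_) this
    refine Finset.sum_congr rfl fun χ _ => ?_
    rw [mu_Lt_shear h (eqU 1) (shT (-1)) ?_ sU1 ?_ χ f]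
    · intro χ u
      simp [pair, eqU, shT]; ring
    · intro u
      have := hc.rU1 u
      simpa [eqU] using this
  have h2T : ∑ χ, |μ (shT 1 χ) - μ χ| ≤ τ := by
    have := hTV sUm hUm
    refine le_trans (le_of_eq ?_) this
    refine Finset.sum_congr rfl fun χ _ => ?_
    rw [mu_Lt_shear h (eqU (-1)) (shT 1) ?_ sUm ?_ χ f]
    · intro χ u
      simp [pair, eqU, shT]; ring
    · intro u
      have := hc.rUm u
      simpa [eqU, sub_eq_add_neg] using this
  -- outside of the box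
  have hside : ∀ w : ZMod N × ZMod N, N2 (fun x => Lt (h w) f x - f x) ≤ e ^ 2 →
      ∑ χ ∈ univ.filter (fun χ : ZMod N × ZMod N => (N : ℤ) < 8 * |vv (pair χ w)|), μ χ
        ≤ 4 * e ^ 2 := by
    intro w hw
    rw [N2_Lt_h_sub h hc.hh] at hw
    have h1 : ∑ χ ∈ univ.filter (fun χ : ZMod N × ZMod N => (N : ℤ) < 8 * |vv (pair χ w)|), μ χ
        ≤ ∑ χ ∈ univ.filter (fun χ : ZMod N × ZMod N => (N : ℤ) < 8 * |vv (pair χ w)|),
          4 * (‖psi (pair χ w) - 1‖ ^ 2 * μ χ) := by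
      refine Finset.sum_le_sum fun χ hχ => ?_
      have h2 := psi_sub_one_sq_ge (pair χ w) (Finset.mem_filter.mp hχ).2
      nlinarith [hμ χ]
    have h3 : ∑ χ ∈ univ.filter (fun χ : ZMod N × ZMod N => (N : ℤ) < 8 * |vv (pair χ w)|),
          4 * (‖psi (pair χ w) - 1‖ ^ 2 * μ χ)
        ≤ ∑ χ, 4 * (‖psi (pair χ w) - 1‖ ^ 2 * μ χ) :=
      Finset.sum_le_sum_of_subset_of_nonneg (Finset.subset_univ _)
        fun χ _ _ => by have := hμ χ; positivity
    have h4 : ∑ χ, 4 * (‖psi (pair χ w) - 1‖ ^ 2 * μ χ)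
        = 4 * ∑ χ, ‖psi (pair χ w) - 1‖ ^ 2 * μ χ := (Finset.mul_sum _ _ _).symm
    have hw' : ∑ χ, ‖psi (pair χ w) - 1‖ ^ 2 * μ χ ≤ e ^ 2 := hw
    linarith
  have hκ : ∑ χ ∈ univ.filter (fun χ => ¬ InBox χ), μ χ ≤ 8 * e ^ 2 := by
    have hs1 := hside (1, 0) h10
    have hs2 := hside (0, 1) h01
    have hsub : univ.filter (fun χ => ¬ InBox χ) ⊆
        univ.filter (fun χ : ZMod N × ZMod N => (N : ℤ) < 8 * |vv (pair χ (1, 0))|) ∪
        univ.filter (fun χ : ZMod N × ZMod N => (N : ℤ) < 8 * |vv (pair χ (0, 1))|) := by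
      rintro ⟨a, b⟩ hχ
      have hχ' : ¬ InBox (a, b) := (Finset.mem_filter.mp hχ).2
      rw [Finset.mem_union, Finset.mem_filter, Finset.mem_filter]
      simp only [pair, mul_one, mul_zero, add_zero, zero_add, Finset.mem_univ, true_and]
      by_contra hcon
      push Not at hcon
      exact hχ' ⟨hcon.1, hcon.2⟩
    have h5 := Finset.sum_le_sum_of_subset_of_nonneg hsub (fun χ _ _ => hμ χ)
    have h6 := Finset.sum_union_inter
      (s₁ := univ.filter (fun χ : ZMod N × ZMod N => (N : ℤ) < 8 * |vv (pair χ (1, 0))|))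
      (s₂ := univ.filter (fun χ : ZMod N × ZMod N => (N : ℤ) < 8 * |vv (pair χ (0, 1))|)) (f := μ)
    have h7 : 0 ≤ ∑ χ ∈ univ.filter (fun χ : ZMod N × ZMod N => (N : ℤ) < 8 * |vv (pair χ (1, 0))|) ∩
        univ.filter (fun χ : ZMod N × ZMod N => (N : ℤ) < 8 * |vv (pair χ (0, 1))|), μ χ :=
      Finset.sum_nonneg fun χ _ => hμ χ
    linarith
  have hmain := comb_shear μ hμ (8 * e ^ 2) τ h2T h1T h2U h1U hκ
  -- conclusion
  rw [N2_Lt_h_sub h hc.hh]
  have h8 : ∀ χ, ‖psi (pair χ v) - 1‖ ^ 2 * μ χ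
      ≤ if χ ≠ 0 then 4 * μ χ else 0 := by
    intro χ
    by_cases h0 : χ = 0
    · subst h0
      simp [pair]
    · rw [if_pos h0]
      have h9 : ‖psi (pair χ v) - 1‖ ≤ 2 := by
        refine (norm_sub_le _ _).trans ?_
        have : ‖psi (pair χ v)‖ = 1 := by
          rw [ZMod.stdAddChar_apply]; exact Circle.norm_coe _
        rw [this]; norm_num
      have h10' : ‖psi (pair χ v) - 1‖ ^ 2 ≤ 4 := by
        have := norm_nonneg (psi (pair χ v) - 1)
        nlinarith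
      exact mul_le_mul_of_nonneg_right h10' (hμ χ)
  refine (Finset.sum_le_sum fun χ _ => h8 χ).trans ?_
  rw [← Finset.sum_filter, ← Finset.mul_sum]
  have h11 : τ = 2 * e * √(N2 f) := hτ
  nlinarith

end

end Vale.Agent.Lib.P090.KF
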