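import Mathlib

/-!
# Elementary matrices in `SL₃`: notation shared by the P090 files.
-/

namespace Vale.Agent.Lib.P090

open Matrix

/-- `SL₃(R)`. -/
abbrev SL3 (R : Type) [CommRing R] := SpecialLinearGroup (Fin 3) R

/-- Ordered pairs `(i, j)` of distinct indices. -/
abbrev Root := {p : Fin 3 × Fin 3 // p.1 ≠ p.2}

/-- The elementary matrix `1 + r e_{ij}`. -/
def el {R : Type} [CommRing R] (a : Root) (r : R) : SL3 R :=
  ⟨transvection a.1.1 a.1.2 r, det_transvection_of_ne _ _ a.2 r⟩

/-- The twelve generators: `E_{ij}(+1)` (`b = true`) and `E_{ij}(-1)` (`b = false`). -/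
abbrev Gen := Root × Bool

/-- The value of a generator in `SL₃(R)`. -/
def gen (R : Type) [CommRing R] (s : Gen) : SL3 R := el s.1 (if s.2 then 1 else -1)

/-- The inverse generator. -/
def Gen.inv (s : Gen) : Gen := (s.1, !s.2)

lemma el_coe {R : Type} [CommRing R] (a : Root) (r : R) :
    (el a r : Matrix (Fin 3) (Fin 3) R) = transvection a.1.1 a.1.2 r := rfl

lemma el_add {R : Type} [CommRing R] (a : Root) (r t : R) : el a (r + t) = el a r * el a t := by
  apply Matrix.SpecialLinearGroup.ext
  intro i j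
  rw [Matrix.SpecialLinearGroup.coe_mul, el_coe, el_coe, el_coe,
    transvection_mul_transvection_same _ _ a.2]

lemma el_zero {R : Type} [CommRing R] (a : Root) : el a (0 : R) = 1 := by
  apply Matrix.SpecialLinearGroup.ext
  intro i j
  rw [el_coe, Matrix.SpecialLinearGroup.coe_one, transvection_zero]

lemma el_neg {R : Type} [CommRing R] (a : Root) (r : R) : el a (-r) = (el a r)⁻¹ := by
  rw [eq_inv_iff_mul_eq_one, ← el_add]
  simp [el_zero]

lemma gen_inv_mul {R : Type} [CommRing R] (s : Gen) : gen R s.inv * gen R s = 1 := by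
  obtain ⟨a, b⟩ := s
  cases b <;> simp [gen, Gen.inv, ← el_add, el_zero]

lemma gen_mul_inv {R : Type} [CommRing R] (s : Gen) : gen R s * gen R s.inv = 1 := by
  obtain ⟨a, b⟩ := s
  cases b <;> simp [gen, Gen.inv, ← el_add, el_zero]

lemma Gen.inv_inv (s : Gen) : s.inv.inv = s := by
  obtain ⟨a, b⟩ := s
  simp [Gen.inv]

end Vale.Agent.Lib.P090
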