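import Vale.Agent.Lib.P090.KRel
import Vale.Agent.Lib.P090.SL3

/-!
# The shear relations in `SL₃` (module K of P090).
-/

namespace Vale.Agent.Lib.P090.KF

open Matrix Finset

open Vale.Agent.Lib.P090

set_option linter.unusedSectionVars false
set_option linter.unusedSimpArgs false

noncomputable section

section relations

variable {R : Type} [CommRing R]

lemma tv_key1 (i j k : Fin 3) (hij : i ≠ j) (hik : i ≠ k) (hjk : j ≠ k) (t u1 u2 : R) :
    transvection i j t * (transvection i k u1 * transvection j k u2)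
      = (transvection i k (u1 + t * u2) * transvection j k u2) * transvection i j t := by
  have h1 : ∀ (a b : R), Matrix.single i j a * Matrix.single i k b = (0 : Matrix (Fin 3) (Fin 3) R) :=
    fun a b => Matrix.single_mul_single_of_ne _ _ _ _ (Ne.symm hij) _
  have h2 : ∀ (a b : R), Matrix.single i j a * Matrix.single j k b = Matrix.single i k (a * b) :=
    fun a b => Matrix.single_mul_single_same _ _ _ _ _
  have h3 : ∀ (a b : R), Matrix.single i k a * Matrix.single j k b = (0 : Matrix (Fin 3) (Fin 3) R) :=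
    fun a b => Matrix.single_mul_single_of_ne _ _ _ _ (Ne.symm hjk) _
  have h4 : ∀ (a b : R), Matrix.single i k a * Matrix.single i j b = (0 : Matrix (Fin 3) (Fin 3) R) :=
    fun a b => Matrix.single_mul_single_of_ne _ _ _ _ (Ne.symm hik) _
  have h5 : ∀ (a b : R), Matrix.single j k a * Matrix.single i j b = (0 : Matrix (Fin 3) (Fin 3) R) :=
    fun a b => Matrix.single_mul_single_of_ne _ _ _ _ (Ne.symm hik) _
  simp only [transvection, add_mul, mul_add, one_mul, mul_one, h1, h2, h3, h4, h5, add_zero, zero_add,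
    Matrix.single_add, mul_zero, zero_mul]
  abel

lemma tv_key2 (i j k : Fin 3) (hij : i ≠ j) (hik : i ≠ k) (hjk : j ≠ k) (t u1 u2 : R) :
    transvection j i t * (transvection i k u1 * transvection j k u2)
      = (transvection i k u1 * transvection j k (u2 + t * u1)) * transvection j i t := by
  have h1 : ∀ (a b : R), Matrix.single j i a * Matrix.single i k b = Matrix.single j k (a * b) :=
    fun a b => Matrix.single_mul_single_same _ _ _ _ _
  have h2 : ∀ (a b : R), Matrix.single j i a * Matrix.single j k b = (0 : Matrix (Fin 3) (Fin 3) R) :=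
    fun a b => Matrix.single_mul_single_of_ne _ _ _ _ hij _
  have h3 : ∀ (a b : R), Matrix.single i k a * Matrix.single j k b = (0 : Matrix (Fin 3) (Fin 3) R) :=
    fun a b => Matrix.single_mul_single_of_ne _ _ _ _ (Ne.symm hjk) _
  have h4 : ∀ (a b : R), Matrix.single i k a * Matrix.single j i b = (0 : Matrix (Fin 3) (Fin 3) R) :=
    fun a b => Matrix.single_mul_single_of_ne _ _ _ _ (Ne.symm hjk) _
  have h5 : ∀ (a b : R), Matrix.single j k a * Matrix.single j i b = (0 : Matrix (Fin 3) (Fin 3) R) :=
    fun a b => Matrix.single_mul_single_of_ne _ _ _ _ (Ne.symm hjk) _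
  simp only [transvection, add_mul, mul_add, one_mul, mul_one, h1, h2, h3, h4, h5, add_zero, zero_add,
    Matrix.single_add, mul_zero, zero_mul]
  abel

lemma tv_comm (i j k : Fin 3) (hik : i ≠ k) (hjk : j ≠ k) (u1 u2 : R) :
    transvection i k u1 * transvection j k u2 = transvection j k u2 * transvection i k u1 := by
  have h3 : ∀ (a b : R), Matrix.single i k a * Matrix.single j k b = (0 : Matrix (Fin 3) (Fin 3) R) :=
    fun a b => Matrix.single_mul_single_of_ne _ _ _ _ (Ne.symm hjk) _
  have h4 : ∀ (a b : R), Matrix.single j k a * Matrix.single i k b = (0 : Matrix (Fin 3) (Fin 3) R) :=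
    fun a b => Matrix.single_mul_single_of_ne _ _ _ _ (Ne.symm hik) _
  simp only [transvection, add_mul, mul_add, one_mul, mul_one, h3, h4, add_zero]
  abel

end relations

section conf

variable {N : ℕ} [NeZero N] {GG : Type} [Group GG] [Fintype GG]

/-- The squared gradient of `f` along the twelve generators. -/
def E2 (φ : SL3 (ZMod N) →* GG) (f : GG → ℂ) : ℝ :=
  ∑ s : Gen, N2 (fun x => Lt (φ (gen (ZMod N) s)) f x - f x)

lemma E2_nonneg (φ : SL3 (ZMod N) →* GG) (f : GG → ℂ) : 0 ≤ E2 φ f :=
  Finset.sum_nonneg fun _ _ => N2_nonneg _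

lemma gen_le_E2 (φ : SL3 (ZMod N) →* GG) (f : GG → ℂ) (s : Gen) :
    N2 (fun x => Lt (φ (gen (ZMod N) s)) f x - f x) ≤ E2 φ f :=
  Finset.single_le_sum (f := fun s : Gen => N2 (fun x => Lt (φ (gen (ZMod N) s)) f x - f x))
    (fun _ _ => N2_nonneg _) (Finset.mem_univ s)

/-- For every root and every parameter, translations by the elementary element are controlled. -/
theorem root_bound (φ : SL3 (ZMod N) →* GG) (f : GG → ℂ) (a : Root) (t : ZMod N) :
    N2 (fun x => Lt (φ (el a t)) f x - f x)
      ≤ 4 * (40 * E2 φ f + 20 * √(E2 φ f) * √(N2 f)) := by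
  obtain ⟨⟨i, k⟩, hik⟩ := a
  simp only at hik
  obtain ⟨j, hji, hjk⟩ : ∃ j : Fin 3, j ≠ i ∧ j ≠ k := by
    revert i k; decide
  have hij : i ≠ j := Ne.symm hji
  let rik : Root := ⟨(i, k), hik⟩
  let rjk : Root := ⟨(j, k), hjk⟩
  let rij : Root := ⟨(i, j), hij⟩
  let rji : Root := ⟨(j, i), hji⟩
  let h : ZMod N × ZMod N → GG := fun u => φ (el rik u.1 * el rjk u.2)
  have hcomm : ∀ u1 u2 : ZMod N, el rik u1 * el rjk u2 = el rjk u2 * el rik u1 := by
    intro u1 u2
    apply Matrix.SpecialLinearGroup.ext
    intro x y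
    rw [Matrix.SpecialLinearGroup.coe_mul, Matrix.SpecialLinearGroup.coe_mul, el_coe, el_coe,
      tv_comm i j k hik hjk]
  have key1 : ∀ (t u1 u2 : ZMod N), el rij t * (el rik u1 * el rjk u2)
      = (el rik (u1 + t * u2) * el rjk u2) * el rij t := by
    intro t u1 u2
    apply Matrix.SpecialLinearGroup.ext
    intro x y
    simp only [Matrix.SpecialLinearGroup.coe_mul, el_coe]
    rw [tv_key1 i j k hij hik hjk]
  have key2 : ∀ (t u1 u2 : ZMod N), el rji t * (el rik u1 * el rjk u2)
      = (el rik u1 * el rjk (u2 + t * u1)) * el rji t := by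
    intro t u1 u2
    apply Matrix.SpecialLinearGroup.ext
    intro x y
    simp only [Matrix.SpecialLinearGroup.coe_mul, el_coe]
    rw [tv_key2 i j k hij hik hjk]
  have hc : ShearConf h (φ (el rij 1)) (φ (el rij (-1))) (φ (el rji 1)) (φ (el rji (-1))) := by
    refine ⟨?_, ?_, ?_, ?_, ?_⟩
    · intro u v
      simp only [h, ← map_mul, Prod.fst_add, Prod.snd_add]
      congr 1
      rw [add_comm u.1, add_comm u.2, el_add, el_add]
      calc el rik v.1 * el rjk v.2 * (el rik u.1 * el rjk u.2)
          = el rik v.1 * (el rjk v.2 * el rik u.1) * el rjk u.2 := by group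
        _ = el rik v.1 * (el rik u.1 * el rjk v.2) * el rjk u.2 := by rw [hcomm]
        _ = _ := by group
    · intro u
      simp only [h, ← map_mul]
      congr 1
      have := key1 1 u.1 u.2
      simpa using this
    · intro u
      simp only [h, ← map_mul]
      congr 1
      have := key1 (-1) u.1 u.2
      simpa [sub_eq_add_neg] using this
    · intro u
      simp only [h, ← map_mul]
      congr 1
      have := key2 1 u.1 u.2
      simpa using this
    · intro u
      simp only [h, ← map_mul]
      congr 1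
      have := key2 (-1) u.1 u.2
      simpa [sub_eq_add_neg] using this
  have hE := E2_nonneg φ f
  have hsq : √(E2 φ f) ^ 2 = E2 φ f := Real.sq_sqrt hE
  have hg : ∀ (r : Root) (b : Bool), N2 (fun x => Lt (φ (el r (if b then 1 else -1))) f x - f x)
      ≤ √(E2 φ f) ^ 2 := by
    intro r b
    rw [hsq]
    exact gen_le_E2 φ f (r, b)
  have h10 : N2 (fun x => Lt (h (1, 0)) f x - f x) ≤ √(E2 φ f) ^ 2 := by
    have := hg rik true
    simpa [h, el_zero] using this
  have h01 : N2 (fun x => Lt (h (0, 1)) f x - f x) ≤ √(E2 φ f) ^ 2 := by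
    have := hg rjk true
    simpa [h, el_zero] using this
  have hT1 := hg rij true
  have hTm := hg rij false
  have hU1 := hg rji true
  have hUm := hg rji false
  simp only [if_true, Bool.false_eq_true, if_false] at hT1 hTm hU1 hUm
  have := rel_T h _ _ _ _ hc f (√(E2 φ f)) (Real.sqrt_nonneg _) h10 h01 hT1 hTm hU1 hUm (t, 0)
  rw [hsq] at this
  simpa [h, el_zero] using this

end conf

end

end Vale.Agent.Lib.P090.KF
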