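import Vale.Agent.Lib.P090.KGen

/-!
# The uniform `ℓ¹` Poincaré inequality for `SL₃(ℤ/pqr)` (module K of P090).

We prove that the groups `SL₃(𝔽_p) × SL₃(𝔽_q) × SL₃(𝔽_r)` with the twelve diagonal elementary
generators satisfy a uniform `ℓ¹` Poincaré inequality, following Burger and Shalom: relative
property (T) for the shear action on `(ℤ/N)²`, bounded generation, and the Mazur map.
-/

namespace Vale.Agent.Lib.P090

open Matrix Finset KF

set_option linter.unusedSectionVars false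
set_option linter.unusedSimpArgs false

noncomputable section

namespace KF

section mazur

/-- The odd square root. -/
def oddRoot (a : ℝ) : ℝ := if 0 ≤ a then √a else -√(-a)

lemma oddRoot_mul_abs (a : ℝ) : oddRoot a * |oddRoot a| = a := by
  unfold oddRoot
  split_ifs with h
  · rw [abs_of_nonneg (Real.sqrt_nonneg _), Real.mul_self_sqrt h]
  · have h' : 0 ≤ -a := by linarith
    rw [abs_neg, abs_of_nonneg (Real.sqrt_nonneg _), neg_mul, Real.mul_self_sqrt h']
    ring

lemma sq_eq_abs_of (x a : ℝ) (h : x * |x| = a) : x ^ 2 = |a| := by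
  rw [← h, abs_mul, abs_abs, ← sq, sq_abs]

lemma mazur_diff (x y : ℝ) : (x - y) ^ 2 ≤ 2 * abs (x * |x| - y * |y|) := by
  rcases le_total 0 x with hx | hx <;> rcases le_total 0 y with hy | hy
  · rw [abs_of_nonneg hx, abs_of_nonneg hy]
    have h := le_abs_self (x * x - y * y)
    have h2 := neg_abs_le (x * x - y * y)
    rcases le_total x y with hxy | hxy <;> nlinarith
  · rw [abs_of_nonneg hx, abs_of_nonpos hy]
    have h := le_abs_self (x * x - y * -y)
    nlinarith [sq_nonneg (x + y)]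
  · rw [abs_of_nonpos hx, abs_of_nonneg hy]
    have h := neg_abs_le (x * -x - y * y)
    nlinarith [sq_nonneg (x + y)]
  · rw [abs_of_nonpos hx, abs_of_nonpos hy]
    have h := le_abs_self (x * -x - y * -y)
    have h2 := neg_abs_le (x * -x - y * -y)
    rcases le_total x y with hxy | hxy <;> nlinarith

lemma mazur_lip (x y : ℝ) : abs (x * |x| - y * |y|) ≤ |x - y| * (|x| + |y|) := by
  have key : x * |x| - y * |y| = (x - y) * |x| + y * (|x| - |y|) := by ring
  rw [key]
  refine (abs_add_le _ _).trans ?_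
  rw [abs_mul, abs_mul, abs_of_nonneg (abs_nonneg x)]
  have h := abs_abs_sub_abs_le_abs_sub x y
  have h2 : |y| * abs (|x| - |y|) ≤ |y| * |x - y| := mul_le_mul_of_nonneg_left h (abs_nonneg y)
  nlinarith

variable {GG : Type} [Group GG] [Fintype GG] {ι : Type} [Fintype ι]

theorem l1_of_l2 (γ : ι → GG) (K0 : ℝ) (hK0 : 0 ≤ K0)
    (hP : ∀ f : GG → ℂ, ∑ g, f g = 0 → N2 f ≤ K0 * ∑ s, N2 (fun x => Lt (γ s) f x - f x))
    (u : GG → ℝ) :
    ∑ g, |u g - (∑ g', u g') / Fintype.card GG|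
      ≤ 4 * √(2 * K0) * √((∑ s, ∑ g, |u (γ s * g) - u g|) * ∑ g, |u g|) := by
  classical
  have hcard : (0 : ℝ) < Fintype.card GG := by exact_mod_cast Fintype.card_pos
  set f : GG → ℝ := fun g => oddRoot (u g) with hf
  have hfu : ∀ g, f g * |f g| = u g := fun g => oddRoot_mul_abs (u g)
  set a : ℝ := (∑ g, f g) / Fintype.card GG with ha
  set Γ : ℝ := ∑ s, ∑ g, |u (γ s * g) - u g| with hΓ
  set A : ℝ := ∑ g, |u g| with hA
  have hΓ0 : 0 ≤ Γ := Finset.sum_nonneg fun _ _ => Finset.sum_nonneg fun _ _ => abs_nonneg _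
  have hA0 : 0 ≤ A := Finset.sum_nonneg fun _ _ => abs_nonneg _
  -- the variance bound
  have hvar : ∑ g, (f g - a) ^ 2 ≤ K0 * (2 * Γ) := by
    set f0 : GG → ℂ := fun g => ((f g - a : ℝ) : ℂ) with hf0
    have hsum : ∑ g, f0 g = 0 := by
      simp only [hf0]
      rw [← Complex.ofReal_sum, Finset.sum_sub_distrib]
      have : ∑ _g : GG, a = (Fintype.card GG : ℝ) * a := by
        simp [Finset.card_univ]
      rw [this, ha]
      field_simp
      simp
    have h1 := hP f0 hsum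
    have hn : ∀ x : ℝ, ‖(x : ℂ)‖ ^ 2 = x ^ 2 := fun x => by
      rw [Complex.norm_real, Real.norm_eq_abs, sq_abs]
    have h2 : N2 f0 = ∑ g, (f g - a) ^ 2 := by
      simp only [N2, hf0, hn]
    have h3 : ∀ s, N2 (fun x => Lt (γ s) f0 x - f0 x) ≤ 2 * ∑ g, |u (γ s * g) - u g| := by
      intro s
      rw [Finset.mul_sum]
      refine Finset.sum_le_sum fun g _ => ?_
      have e : Lt (γ s) f0 g - f0 g = ((f (γ s * g) - f g : ℝ) : ℂ) := by
        simp only [Lt, hf0]
        push_cast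
        ring
      show ‖Lt (γ s) f0 g - f0 g‖ ^ 2 ≤ _
      rw [e, hn]
      have := mazur_diff (f (γ s * g)) (f g)
      rwa [hfu, hfu] at this
    have h4 : ∑ s, N2 (fun x => Lt (γ s) f0 x - f0 x) ≤ 2 * Γ := by
      rw [hΓ, Finset.mul_sum]
      exact Finset.sum_le_sum fun s _ => h3 s
    rw [← h2]
    exact h1.trans (mul_le_mul_of_nonneg_left h4 hK0)
  -- the center
  set c : ℝ := a * |a| with hc
  have hfsq : ∑ g, f g ^ 2 = A := by
    refine Finset.sum_congr rfl fun g _ => ?_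
    exact sq_eq_abs_of _ _ (hfu g)
  have ha2 : (Fintype.card GG : ℝ) * a ^ 2 ≤ A := by
    have h1 := sq_sum_le_card_mul_sum_sq (s := (univ : Finset GG)) (f := f)
    have h2 : (Fintype.card GG : ℝ) * a = ∑ g, f g := by
      rw [ha]; field_simp
    have h3 : (Fintype.card GG : ℝ) * ((Fintype.card GG : ℝ) * a ^ 2) ≤
        (Fintype.card GG : ℝ) * A := by
      calc (Fintype.card GG : ℝ) * ((Fintype.card GG : ℝ) * a ^ 2)
          = ((Fintype.card GG : ℝ) * a) ^ 2 := by ring
        _ = (∑ g, f g) ^ 2 := by rw [h2]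
        _ ≤ _ := by
          rw [← hfsq]
          simpa [Finset.card_univ] using h1
    exact le_of_mul_le_mul_left h3 hcard
  have h_uc : ∑ g, |u g - c| ≤ √(K0 * (2 * Γ)) * (2 * √A) := by
    have h1 : ∑ g, |u g - c| ≤ ∑ g, |f g - a| * (|f g| + |a|) := by
      refine Finset.sum_le_sum fun g _ => ?_
      rw [← hfu g, hc]
      exact mazur_lip _ _
    refine h1.trans ?_
    refine (Real.sum_mul_le_sqrt_mul_sqrt _ _ _).trans ?_
    have h2 : ∑ g, |f g - a| ^ 2 = ∑ g, (f g - a) ^ 2 :=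
      Finset.sum_congr rfl fun g _ => sq_abs _
    have h3 : ∑ g, (|f g| + |a|) ^ 2 ≤ 4 * A := by
      have h4 : ∀ g, (|f g| + |a|) ^ 2 ≤ 2 * f g ^ 2 + 2 * a ^ 2 := by
        intro g
        have := sq_abs (f g)
        have := sq_abs a
        nlinarith [sq_nonneg (|f g| - |a|)]
      refine (Finset.sum_le_sum fun g _ => h4 g).trans ?_
      rw [Finset.sum_add_distrib, ← Finset.mul_sum, hfsq]
      have h5 : ∑ _g : GG, 2 * a ^ 2 = 2 * ((Fintype.card GG : ℝ) * a ^ 2) := by
        simp [Finset.card_univ]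
        ring
      rw [h5]
      linarith
    rw [h2]
    refine mul_le_mul (Real.sqrt_le_sqrt hvar) ?_ (Real.sqrt_nonneg _) (Real.sqrt_nonneg _)
    calc √(∑ g, (|f g| + |a|) ^ 2) ≤ √(2 ^ 2 * A) := by
          apply Real.sqrt_le_sqrt
          linarith
      _ = 2 * √A := by
          rw [Real.sqrt_mul (by positivity), Real.sqrt_sq (by norm_num)]
  set ubar : ℝ := (∑ g', u g') / Fintype.card GG with hubar
  have h_center : (Fintype.card GG : ℝ) * |c - ubar| ≤ ∑ g, |u g - c| := by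
    have h1 : (Fintype.card GG : ℝ) * (c - ubar) = - ∑ g, (u g - c) := by
      rw [Finset.sum_sub_distrib]
      have : ∑ _g : GG, c = (Fintype.card GG : ℝ) * c := by
        simp [Finset.card_univ]
      rw [this, hubar]
      field_simp
      ring
    have h2 : (Fintype.card GG : ℝ) * |c - ubar| = |(Fintype.card GG : ℝ) * (c - ubar)| := by
      rw [abs_mul, abs_of_pos hcard]
    rw [h2, h1, abs_neg]
    exact Finset.abs_sum_le_sum_abs _ _
  have h_main : ∑ g, |u g - ubar| ≤ 2 * ∑ g, |u g - c| := by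
    have h1 : ∑ g, |u g - ubar| ≤ ∑ g, (|u g - c| + |c - ubar|) := by
      refine Finset.sum_le_sum fun g _ => ?_
      have : u g - ubar = (u g - c) + (c - ubar) := by ring
      rw [this]
      exact abs_add_le _ _
    rw [Finset.sum_add_distrib] at h1
    have h2 : ∑ _g : GG, |c - ubar| = (Fintype.card GG : ℝ) * |c - ubar| := by
      simp [Finset.card_univ]
    rw [h2] at h1
    linarith
  refine h_main.trans ?_
  have e1 : √(K0 * (2 * Γ)) = √(2 * K0) * √Γ := by
    rw [← Real.sqrt_mul (by positivity)]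
    congr 1
    ring
  have e2 : √(Γ * A) = √Γ * √A := Real.sqrt_mul hΓ0 A
  rw [e2]
  rw [e1] at h_uc
  calc 2 * ∑ g, |u g - c| ≤ 2 * (√(2 * K0) * √Γ * (2 * √A)) := by linarith
    _ = _ := by ring

end mazur

section triple

lemma map_el {R S : Type} [CommRing R] [CommRing S] (ρ : R →+* S) (a : Root) (c : R) :
    SpecialLinearGroup.map ρ (el a c) = el a (ρ c) := by
  apply Matrix.SpecialLinearGroup.ext
  intro x y
  simp only [SpecialLinearGroup.map_apply_coe, RingHom.mapMatrix_apply, Matrix.map_apply, el_coe]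
  obtain ⟨⟨i, j⟩, h⟩ := a
  simp only [transvection, Matrix.add_apply, Matrix.one_apply, Matrix.single_apply, map_add]
  split_ifs <;> simp

lemma map_gen {R S : Type} [CommRing R] [CommRing S] (ρ : R →+* S) (s : Gen) :
    SpecialLinearGroup.map ρ (gen R s) = gen S s := by
  obtain ⟨a, b⟩ := s
  cases b <;> simp [gen, map_el]

lemma map_prodPat {R S : Type} [CommRing R] [CommRing S] (ρ : R →+* S) (t : Fin 11 → R) :
    SpecialLinearGroup.map ρ (prodPat t) = prodPat (fun i => ρ (t i)) := by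
  simp only [prodPat, map_mul, map_el]

lemma crt_triple (p q r : ℕ) [Fact p.Prime] [Fact q.Prime] [Fact r.Prime] (hpq : p ≠ q) (hpr : p ≠ r)
    (hqr : q ≠ r) (hN : NeZero (p * q * r)) (x : ZMod p) (y : ZMod q) (z : ZMod r) :
    ∃ t : ZMod (p * q * r),
      ZMod.castHom (Dvd.intro_left (q * r) (by ring : q * r * p = p * q * r)) (ZMod p) t = x ∧
      ZMod.castHom (Dvd.intro_left (p * r) (by ring : p * r * q = p * q * r)) (ZMod q) t = y ∧
      ZMod.castHom (Dvd.intro_left (p * q) (by ring : p * q * r = p * q * r)) (ZMod r) t = z := by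
  have hp := (Fact.out : p.Prime)
  have hq := (Fact.out : q.Prime)
  have hr := (Fact.out : r.Prime)
  have c1 : p.Coprime q := (Nat.coprime_primes hp hq).mpr hpq
  have c2 : (p * q).Coprime r :=
    Nat.Coprime.mul_left ((Nat.coprime_primes hp hr).mpr hpr) ((Nat.coprime_primes hq hr).mpr hqr)
  obtain ⟨k, hk1, hk2⟩ := Nat.chineseRemainder c1 x.val y.val
  obtain ⟨l, hl1, hl2⟩ := Nat.chineseRemainder c2 k z.val
  refine ⟨(l : ZMod (p * q * r)), ?_, ?_, ?_⟩
  · rw [map_natCast, ← ZMod.natCast_zmod_val x]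
    rw [ZMod.natCast_eq_natCast_iff]
    exact (Nat.ModEq.of_mul_right q hl1).trans hk1
  · rw [map_natCast, ← ZMod.natCast_zmod_val y]
    rw [ZMod.natCast_eq_natCast_iff]
    exact (Nat.ModEq.of_mul_left p hl1).trans hk2
  · rw [map_natCast, ← ZMod.natCast_zmod_val z]
    rw [ZMod.natCast_eq_natCast_iff]
    exact hl2

end triple

end KF

/-- The constant of the Poincaré inequality. -/
def kazhdanK : ℝ := 4 * √(2 * (KF.K1 ^ 2))

/-- **Uniform `ℓ¹` Poincaré inequality** for `SL₃(𝔽_p) × SL₃(𝔽_q) × SL₃(𝔽_r)`. -/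
theorem kazhdan_l1 : ∃ K : ℝ, 0 ≤ K ∧ ∀ (p q r : ℕ) [Fact p.Prime] [Fact q.Prime] [Fact r.Prime],
    p ≠ q → p ≠ r → q ≠ r →
    ∀ u : SL3 (ZMod p) × SL3 (ZMod q) × SL3 (ZMod r) → ℝ,
      ∑ g, |u g - (∑ g', u g') / Fintype.card (SL3 (ZMod p) × SL3 (ZMod q) × SL3 (ZMod r))| ≤
        K * √((∑ s : Gen, ∑ g, |u ((gen (ZMod p) s, gen (ZMod q) s, gen (ZMod r) s) * g) - u g|) *
          ∑ g, |u g|) := by
  refine ⟨kazhdanK, by unfold kazhdanK; positivity, ?_⟩
  intro p q r _ _ _ hpq hpr hqr u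
  have hp := (Fact.out : p.Prime)
  have hq := (Fact.out : q.Prime)
  have hr := (Fact.out : r.Prime)
  have hN : NeZero (p * q * r) :=
    ⟨Nat.mul_ne_zero (Nat.mul_ne_zero hp.ne_zero hq.ne_zero) hr.ne_zero⟩
  let ρp := ZMod.castHom (Dvd.intro_left (q * r) (by ring : q * r * p = p * q * r)) (ZMod p)
  let ρq := ZMod.castHom (Dvd.intro_left (p * r) (by ring : p * r * q = p * q * r)) (ZMod q)
  let ρr := ZMod.castHom (Dvd.intro_left (p * q) (by ring : p * q * r = p * q * r)) (ZMod r)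
  let φ : SL3 (ZMod (p * q * r)) →* SL3 (ZMod p) × SL3 (ZMod q) × SL3 (ZMod r) :=
    MonoidHom.prod (SpecialLinearGroup.map ρp)
      (MonoidHom.prod (SpecialLinearGroup.map ρq) (SpecialLinearGroup.map ρr))
  have hφgen : ∀ s : Gen, φ (gen (ZMod (p * q * r)) s) = (gen (ZMod p) s, gen (ZMod q) s, gen (ZMod r) s) := by
    intro s
    simp only [φ, MonoidHom.prod_apply, KF.map_gen]
  have hgen : ∀ g : SL3 (ZMod p) × SL3 (ZMod q) × SL3 (ZMod r),
      ∃ t : Fin 11 → ZMod (p * q * r), g = φ (KF.prodPat t) := by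
    rintro ⟨g1, g2, g3⟩
    obtain ⟨t1, rfl⟩ := KF.exists_pat g1
    obtain ⟨t2, rfl⟩ := KF.exists_pat g2
    obtain ⟨t3, rfl⟩ := KF.exists_pat g3
    have := fun i => KF.crt_triple p q r hpq hpr hqr hN (t1 i) (t2 i) (t3 i)
    choose t h1 h2 h3 using this
    refine ⟨t, ?_⟩
    simp only [φ, MonoidHom.prod_apply, KF.map_prodPat]
    have e1 : (fun i => ρp (t i)) = t1 := funext h1
    have e2 : (fun i => ρq (t i)) = t2 := funext h2
    have e3 : (fun i => ρr (t i)) = t3 := funext h3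
    rw [e1, e2, e3]
  have hP : ∀ f : SL3 (ZMod p) × SL3 (ZMod q) × SL3 (ZMod r) → ℂ, ∑ g, f g = 0 →
      KF.N2 f ≤ KF.K1 ^ 2 * ∑ s : Gen,
        KF.N2 (fun x => KF.Lt (gen (ZMod p) s, gen (ZMod q) s, gen (ZMod r) s) f x - f x) := by
    intro f hf
    have := KF.poincare_of_hom φ hgen f hf
    simp only [KF.E2, hφgen] at this
    exact this
  have := KF.l1_of_l2 (fun s : Gen => (gen (ZMod p) s, gen (ZMod q) s, gen (ZMod r) s))
    (KF.K1 ^ 2) (by positivity) hP u
  exact this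

end

end Vale.Agent.Lib.P090
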