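import Vale.Agent.Lib.P090.Piece

/-!
# Labels of points over a ball of `V`, and the bump functions.
-/

namespace Vale.Agent.Lib.P090

open Finset

namespace Setup

variable {L V Y : Type} (S : Setup L V Y)

/-- The outer radius `R₀ = 2ρ + 6ρ²`. -/
def R0 : ℕ := 2 * S.rho + 6 * S.rho ^ 2

lemma R0_add_lt_T : S.R0 + 2 * S.rho + 1 < S.T := by
  have := S.hT
  unfold R0
  omega

lemma hLen' : 2 * (S.R0 + 1) + 2 * S.rho ≤ S.Len := S.hLen

open Classical in
/-- The label of `z` seen from `v`: transport of the fibre coordinate along a short word. -/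
noncomputable def lab (v : V) (z : V × Y) : Y :=
  if h : ∃ u : List L, u.length ≤ S.R0 + 1 ∧ evalW S.aV u z.1 = v then
    evalW S.aY (Classical.choose h) z.2 else z.2

lemma aY_inv' (l : L) (y : Y) : S.aY l (S.aY (S.inv l) y) = y := by
  have := S.aY_inv (S.inv l) y
  rwa [S.inv_inv] at this

lemma aV_inv' (l : L) (v : V) : S.aV l (S.aV (S.inv l) v) = v := by
  have := S.aV_inv (S.inv l) v
  rwa [S.inv_inv] at this

/-- Any not too long word from the base of `z` to `v` computes the label. -/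
lemma lab_spec {v : V} {z : V × Y} (hs : ∃ u : List L, u.length ≤ S.R0 + 1 ∧ evalW S.aV u z.1 = v)
    (u : List L) (hlen : u.length + (S.R0 + 1) ≤ S.Len) (hu : evalW S.aV u z.1 = v) :
    S.lab v z = evalW S.aY u z.2 := by
  classical
  unfold lab
  rw [dif_pos hs]
  obtain ⟨h1, h2⟩ := Classical.choose_spec hs
  set u₀ := Classical.choose hs
  have hclosed : evalW S.aV (invW S.inv u₀ ++ u) z.1 = z.1 := by
    rw [evalW_append, hu, ← h2]
    exact evalW_invW_left S.aV S.aV_inv u₀ z.1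
  have hc := S.closure (invW S.inv u₀ ++ u) (by
    simp only [List.length_append, length_invW]
    omega) z.1 hclosed z.2
  rw [evalW_append] at hc
  have := evalW_invW_right (inv := S.inv) S.aY S.aY_inv' u₀ (evalW S.aY u z.2)
  rw [hc] at this
  exact this

lemma short_word {v : V} {z : V × Y} (h : S.DV z.1 v ≤ S.R0) :
    ∃ u : List L, u.length ≤ S.R0 ∧ evalW S.aV u z.1 = v := by
  have h2 := S.R0_add_lt_T
  obtain ⟨u, hu, he⟩ := exists_word_of_wd_lt (a := S.aV) (T := S.T) (x := z.1) (y := v)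
    (by unfold DV at h; omega)
  refine ⟨u, ?_, he⟩
  rw [hu]
  exact h

/-- The label is computed by a word of length at most `R₀`. -/
lemma lab_word {v : V} {z : V × Y} (h : S.DV z.1 v ≤ S.R0) :
    ∃ u : List L, u.length ≤ S.R0 ∧ S.lab v z = evalW S.aY u z.2 := by
  obtain ⟨u, hu, he⟩ := S.short_word h
  refine ⟨u, hu, S.lab_spec ⟨u, by omega, he⟩ u ?_ he⟩
  have := S.hLen'
  omega

/-- The label transforms under a letter. -/
lemma lab_letter (l : L) {v : V} {z : V × Y} (h : S.DV z.1 v ≤ S.R0) :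
    S.lab (S.aV l v) z = S.aY l (S.lab v z) := by
  obtain ⟨u, hu, he⟩ := S.short_word h
  have h1 : S.lab v z = evalW S.aY u z.2 := S.lab_spec ⟨u, by omega, he⟩ u
    (by have := S.hLen'; omega) he
  have he2 : evalW S.aV (l :: u) z.1 = S.aV l v := by simp [he]
  have h2 : S.lab (S.aV l v) z = evalW S.aY (l :: u) z.2 :=
    S.lab_spec ⟨l :: u, by simp; omega, he2⟩ (l :: u)
      (by have := S.hLen'; simp; omega) he2
  rw [h2, h1]
  rfl

/-- Points joined by a word shorter than `2ρ` over the ball have the same label. -/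
lemma lab_same {v : V} {x z : V × Y} (hx : S.DV x.1 v ≤ S.R0) (hz : S.DV z.1 v ≤ S.R0)
    (h : S.DZ x z < 2 * S.rho) : S.lab v x = S.lab v z := by
  have hT := S.R0_add_lt_T
  obtain ⟨t, ht, het⟩ := exists_word_of_wd_lt (a := S.aZ) (T := S.T) (x := x) (y := z)
    (by unfold DZ at h; unfold R0 at hT; omega)
  have ht' : t.length < 2 * S.rho := by rw [ht]; exact h
  have het1 : evalW S.aV t x.1 = z.1 := by
    have := evalW_map (a := S.aZ) (a' := S.aV) (π := Prod.fst) (fun _ _ => rfl) t x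
    rw [this, het]
  have het2 : evalW S.aY t x.2 = z.2 := by
    have := evalW_map (a := S.aZ) (a' := S.aY) (π := Prod.snd) (fun _ _ => rfl) t x
    rw [this, het]
  obtain ⟨u, hu, he⟩ := S.short_word hz
  have hLen := S.hLen'
  have h1 : S.lab v z = evalW S.aY u z.2 := S.lab_spec ⟨u, by omega, he⟩ u (by omega) he
  obtain ⟨u', hu', he'⟩ := S.short_word hx
  have he2 : evalW S.aV (u ++ t) x.1 = v := by rw [evalW_append, het1, he]
  have h2 : S.lab v x = evalW S.aY (u ++ t) x.2 := S.lab_spec ⟨u', by omega, he'⟩ (u ++ t)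
    (by simp only [List.length_append]; omega) he2
  rw [h1, h2, evalW_append, het2]

/-- The width `W = 6ρ²` of the bump functions. -/
noncomputable def W : ℝ := 6 * (S.rho : ℝ) ^ 2

lemma rho_real_pos : (1 : ℝ) ≤ S.rho := by exact_mod_cast S.rho_pos

lemma W_pos : 0 < S.W := by
  have := S.rho_real_pos
  unfold W
  positivity

lemma clip_lip (s t : ℝ) : |max 0 (min 1 s) - max 0 (min 1 t)| ≤ |s - t| := by
  have h1 := abs_max_sub_max_le_max (0 : ℝ) (min 1 s) 0 (min 1 t)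
  have h2 := abs_min_sub_min_le_max (1 : ℝ) s 1 t
  simp only [sub_self, abs_zero] at h1 h2
  rw [max_eq_right (abs_nonneg (min 1 s - min 1 t))] at h1
  rw [max_eq_right (abs_nonneg (s - t))] at h2
  exact h1.trans h2

/-- The bump function around `v`: it equals `1` on the ball of radius `2ρ` and vanishes outside the
ball of radius `R₀`. -/
noncomputable def g (v q : V) : ℝ := max 0 (min 1 (((S.R0 : ℝ) - S.DV q v) / S.W))

lemma g_nonneg (v q : V) : 0 ≤ S.g v q := le_max_left _ _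

lemma g_le_one (v q : V) : S.g v q ≤ 1 := max_le zero_le_one (min_le_left _ _)

lemma abs_g_le (v q : V) : |S.g v q| ≤ 1 := by
  rw [abs_of_nonneg (S.g_nonneg v q)]
  exact S.g_le_one v q

lemma g_eq_zero {v q : V} (h : S.R0 ≤ S.DV q v) : S.g v q = 0 := by
  unfold g
  apply max_eq_left
  apply (min_le_right _ _).trans
  apply div_nonpos_of_nonpos_of_nonneg _ S.W_pos.le
  have : ((S.R0 : ℕ) : ℝ) ≤ S.DV q v := by exact_mod_cast h
  linarith

lemma g_eq_one {v q : V} (h : S.DV q v ≤ 2 * S.rho) : S.g v q = 1 := by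
  unfold g
  have h1 : (1 : ℝ) ≤ ((S.R0 : ℝ) - S.DV q v) / S.W := by
    rw [le_div_iff₀ S.W_pos]
    have h2 : ((S.DV q v : ℕ) : ℝ) ≤ 2 * S.rho := by exact_mod_cast h
    have h3 : (S.R0 : ℝ) = 2 * S.rho + S.W := by
      unfold R0 W
      push_cast
      ring
    rw [h3]
    linarith
  rw [min_eq_left h1]
  exact max_eq_right zero_le_one

lemma g_lip_q (v q q' : V) : |S.g v q - S.g v q'| ≤ S.DV q q' / S.W := by
  refine (clip_lip _ _).trans ?_
  have h1 : ((S.R0 : ℝ) - S.DV q v) / S.W - ((S.R0 : ℝ) - S.DV q' v) / S.W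
      = ((S.DV q' v : ℝ) - S.DV q v) / S.W := by ring
  rw [h1, abs_div, abs_of_pos S.W_pos]
  apply div_le_div_of_nonneg_right _ S.W_pos.le
  have h2 : ((S.DV q v : ℕ) : ℝ) ≤ S.DV q q' + S.DV q' v := by exact_mod_cast S.DV_tri q q' v
  have h3 : ((S.DV q' v : ℕ) : ℝ) ≤ S.DV q' q + S.DV q v := by exact_mod_cast S.DV_tri q' q v
  have h4 : ((S.DV q' q : ℕ) : ℝ) = S.DV q q' := by rw [S.DV_comm]
  rw [abs_le]
  constructor <;> linarith

lemma g_lip_v (v v' q : V) : |S.g v q - S.g v' q| ≤ S.DV v v' / S.W := by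
  refine (clip_lip _ _).trans ?_
  have h1 : ((S.R0 : ℝ) - S.DV q v) / S.W - ((S.R0 : ℝ) - S.DV q v') / S.W
      = ((S.DV q v' : ℝ) - S.DV q v) / S.W := by ring
  rw [h1, abs_div, abs_of_pos S.W_pos]
  apply div_le_div_of_nonneg_right _ S.W_pos.le
  have h2 : ((S.DV q v : ℕ) : ℝ) ≤ S.DV q v' + S.DV v' v := by exact_mod_cast S.DV_tri q v' v
  have h3 : ((S.DV q v' : ℕ) : ℝ) ≤ S.DV q v + S.DV v v' := by exact_mod_cast S.DV_tri q v v'
  have h4 : ((S.DV v' v : ℕ) : ℝ) = S.DV v v' := by rw [S.DV_comm]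
  rw [abs_le]
  constructor <;> linarith

/-- A test function supported over `V × Y`: `ρ σ(label) G(base)`, zero on the hubs. -/
noncomputable def F1 (v : V) (σ : Y → ℝ) (G : V → ℝ) : S.Pt → ℝ
  | Sum.inl z => S.rho * σ (S.lab v z) * G z.1
  | Sum.inr _ => 0

lemma abs_F1_le {v : V} {σ : Y → ℝ} {G : V → ℝ} {γ : ℝ} (hσ : ∀ y, |σ y| ≤ 1)
    (hG1 : ∀ q, |G q| ≤ γ) (hγ : 0 ≤ γ) (w : S.Pt) : |S.F1 v σ G w| ≤ S.rho * γ := by
  rcases w with z | a
  · simp only [F1, abs_mul, Nat.abs_cast]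
    have h1 := hσ (S.lab v z)
    have h2 := hG1 z.1
    have hρ : (0 : ℝ) ≤ S.rho := Nat.cast_nonneg _
    calc (S.rho : ℝ) * |σ (S.lab v z)| * |G z.1| ≤ S.rho * 1 * γ := by gcongr
      _ = _ := by ring
  · simp only [F1, abs_zero]
    have hρ : (0 : ℝ) ≤ S.rho := Nat.cast_nonneg _
    positivity

/-- The Lipschitz estimate for the test functions over `V × Y`. -/
lemma F1_lip {v : V} {σ : Y → ℝ} {G : V → ℝ} {K K' γ : ℝ} (hσ : ∀ y, |σ y| ≤ 1)
    (hG0 : ∀ q, S.R0 < S.DV q v → G q = 0) (hG1 : ∀ q, |G q| ≤ γ)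
    (hG2 : ∀ q q', |G q - G q'| ≤ K' * S.DV q q') (hK : S.rho * K' ≤ K) (hγ : γ ≤ K)
    (hK' : 0 ≤ K') (x y : S.Pt) :
    |S.F1 v σ G x - S.F1 v σ G y| ≤ K * S.dP x y := by
  have hρ1 := S.rho_real_pos
  have hρ0 : (0 : ℝ) ≤ S.rho := by linarith
  have hγ0 : 0 ≤ γ := (abs_nonneg _).trans (hG1 v)
  have hK0 : 0 ≤ K := hγ0.trans hγ
  have hd : ∀ x y : S.Pt, (0 : ℝ) ≤ S.dP x y := fun _ _ => Nat.cast_nonneg _
  -- a common estimate when the two points have the same label or one value vanishes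
  have hmain : ∀ (x z : V × Y), |(S.rho : ℝ) * (G x.1 - G z.1)| ≤ K * S.dP (Sum.inl x) (Sum.inl z) := by
    intro x z
    rw [abs_mul, Nat.abs_cast]
    have h1 := hG2 x.1 z.1
    have h2 : ((S.DV x.1 z.1 : ℕ) : ℝ) ≤ S.dP (Sum.inl x) (Sum.inl z) := by
      exact_mod_cast S.DV_pi_le_dP (Sum.inl x) (Sum.inl z)
    calc (S.rho : ℝ) * |G x.1 - G z.1| ≤ S.rho * (K' * S.DV x.1 z.1) := by gcongr
      _ = S.rho * K' * S.DV x.1 z.1 := by ring
      _ ≤ K * S.DV x.1 z.1 := by gcongr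
      _ ≤ _ := by gcongr
  have hone : ∀ (t : ℝ) (x z : V × Y), |t| ≤ 1 → G z.1 = 0 →
      |(S.rho : ℝ) * t * G x.1| ≤ K * S.dP (Sum.inl x) (Sum.inl z) := by
    intro t x z ht hz
    have h7 := hmain x z
    rw [hz, sub_zero] at h7
    have h8 : (S.rho : ℝ) * t * G x.1 = t * (S.rho * G x.1) := by ring
    rw [h8, abs_mul]
    calc _ ≤ 1 * |(S.rho : ℝ) * G x.1| := by gcongr
      _ ≤ _ := by rw [one_mul]; exact h7
  rcases x with x | a <;> rcases y with z | b
  · simp only [F1]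
    by_cases hx : S.DV x.1 v ≤ S.R0
    · by_cases hz : S.DV z.1 v ≤ S.R0
      · by_cases hd2 : S.DZ x z < 2 * S.rho
        · rw [S.lab_same hx hz hd2]
          have h3 : (S.rho : ℝ) * σ (S.lab v z) * G x.1 - S.rho * σ (S.lab v z) * G z.1
              = σ (S.lab v z) * (S.rho * (G x.1 - G z.1)) := by ring
          rw [h3, abs_mul]
          calc _ ≤ 1 * |(S.rho : ℝ) * (G x.1 - G z.1)| := by
                gcongr; exact hσ _
            _ ≤ _ := by rw [one_mul]; exact hmain x z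
        · have h4 : 2 * S.rho ≤ S.dP (Sum.inl x) (Sum.inl z) := by
            simp only [dP]; omega
          have h4' : (2 : ℝ) * S.rho ≤ S.dP (Sum.inl x) (Sum.inl z) := by exact_mod_cast h4
          have h5 := S.abs_F1_le (v := v) hσ hG1 hγ0 (Sum.inl x)
          have h6 := S.abs_F1_le (v := v) hσ hG1 hγ0 (Sum.inl z)
          simp only [F1] at h5 h6
          calc _ ≤ |(S.rho : ℝ) * σ (S.lab v x) * G x.1| + |(S.rho : ℝ) * σ (S.lab v z) * G z.1| :=
                abs_sub _ _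
            _ ≤ S.rho * γ + S.rho * γ := add_le_add h5 h6
            _ = γ * (2 * S.rho) := by ring
            _ ≤ K * S.dP (Sum.inl x) (Sum.inl z) := by gcongr
      · have hz0 : G z.1 = 0 := hG0 _ (by omega)
        rw [hz0, mul_zero, sub_zero]
        exact hone _ x z (hσ _) hz0
    · have hx0 : G x.1 = 0 := hG0 _ (by omega)
      rw [hx0, mul_zero, zero_sub, abs_neg, S.dP_comm]
      exact hone _ z x (hσ _) hx0
  · simp only [F1, sub_zero]
    have h5 := S.abs_F1_le (v := v) hσ hG1 hγ0 (Sum.inl x)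
    simp only [F1] at h5
    have h4 : S.rho ≤ S.dP (Sum.inl x) (Sum.inr b) := by simp only [dP]; omega
    have h4' : (S.rho : ℝ) ≤ S.dP (Sum.inl x) (Sum.inr b) := by exact_mod_cast h4
    calc _ ≤ (S.rho : ℝ) * γ := h5
      _ = γ * S.rho := by ring
      _ ≤ _ := by gcongr
  · simp only [F1, zero_sub, abs_neg]
    have h5 := S.abs_F1_le (v := v) hσ hG1 hγ0 (Sum.inl z)
    simp only [F1] at h5
    have h4 : S.rho ≤ S.dP (Sum.inr a) (Sum.inl z) := by simp only [dP]; omega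
    have h4' : (S.rho : ℝ) ≤ S.dP (Sum.inr a) (Sum.inl z) := by exact_mod_cast h4
    calc _ ≤ (S.rho : ℝ) * γ := h5
      _ = γ * S.rho := by ring
      _ ≤ _ := by gcongr
  · simp only [F1, sub_self, abs_zero]
    exact mul_nonneg hK0 (hd _ _)

/-- A test function supported on the hubs: `ρ σ(a) G(a)`. -/
noncomputable def F2 (σ : V → ℝ) (G : V → ℝ) : S.Pt → ℝ
  | Sum.inl _ => 0
  | Sum.inr a => S.rho * σ a.1 * G a.1

lemma abs_F2_le {σ : V → ℝ} {G : V → ℝ} {γ : ℝ} (hσ : ∀ y, |σ y| ≤ 1)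
    (hG1 : ∀ q, |G q| ≤ γ) (hγ : 0 ≤ γ) (w : S.Pt) : |S.F2 σ G w| ≤ S.rho * γ := by
  rcases w with z | a
  · simp only [F2, abs_zero]
    have hρ : (0 : ℝ) ≤ S.rho := Nat.cast_nonneg _
    positivity
  · simp only [F2, abs_mul, Nat.abs_cast]
    have h1 := hσ a.1
    have h2 := hG1 a.1
    have hρ : (0 : ℝ) ≤ S.rho := Nat.cast_nonneg _
    calc (S.rho : ℝ) * |σ a.1| * |G a.1| ≤ S.rho * 1 * γ := by gcongr
      _ = _ := by ring

lemma F2_lip {σ : V → ℝ} {G : V → ℝ} {K γ : ℝ} (hσ : ∀ y, |σ y| ≤ 1)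
    (hG1 : ∀ q, |G q| ≤ γ) (hγ : γ ≤ K) (x y : S.Pt) :
    |S.F2 σ G x - S.F2 σ G y| ≤ K * S.dP x y := by
  have hγ0 : 0 ≤ γ := by
    by_cases hV : Nonempty V
    · exact (abs_nonneg _).trans (hG1 hV.some)
    · exfalso
      rcases x with x | a
      · exact hV ⟨x.1⟩
      · exact hV ⟨a.1⟩
  have hK0 : 0 ≤ K := hγ0.trans hγ
  have hρ0 : (0 : ℝ) ≤ S.rho := Nat.cast_nonneg _
  rcases x with x | a <;> rcases y with z | b
  · simp only [F2, sub_self, abs_zero]
    positivity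
  · simp only [F2, zero_sub, abs_neg]
    have h5 := S.abs_F2_le hσ hG1 hγ0 (Sum.inr b)
    simp only [F2] at h5
    have h4 : S.rho ≤ S.dP (Sum.inl x) (Sum.inr b) := by simp only [dP]; omega
    have h4' : (S.rho : ℝ) ≤ S.dP (Sum.inl x) (Sum.inr b) := by exact_mod_cast h4
    calc _ ≤ (S.rho : ℝ) * γ := h5
      _ = γ * S.rho := by ring
      _ ≤ _ := by gcongr
  · simp only [F2, sub_zero]
    have h5 := S.abs_F2_le hσ hG1 hγ0 (Sum.inr a)
    simp only [F2] at h5
    have h4 : S.rho ≤ S.dP (Sum.inr a) (Sum.inl z) := by simp only [dP]; omega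
    have h4' : (S.rho : ℝ) ≤ S.dP (Sum.inr a) (Sum.inl z) := by exact_mod_cast h4
    calc _ ≤ (S.rho : ℝ) * γ := h5
      _ = γ * S.rho := by ring
      _ ≤ _ := by gcongr
  · by_cases hab : a = b
    · subst hab
      simp only [sub_self, abs_zero]
      positivity
    · have hne : a.1 ≠ b.1 := fun h => hab (Subtype.ext h)
      have h4 := S.sep a.1 a.2 b.1 b.2 hne
      have h4' : (2 : ℝ) * S.rho ≤ S.dP (Sum.inr a) (Sum.inr b) := by
        simp only [dP]
        exact_mod_cast h4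
      have h5 := S.abs_F2_le hσ hG1 hγ0 (Sum.inr a)
      have h6 := S.abs_F2_le hσ hG1 hγ0 (Sum.inr b)
      calc _ ≤ |S.F2 σ G (Sum.inr a)| + |S.F2 σ G (Sum.inr b)| := abs_sub _ _
        _ ≤ S.rho * γ + S.rho * γ := add_le_add h5 h6
        _ = γ * (2 * S.rho) := by ring
        _ ≤ _ := by gcongr

/-- A test function depending on the base only. -/
noncomputable def F3 (G : V → ℝ) : S.Pt → ℝ := fun w => S.rho * G (S.pi w)

lemma F3_lip {G : V → ℝ} {K : ℝ} (hG : ∀ q q', |G q - G q'| ≤ K * S.DV q q') (hK : 0 ≤ K)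
    (x y : S.Pt) : |S.F3 G x - S.F3 G y| ≤ S.rho * K * S.dP x y := by
  have hρ0 : (0 : ℝ) ≤ S.rho := Nat.cast_nonneg _
  unfold F3
  rw [← mul_sub, abs_mul, Nat.abs_cast, mul_assoc]
  gcongr
  refine (hG _ _).trans ?_
  gcongr
  exact_mod_cast S.DV_pi_le_dP x y

end Setup

end Vale.Agent.Lib.P090
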