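import Vale.Agent.Lib.P090.WordMetric

/-!
# One piece of the metric space: the points over `V × Y` together with the hubs.
-/

namespace Vale.Agent.Lib.P090

open Finset

/-- The data of one piece. -/
structure Setup (L V Y : Type) where
  inv : L → L
  aV : L → V → V
  aY : L → Y → Y
  inv_inv : ∀ l, inv (inv l) = l
  aV_inv : ∀ l v, aV (inv l) (aV l v) = v
  aY_inv : ∀ l y, aY (inv l) (aY l y) = y
  rho : ℕ
  T : ℕ
  Len : ℕ
  rho_pos : 1 ≤ rho
  hT : 2 * rho + 6 * rho ^ 2 + 2 * rho + 2 ≤ T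
  hLen : 2 * (2 * rho + 6 * rho ^ 2 + 1) + 2 * rho ≤ Len
  closure : ∀ w : List L, w.length ≤ Len → ∀ v, evalW aV w v = v → ∀ y, evalW aY w y = y
  A : Finset V
  sep : ∀ a ∈ A, ∀ b ∈ A, a ≠ b → 2 * rho ≤ wd aV T a b
  cov : ∀ v, ∃ a ∈ A, wd aV T v a < 2 * rho

namespace Setup

variable {L V Y : Type} (S : Setup L V Y)

/-- The action on the total space. -/
def aZ (l : L) (z : V × Y) : V × Y := (S.aV l z.1, S.aY l z.2)

/-- Word metric on `V`. -/
noncomputable def DV (u v : V) : ℕ := wd S.aV S.T u v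

/-- Word metric on `V × Y`. -/
noncomputable def DZ (x y : V × Y) : ℕ := wd S.aZ S.T x y

/-- The points of the piece. -/
abbrev Pt := (V × Y) ⊕ {a // a ∈ S.A}

/-- Projection to `V`. -/
def pi : S.Pt → V
  | Sum.inl x => x.1
  | Sum.inr a => a.1

/-- The distance of the piece. -/
noncomputable def dP : S.Pt → S.Pt → ℕ
  | Sum.inl x, Sum.inl y => min (S.DZ x y) (2 * S.rho + S.DV x.1 y.1)
  | Sum.inl x, Sum.inr a => S.rho + S.DV x.1 a.1
  | Sum.inr a, Sum.inl x => S.rho + S.DV x.1 a.1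
  | Sum.inr a, Sum.inr b => S.DV a.1 b.1

lemma T_pos : 0 < S.T := by have := S.hT; omega

lemma DV_comm (u v : V) : S.DV u v = S.DV v u := wd_comm S.aV_inv u v

lemma DV_self (u : V) : S.DV u u = 0 := wd_self u

lemma DV_tri (u v w : V) : S.DV u w ≤ S.DV u v + S.DV v w := wd_triangle u v w

lemma DV_le_T (u v : V) : S.DV u v ≤ S.T := wd_le_T u v

lemma aZ_inv (l : L) (z : V × Y) : S.aZ (S.inv l) (S.aZ l z) = z := by
  simp [aZ, S.aV_inv, S.aY_inv]

lemma DZ_comm (x y : V × Y) : S.DZ x y = S.DZ y x := wd_comm S.aZ_inv x y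

lemma DZ_self (x : V × Y) : S.DZ x x = 0 := wd_self x

lemma DZ_tri (x y z : V × Y) : S.DZ x z ≤ S.DZ x y + S.DZ y z := wd_triangle x y z

lemma DZ_le_T (x y : V × Y) : S.DZ x y ≤ S.T := wd_le_T x y

lemma DV_le_DZ (x y : V × Y) : S.DV x.1 y.1 ≤ S.DZ x y :=
  wd_map_le (π := Prod.fst) (fun _ _ => rfl) x y

lemma dP_comm (x y : S.Pt) : S.dP x y = S.dP y x := by
  rcases x with x | a <;> rcases y with y | b <;> simp only [dP]
  · rw [S.DZ_comm x y, S.DV_comm x.1 y.1]
  · rw [S.DV_comm a.1 b.1]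

lemma dP_self (x : S.Pt) : S.dP x x = 0 := by
  rcases x with x | a <;> simp [dP, DZ_self, DV_self]

lemma eq_of_dP_eq_zero {x y : S.Pt} (h : S.dP x y = 0) : x = y := by
  have hρ := S.rho_pos
  rcases x with x | a <;> rcases y with y | b <;> simp only [dP] at h
  · have h1 : S.DZ x y = 0 := by omega
    rw [eq_of_wd_eq_zero S.T_pos h1]
  · omega
  · omega
  · have : a.1 = b.1 := eq_of_wd_eq_zero S.T_pos h
    rw [Subtype.ext this]

lemma dP_tri (x y z : S.Pt) : S.dP x z ≤ S.dP x y + S.dP y z := by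
  rcases x with x | a <;> rcases y with y | b <;> rcases z with z | c <;> simp only [dP]
  · have h1 := S.DZ_tri x y z
    have h2 := S.DV_tri x.1 y.1 z.1
    have h3 := S.DV_le_DZ x y
    have h4 := S.DV_le_DZ y z
    omega
  · have h2 := S.DV_tri x.1 y.1 c.1
    have h3 := S.DV_le_DZ x y
    omega
  · have h2 := S.DV_tri x.1 b.1 z.1
    have h3 := S.DV_comm b.1 z.1
    omega
  · have h2 := S.DV_tri x.1 b.1 c.1
    omega
  · have h2 := S.DV_tri z.1 y.1 a.1
    have h3 := S.DV_comm y.1 z.1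
    have h4 := S.DV_le_DZ y z
    omega
  · have h2 := S.DV_tri a.1 y.1 c.1
    have h3 := S.DV_comm a.1 y.1
    omega
  · have h2 := S.DV_tri z.1 b.1 a.1
    have h3 := S.DV_comm a.1 b.1
    omega
  · exact S.DV_tri _ _ _

/-- The upper bound for distances. -/
def D : ℕ := 2 * S.rho + S.T

lemma dP_le (x y : S.Pt) : S.dP x y ≤ S.D := by
  have h := S.rho_pos
  unfold D
  rcases x with x | a <;> rcases y with y | b <;> simp only [dP]
  · have := S.DV_le_T x.1 y.1
    omega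
  · have := S.DV_le_T x.1 b.1
    omega
  · have := S.DV_le_T y.1 a.1
    omega
  · have := S.DV_le_T a.1 b.1
    omega

lemma D_pos : 1 ≤ S.D := by
  have := S.rho_pos
  unfold D
  omega

lemma DV_pi_le_dP (x y : S.Pt) : S.DV (S.pi x) (S.pi y) ≤ S.dP x y := by
  have hρ := S.rho_pos
  rcases x with x | a <;> rcases y with y | b <;> simp only [dP, pi]
  · have := S.DV_le_DZ x y
    omega
  · omega
  · have := S.DV_comm a.1 y.1
    omega
  · exact le_rfl

/-- Two points at `dP`-distance below `2ρ` over `V × Y` are joined by a short word. -/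
lemma DZ_lt_of_dP_lt {x y : V × Y} (h : S.dP (Sum.inl x) (Sum.inl y) < 2 * S.rho) :
    S.DZ x y < 2 * S.rho := by
  simp only [dP] at h
  omega

/-- A hub is at distance below `3ρ` from a point at `DV`-distance below `2ρ`. -/
lemma dP_hub_lt {x : V × Y} {a : {a // a ∈ S.A}} (h : S.DV x.1 a.1 < 2 * S.rho) :
    S.dP (Sum.inl x) (Sum.inr a) ≤ 3 * S.rho := by
  simp only [dP]
  omega

lemma dP_letter (l : L) (x : V × Y) : S.dP (Sum.inl (S.aZ l x)) (Sum.inl x) ≤ 1 := by
  simp only [dP]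
  have : S.DZ x (S.aZ l x) ≤ 1 := wd_letter l x
  have h2 := S.DZ_comm x (S.aZ l x)
  omega

end Setup

end Vale.Agent.Lib.P090
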