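import Vale.Agent.Lib.P090.Closure

/-!
# Transfer of the uniform Poincaré inequality to the base and the components.
-/

set_option linter.unusedSectionVars false

namespace Vale.Agent.Lib.P090

open Finset

/-- The uniform `ℓ¹` Poincaré inequality for `SL₃(ℤ/pqr)` with constant `K`. -/
def KazhdanBound (K : ℝ) : Prop :=
  ∀ (p q r : ℕ) [Fact p.Prime] [Fact q.Prime] [Fact r.Prime],
    p ≠ q → p ≠ r → q ≠ r → ∀ u : SL3 (ZMod p) × SL3 (ZMod q) × SL3 (ZMod r) → ℝ,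
    ∑ g, |u g - (∑ g', u g') / Fintype.card (SL3 (ZMod p) × SL3 (ZMod q) × SL3 (ZMod r))| ≤
      K * √((∑ s : Gen, ∑ g, |u ((gen (ZMod p) s, gen (ZMod q) s, gen (ZMod r) s) * g) - u g|) *
        ∑ g, |u g|)

section

variable {p : ℕ} [Fact p.Prime] {H : Type} [Group H] [Fintype H] (φ : Bool → SL3 (ZMod p) →* H)
  (P : PrimeChain)

lemma sum_iota (k : ℕ) (F : P.TY → ℝ) :
    ∑ g, F (P.iota k g).1 = ∑ y ∈ P.C k, F y := by
  rw [← Finset.sum_coe_sort (P.C k) F]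
  exact Equiv.sum_comp (P.iota k) (fun y => F y.1)

lemma orbit_sum (b : Bool) (A : H → ℝ) :
    ∑ v₀, ∑ g, A (φ b g * v₀) = (Fintype.card (SL3 (ZMod p)) : ℝ) * ∑ v, A v := by
  rw [Finset.sum_comm]
  have : ∀ g : SL3 (ZMod p), ∑ v₀, A (φ b g * v₀) = ∑ v, A v := fun g =>
    Equiv.sum_comp (Equiv.mulLeft (φ b g)) A
  simp only [this, sum_const, card_univ, nsmul_eq_mul]

lemma sum3 {α β γ : Type} [Fintype α] [Fintype β] [Fintype γ] (f : α × β × γ → ℝ) :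
    ∑ x, f x = ∑ a, ∑ b, ∑ c, f (a, b, c) := by
  rw [Fintype.sum_prod_type]
  refine sum_congr rfl (fun a _ => ?_)
  rw [Fintype.sum_prod_type]

/-- The basic change of variables. -/
lemma lift_sum (b : Bool) (n k : ℕ) (F : H → P.TY → P.TY → ℝ) :
    ∑ v₀, ∑ x : SL3 (ZMod p) × SL3 (ZMod (P.q n)) × SL3 (ZMod (P.q k)),
        F (φ b x.1 * v₀) (P.iota n x.2.1).1 (P.iota k x.2.2).1
      = (Fintype.card (SL3 (ZMod p)) : ℝ) * ∑ v, ∑ y₀ ∈ P.C n, ∑ y ∈ P.C k, F v y₀ y := by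
  rw [← orbit_sum φ b (fun v => ∑ y₀ ∈ P.C n, ∑ y ∈ P.C k, F v y₀ y)]
  refine sum_congr rfl (fun v₀ _ => ?_)
  rw [sum3]
  refine sum_congr rfl (fun g _ => ?_)
  simp only
  rw [← sum_iota P n]
  refine sum_congr rfl (fun g₁ _ => ?_)
  rw [← sum_iota P k]

/-- The function on the product group attached to a base point. -/
noncomputable def wFun (b : Bool) (n k : ℕ) (u : H → P.TY → P.TY → ℝ) (v₀ : H)
    (x : SL3 (ZMod p) × SL3 (ZMod (P.q n)) × SL3 (ZMod (P.q k))) : ℝ :=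
  u (φ b x.1 * v₀) (P.iota n x.2.1).1 (P.iota k x.2.2).1

lemma wFun_invariant (b : Bool) (n k : ℕ) (u : H → P.TY → P.TY → ℝ) (g : SL3 (ZMod p)) (v : H) :
    ∑ x, wFun φ P b n k u (φ b g * v) x = ∑ x, wFun φ P b n k u v x := by
  have e : ∀ x : SL3 (ZMod p) × SL3 (ZMod (P.q n)) × SL3 (ZMod (P.q k)),
      wFun φ P b n k u (φ b g * v) x
        = wFun φ P b n k u v ((Equiv.prodCongr (Equiv.mulRight g) (Equiv.refl _)) x) := by
    intro x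
    simp only [wFun, Equiv.prodCongr_apply, Prod.map_fst, Prod.map_snd, Equiv.coe_mulRight,
      Equiv.refl_apply, map_mul, mul_assoc]
  simp only [e]
  exact Equiv.sum_comp (Equiv.prodCongr (Equiv.mulRight g) (Equiv.refl _)) (wFun φ P b n k u v)

lemma wFun_M_sum (b : Bool) (n k : ℕ) (u : H → P.TY → P.TY → ℝ) :
    ∑ v₀, ∑ x, |wFun φ P b n k u v₀ x|
      = (Fintype.card (SL3 (ZMod p)) : ℝ) * ∑ v, ∑ y₀ ∈ P.C n, ∑ y ∈ P.C k, |u v y₀ y| :=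
  lift_sum φ P b n k (fun v y₀ y => |u v y₀ y|)

lemma wFun_letter (b : Bool) {n k : ℕ} (hn : n % 2 = b.toNat) (hk : k % 2 = b.toNat)
    (u : H → P.TY → P.TY → ℝ) (s : Gen) (v₀ : H)
    (x : SL3 (ZMod p) × SL3 (ZMod (P.q n)) × SL3 (ZMod (P.q k))) :
    wFun φ P b n k u v₀ ((gen (ZMod p) s, gen (ZMod (P.q n)) s, gen (ZMod (P.q k)) s) * x)
      = u (aH φ (b, s) (φ b x.1 * v₀)) (P.aY (b, s) (P.iota n x.2.1).1)
          (P.aY (b, s) (P.iota k x.2.2).1) := by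
  obtain ⟨g, g₁, g₂⟩ := x
  simp only [wFun, Prod.mk_mul_mk, map_mul, aH, mul_assoc]
  rw [P.aY_iota s hn, P.aY_iota s hk]

lemma wFun_G_sum (b : Bool) {n k : ℕ} (hn : n % 2 = b.toNat) (hk : k % 2 = b.toNat)
    (u : H → P.TY → P.TY → ℝ) (s : Gen) :
    ∑ v₀, ∑ x, |wFun φ P b n k u v₀ ((gen (ZMod p) s, gen (ZMod (P.q n)) s, gen (ZMod (P.q k)) s) * x)
        - wFun φ P b n k u v₀ x|
      = (Fintype.card (SL3 (ZMod p)) : ℝ) * ∑ v, ∑ y₀ ∈ P.C n, ∑ y ∈ P.C k,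
          |u (aH φ (b, s) v) (P.aY (b, s) y₀) (P.aY (b, s) y) - u v y₀ y| := by
  rw [← lift_sum φ P b n k (fun v y₀ y =>
      |u (aH φ (b, s) v) (P.aY (b, s) y₀) (P.aY (b, s) y) - u v y₀ y|)]
  refine sum_congr rfl (fun v₀ _ => sum_congr rfl (fun x _ => ?_))
  rw [wFun_letter φ P b hn hk]
  rfl

lemma wFun_L_sum (b : Bool) (n k : ℕ) (u : H → P.TY → P.TY → ℝ) (ub : H → ℝ)
    (hinv : ∀ g v, ub (φ b g * v) = ub v) :
    ∑ v₀, ∑ x, |wFun φ P b n k u v₀ x - ub v₀|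
      = (Fintype.card (SL3 (ZMod p)) : ℝ) * ∑ v, ∑ y₀ ∈ P.C n, ∑ y ∈ P.C k, |u v y₀ y - ub v| := by
  rw [← lift_sum φ P b n k (fun v y₀ y => |u v y₀ y - ub v|)]
  refine sum_congr rfl (fun v₀ _ => sum_congr rfl (fun x _ => ?_))
  simp only [wFun, hinv]

lemma cs_final {ι : Type} [Fintype ι] (L₀ Γ₀ M₀ : ι → ℝ) {K A Γ Ms L : ℝ}
    (hΓ₀0 : ∀ i, 0 ≤ Γ₀ i) (hM₀0 : ∀ i, 0 ≤ M₀ i)
    (hloc : ∀ i, L₀ i ≤ K * √(Γ₀ i * M₀ i))
    (hΓsum : ∑ i, Γ₀ i = A * Γ) (hMsum : ∑ i, M₀ i = A * Ms) (hLsum : ∑ i, L₀ i = A * L)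
    (hA : 0 < A) (hΓ0 : 0 ≤ Γ) (hMs0 : 0 ≤ Ms) (hK0 : 0 ≤ K) : L ≤ K * √(Γ * Ms) := by
  have hCS : ∑ i, √(Γ₀ i) * √(M₀ i) ≤ A * √(Γ * Ms) := by
    refine (Real.sum_sqrt_mul_sqrt_le univ hΓ₀0 hM₀0).trans (le_of_eq ?_)
    rw [hΓsum, hMsum, ← Real.sqrt_mul (mul_nonneg hA.le hΓ0)]
    have : A * Γ * (A * Ms) = (A * A) * (Γ * Ms) := by ring
    rw [this, Real.sqrt_mul (mul_nonneg hA.le hA.le), Real.sqrt_mul_self hA.le]
  have hfinal : A * L ≤ A * (K * √(Γ * Ms)) := by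
    rw [← hLsum]
    calc _ ≤ ∑ i, K * (√(Γ₀ i) * √(M₀ i)) := sum_le_sum fun i _ => by
          rw [← Real.sqrt_mul (hΓ₀0 i)]
          exact hloc i
      _ = K * ∑ i, √(Γ₀ i) * √(M₀ i) := by rw [mul_sum]
      _ ≤ K * (A * √(Γ * Ms)) := mul_le_mul_of_nonneg_left hCS hK0
      _ = _ := by ring
  exact le_of_mul_le_mul_left hfinal hA

theorem poincare3 {K : ℝ} (hK0 : 0 ≤ K) (hK : KazhdanBound K) (b : Bool) {n k : ℕ}
    (hn : n % 2 = b.toNat) (hk : k % 2 = b.toNat)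
    (hpn : p ≠ P.q n) (hpk : p ≠ P.q k) (hnk : P.q n ≠ P.q k) (u : H → P.TY → P.TY → ℝ) :
    ∃ ub : H → ℝ, (∀ g v, ub (φ b g * v) = ub v) ∧
      ∑ v, ∑ y₀ ∈ P.C n, ∑ y ∈ P.C k, |u v y₀ y - ub v| ≤ K *
        √((∑ s : Gen, ∑ v, ∑ y₀ ∈ P.C n, ∑ y ∈ P.C k,
            |u (aH φ (b, s) v) (P.aY (b, s) y₀) (P.aY (b, s) y) - u v y₀ y|) *
          ∑ v, ∑ y₀ ∈ P.C n, ∑ y ∈ P.C k, |u v y₀ y|) := by
  classical
  let ub : H → ℝ := fun v₀ => (∑ x, wFun φ P b n k u v₀ x) /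
    (Fintype.card (SL3 (ZMod p) × SL3 (ZMod (P.q n)) × SL3 (ZMod (P.q k))) : ℝ)
  have hinv : ∀ g v, ub (φ b g * v) = ub v := by
    intro g v
    simp only [ub]
    rw [wFun_invariant]
  refine ⟨ub, hinv, ?_⟩
  have hApos : (0 : ℝ) < (Fintype.card (SL3 (ZMod p)) : ℝ) := by
    exact_mod_cast Fintype.card_pos
  apply cs_final
    (fun v₀ => ∑ x, |wFun φ P b n k u v₀ x - ub v₀|)
    (fun v₀ => ∑ s : Gen, ∑ x, |wFun φ P b n k u v₀
      ((gen (ZMod p) s, gen (ZMod (P.q n)) s, gen (ZMod (P.q k)) s) * x) - wFun φ P b n k u v₀ x|)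
    (fun v₀ => ∑ x, |wFun φ P b n k u v₀ x|)
    (A := (Fintype.card (SL3 (ZMod p)) : ℝ))
  · exact fun v => sum_nonneg fun _ _ => sum_nonneg fun _ _ => abs_nonneg _
  · exact fun v => sum_nonneg fun _ _ => abs_nonneg _
  · intro v₀
    exact hK p (P.q n) (P.q k) hpn hpk hnk (wFun φ P b n k u v₀)
  · rw [Finset.sum_comm, mul_sum]
    exact sum_congr rfl (fun s _ => wFun_G_sum φ P b hn hk u s)
  · exact wFun_M_sum φ P b n k u
  · exact wFun_L_sum φ P b n k u ub hinv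
  · exact hApos
  · exact sum_nonneg fun _ _ => sum_nonneg fun _ _ => sum_nonneg fun _ _ =>
      sum_nonneg fun _ _ => abs_nonneg _
  · exact sum_nonneg fun _ _ => sum_nonneg fun _ _ => sum_nonneg fun _ _ => abs_nonneg _
  · exact hK0

/-- The deviation bound for functions of two coordinates. -/
lemma poincare2_dev {K : ℝ} (hK0 : 0 ≤ K) (hK : KazhdanBound K) (b : Bool) {n k : ℕ}
    (hn : n % 2 = b.toNat) (hk : k % 2 = b.toNat)
    (hpn : p ≠ P.q n) (hpk : p ≠ P.q k) (hnk : P.q n ≠ P.q k) (u : H → P.TY → ℝ) :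
    ∃ ub : H → ℝ, (∀ g v, ub (φ b g * v) = ub v) ∧
      ∑ v, ∑ y₀ ∈ P.C n, |u v y₀ - ub v| ≤ K *
        √((∑ s : Gen, ∑ v, ∑ y₀ ∈ P.C n, |u (aH φ (b, s) v) (P.aY (b, s) y₀) - u v y₀|) *
          ∑ v, ∑ y₀ ∈ P.C n, |u v y₀|) := by
  obtain ⟨ub, hinv, hb⟩ := poincare3 φ P hK0 hK b hn hk hpn hpk hnk (fun v y₀ _ => u v y₀)
  refine ⟨ub, hinv, ?_⟩
  set c : ℝ := ((P.C k).card : ℝ) with hc
  have hcpos : 0 < c := by
    rw [hc, P.card_C]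
    exact_mod_cast nSL_pos (P.two_le k)
  have e1 : ∑ v, ∑ y₀ ∈ P.C n, ∑ _y ∈ P.C k, |u v y₀ - ub v|
      = c * ∑ v, ∑ y₀ ∈ P.C n, |u v y₀ - ub v| := by
    simp only [sum_const, nsmul_eq_mul, mul_sum, hc]
  have e2 : ∑ s : Gen, ∑ v, ∑ y₀ ∈ P.C n, ∑ _y ∈ P.C k,
        |u (aH φ (b, s) v) (P.aY (b, s) y₀) - u v y₀|
      = c * ∑ s : Gen, ∑ v, ∑ y₀ ∈ P.C n, |u (aH φ (b, s) v) (P.aY (b, s) y₀) - u v y₀| := by
    simp only [sum_const, nsmul_eq_mul, mul_sum, hc]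
  have e3 : ∑ v, ∑ y₀ ∈ P.C n, ∑ _y ∈ P.C k, |u v y₀| = c * ∑ v, ∑ y₀ ∈ P.C n, |u v y₀| := by
    simp only [sum_const, nsmul_eq_mul, mul_sum, hc]
  rw [e1, e2, e3] at hb
  set Γ : ℝ := ∑ s : Gen, ∑ v, ∑ y₀ ∈ P.C n, |u (aH φ (b, s) v) (P.aY (b, s) y₀) - u v y₀| with hΓ
  set Ms : ℝ := ∑ v, ∑ y₀ ∈ P.C n, |u v y₀| with hMs
  have e4 : c * Γ * (c * Ms) = (c * c) * (Γ * Ms) := by ring
  rw [e4, Real.sqrt_mul (mul_nonneg hcpos.le hcpos.le), Real.sqrt_mul_self hcpos.le] at hb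
  have e5 : K * (c * √(Γ * Ms)) = c * (K * √(Γ * Ms)) := by ring
  rw [e5] at hb
  exact le_of_mul_le_mul_left hb hcpos

/-- The Poincaré inequality for functions vanishing outside a small subset of the base. -/
theorem poincare2 {K : ℝ} (hK0 : 0 ≤ K) (hK : KazhdanBound K) (b : Bool) {n k : ℕ}
    (hn : n % 2 = b.toNat) (hk : k % 2 = b.toNat)
    (hpn : p ≠ P.q n) (hpk : p ≠ P.q k) (hnk : P.q n ≠ P.q k) (u : H → P.TY → ℝ)
    (hφ : Function.Injective (φ b)) [DecidableEq H] (Ball : Finset H)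
    (hBall : 2 * Ball.card ≤ Fintype.card (SL3 (ZMod p))) (hu : ∀ v y₀, v ∉ Ball → u v y₀ = 0) :
    ∑ v, ∑ y₀ ∈ P.C n, |u v y₀| ≤ (3 * K) *
      √((∑ s : Gen, ∑ v, ∑ y₀ ∈ P.C n, |u (aH φ (b, s) v) (P.aY (b, s) y₀) - u v y₀|) *
        ∑ v, ∑ y₀ ∈ P.C n, |u v y₀|) := by
  obtain ⟨ub, hinv, hb⟩ := poincare2_dev φ P hK0 hK b hn hk hpn hpk hnk u
  set Z : ℝ := ∑ v, ∑ y₀ ∈ P.C n, |u v y₀ - ub v| with hZ
  set R : ℝ := √((∑ s : Gen, ∑ v, ∑ y₀ ∈ P.C n, |u (aH φ (b, s) v) (P.aY (b, s) y₀) - u v y₀|) *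
        ∑ v, ∑ y₀ ∈ P.C n, |u v y₀|) with hR
  set G : ℝ := (Fintype.card (SL3 (ZMod p)) : ℝ) with hG
  have hGpos : 0 < G := by
    rw [hG]
    exact_mod_cast Fintype.card_pos
  set c : ℝ := ((P.C n).card : ℝ) with hc
  have hc0 : 0 ≤ c := Nat.cast_nonneg _
  -- counting the zeros in each orbit
  have horbit : ∀ v₀, (G / 2) * (c * |ub v₀|) ≤ ∑ g : SL3 (ZMod p), ∑ y₀ ∈ P.C n,
      |u (φ b g * v₀) y₀ - ub (φ b g * v₀)| := by
    intro v₀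
    classical
    set Zs : Finset (SL3 (ZMod p)) := univ.filter (fun g => φ b g * v₀ ∉ Ball) with hZs
    have hcard : Fintype.card (SL3 (ZMod p)) ≤ 2 * Zs.card := by
      have h1 : (univ.filter (fun g : SL3 (ZMod p) => φ b g * v₀ ∈ Ball)).card ≤ Ball.card := by
        apply Finset.card_le_card_of_injOn (fun g => φ b g * v₀)
        · intro g hg
          exact (mem_filter.mp hg).2
        · intro g _ g' _ h
          exact hφ (mul_right_cancel h)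
      have h2 := Finset.card_filter_add_card_filter_not (s := (univ : Finset (SL3 (ZMod p))))
        (fun g => φ b g * v₀ ∈ Ball)
      rw [card_univ] at h2
      simp only [hZs]
      omega
    have hcard' : G / 2 ≤ (Zs.card : ℝ) := by
      have : (Fintype.card (SL3 (ZMod p)) : ℝ) ≤ 2 * (Zs.card : ℝ) := by exact_mod_cast hcard
      rw [hG]
      linarith
    have h3 : ∀ g ∈ Zs, c * |ub v₀| = ∑ y₀ ∈ P.C n, |u (φ b g * v₀) y₀ - ub (φ b g * v₀)| := by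
      intro g hg
      have hg' := (mem_filter.mp hg).2
      simp only [hu _ _ hg', hinv, zero_sub, abs_neg, sum_const, nsmul_eq_mul, hc]
    calc (G / 2) * (c * |ub v₀|) ≤ (Zs.card : ℝ) * (c * |ub v₀|) := by
          apply mul_le_mul_of_nonneg_right hcard' (mul_nonneg hc0 (abs_nonneg _))
      _ = ∑ g ∈ Zs, c * |ub v₀| := by rw [sum_const, nsmul_eq_mul]
      _ = ∑ g ∈ Zs, ∑ y₀ ∈ P.C n, |u (φ b g * v₀) y₀ - ub (φ b g * v₀)| := sum_congr rfl h3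
      _ ≤ _ := sum_le_sum_of_subset_of_nonneg (subset_univ _)
          (fun _ _ _ => sum_nonneg fun _ _ => abs_nonneg _)
  have hsum : (G / 2) * (c * ∑ v, |ub v|) ≤ G * Z := by
    have h1 := sum_le_sum (fun v₀ (_ : v₀ ∈ (univ : Finset H)) => horbit v₀)
    rw [orbit_sum φ b (fun v => ∑ y₀ ∈ P.C n, |u v y₀ - ub v|), ← mul_sum, ← mul_sum] at h1
    exact h1
  have hsum' : c * ∑ v, |ub v| ≤ 2 * Z := by
    have h1 : G * (c * ∑ v, |ub v|) ≤ G * (2 * Z) := by linarith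
    exact le_of_mul_le_mul_left h1 hGpos
  have hmain : ∑ v, ∑ y₀ ∈ P.C n, |u v y₀| ≤ Z + c * ∑ v, |ub v| := by
    rw [hZ, mul_sum, ← sum_add_distrib]
    refine sum_le_sum fun v _ => ?_
    have : c * |ub v| = ∑ _y₀ ∈ P.C n, |ub v| := by
      rw [sum_const, nsmul_eq_mul]
    rw [this, ← sum_add_distrib]
    refine sum_le_sum fun y₀ _ => ?_
    have h1 : u v y₀ = (u v y₀ - ub v) + ub v := by ring
    calc |u v y₀| = |(u v y₀ - ub v) + ub v| := by rw [← h1]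
      _ ≤ _ := abs_add_le _ _
  calc _ ≤ Z + 2 * Z := hmain.trans (by linarith)
    _ = 3 * Z := by ring
    _ ≤ 3 * (K * R) := by linarith
    _ = _ := by ring

end

end Vale.Agent.Lib.P090
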