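import Vale.Agent.Lib.P090.CardSL

/-!
# The tower of components: the fibre `Y` with its two families of components.
-/

namespace Vale.Agent.Lib.P090

open Finset

/-- A sequence of primes growing geometrically, with bounded ratio. -/
structure PrimeChain where
  q : ℕ → ℕ
  prime : ∀ k, (q k).Prime
  grow : ∀ k, 2 * q k ≤ q (k + 1)
  upper : ∀ k, q (k + 1) ≤ 4 * q k

namespace PrimeChain

variable (P : PrimeChain)

instance instFact (k : ℕ) : Fact (P.q k).Prime := ⟨P.prime k⟩

lemma two_le (k : ℕ) : 2 ≤ P.q k := (P.prime k).two_le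

/-- The sizes of the levels. -/
def tt : ℕ → ℕ
  | 0 => nSL (P.q 0)
  | k + 1 => nSL (P.q (k + 1)) - tt k

lemma tt_zero : P.tt 0 = nSL (P.q 0) := rfl

lemma tt_succ (k : ℕ) : P.tt (k + 1) = nSL (P.q (k + 1)) - P.tt k := rfl

lemma tt_le (k : ℕ) : P.tt k ≤ nSL (P.q k) := by
  cases k with
  | zero => exact le_rfl
  | succ k => exact Nat.sub_le _ _

lemma nSL_succ (k : ℕ) : 8 * nSL (P.q k) ≤ nSL (P.q (k + 1)) := nSL_growth (P.grow k)

lemma tt_succ_ge (k : ℕ) : 7 * nSL (P.q k) ≤ P.tt (k + 1) := by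
  rw [tt_succ]
  have h1 := P.tt_le k
  have h2 := P.nSL_succ k
  omega

lemma doubling (k : ℕ) : 2 * P.tt k ≤ P.tt (k + 1) := by
  have h1 := P.tt_le k
  have h2 := P.tt_succ_ge k
  omega

lemma tt_pos (k : ℕ) : 0 < P.tt k := by
  cases k with
  | zero => exact nSL_pos (P.two_le 0)
  | succ k =>
    have h1 := P.tt_succ_ge k
    have h2 := nSL_pos (P.two_le k)
    omega

lemma nSL_le_two_tt (k : ℕ) : nSL (P.q k) ≤ 2 * P.tt k := by
  cases k with
  | zero =>
    rw [tt_zero]
    omega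
  | succ k =>
    rw [tt_succ]
    have h1 := P.tt_le k
    have h2 := P.nSL_succ k
    have h3 := nSL_pos (P.two_le k)
    omega

/-- The fibre: pairs (level, index). -/
abbrev TY := {y : ℕ × ℕ // y.2 < P.tt y.1}

/-- The `k`-th level. -/
def J (k : ℕ) : Finset P.TY := Finset.subtype _ (({k} : Finset ℕ) ×ˢ range (P.tt k))

lemma mem_J (k : ℕ) (y : P.TY) : y ∈ P.J k ↔ y.1.1 = k := by
  unfold J
  rw [Finset.mem_subtype, mem_product, mem_singleton, mem_range]
  constructor
  · exact fun h => h.1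
  · intro h
    refine ⟨h, ?_⟩
    rw [← h]
    exact y.2

lemma card_J (k : ℕ) : (P.J k).card = P.tt k := by
  unfold J
  rw [Finset.card_subtype, filter_true_of_mem]
  · simp
  · intro x hx
    rw [mem_product, mem_singleton, mem_range] at hx
    rw [hx.1]
    exact hx.2

/-- The `k`-th component. -/
def C : ℕ → Finset P.TY
  | 0 => P.J 0
  | k + 1 => P.J (k + 1) ∪ P.J k

lemma mem_C (k : ℕ) (y : P.TY) : y ∈ P.C k ↔ y.1.1 = k ∨ y.1.1 + 1 = k := by
  cases k with
  | zero =>
    simp only [C]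
    rw [P.mem_J]
    omega
  | succ k =>
    simp only [C]
    rw [mem_union, P.mem_J, P.mem_J]
    omega

lemma card_C (k : ℕ) : (P.C k).card = nSL (P.q k) := by
  cases k with
  | zero =>
    simp only [C]
    rw [P.card_J, tt_zero]
  | succ k =>
    simp only [C]
    rw [card_union_of_disjoint, P.card_J, P.card_J, tt_succ]
    · have h1 := P.tt_le k
      have h2 := P.nSL_succ k
      omega
    · rw [Finset.disjoint_left]
      intro y h1 h2
      rw [P.mem_J] at h1 h2
      omega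

lemma ratio (k : ℕ) : 2 * (P.C k).card + (P.C (k + 1)).card ≤ 524292 * (P.J k).card := by
  rw [P.card_C, P.card_C, P.card_J]
  have h1 := nSL_upper (P.two_le k) (P.upper k)
  have h2 := P.nSL_le_two_tt k
  norm_num at h1
  omega

/-- The identification of the `k`-th component with `SL₃(𝔽_{q_k})`. -/
noncomputable def iota (k : ℕ) : SL3 (ZMod (P.q k)) ≃ {y // y ∈ P.C k} :=
  Fintype.equivOfCardEq (by
    rw [Fintype.card_coe, P.card_C, card_SL3_eq]
    rfl)

/-- The component of the given parity through a point. -/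
def cIdx (b : Bool) (y : P.TY) : ℕ := if y.1.1 % 2 = b.toNat then y.1.1 else y.1.1 + 1

lemma mem_C_cIdx (b : Bool) (y : P.TY) : y ∈ P.C (P.cIdx b y) := by
  rw [P.mem_C]
  unfold cIdx
  split_ifs <;> simp

lemma cIdx_par (b : Bool) (y : P.TY) : P.cIdx b y % 2 = b.toNat := by
  unfold cIdx
  split_ifs with h
  · exact h
  · cases b <;> simp at h ⊢ <;> omega

lemma cIdx_of_mem {b : Bool} {y : P.TY} {k : ℕ} (h : y ∈ P.C k) (hk : k % 2 = b.toNat) :
    P.cIdx b y = k := by
  rw [P.mem_C] at h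
  unfold cIdx
  split_ifs with h2 <;> cases b <;> simp at h2 hk <;> omega

/-- The action of a letter on the fibre. -/
noncomputable def aY (l : Bool × Gen) (y : P.TY) : P.TY :=
  (P.iota (P.cIdx l.1 y) (gen _ l.2 * (P.iota (P.cIdx l.1 y)).symm ⟨y, P.mem_C_cIdx l.1 y⟩)).1

lemma aY_eq {b : Bool} (s : Gen) {y : P.TY} {k : ℕ} (hm : y ∈ P.C k) (hk : P.cIdx b y = k) :
    P.aY (b, s) y = (P.iota k (gen _ s * (P.iota k).symm ⟨y, hm⟩)).1 := by
  subst hk
  rfl

/-- In the coordinates of a component of the right parity a letter acts by multiplication. -/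
lemma aY_iota {b : Bool} (s : Gen) {k : ℕ} (hk : k % 2 = b.toNat) (g : SL3 (ZMod (P.q k))) :
    P.aY (b, s) (P.iota k g).1 = (P.iota k (gen _ s * g)).1 := by
  rw [P.aY_eq s (P.iota k g).2 (P.cIdx_of_mem (P.iota k g).2 hk)]
  simp

lemma aY_inv (l : Bool × Gen) (y : P.TY) : P.aY (l.1, l.2.inv) (P.aY l y) = y := by
  obtain ⟨b, s⟩ := l
  set k := P.cIdx b y with hk
  have hm : y ∈ P.C k := P.mem_C_cIdx b y
  have hp : k % 2 = b.toNat := P.cIdx_par b y
  obtain ⟨g, hg⟩ := (P.iota k).surjective ⟨y, hm⟩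
  have hy : y = (P.iota k g).1 := by rw [hg]
  rw [hy, P.aY_iota s hp, P.aY_iota s.inv hp, ← mul_assoc, gen_inv_mul, one_mul]

lemma level_aY (l : Bool × Gen) (y : P.TY) : (P.aY l y).1.1 ≤ y.1.1 + 1 := by
  obtain ⟨b, s⟩ := l
  set k := P.cIdx b y with hk
  have hm : y ∈ P.C k := P.mem_C_cIdx b y
  have hp : k % 2 = b.toNat := P.cIdx_par b y
  obtain ⟨g, hg⟩ := (P.iota k).surjective ⟨y, hm⟩
  have hy : y = (P.iota k g).1 := by rw [hg]
  have h1 : P.aY (b, s) y ∈ P.C k := by
    rw [hy, P.aY_iota s hp]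
    exact (P.iota k _).2
  rw [P.mem_C] at h1 hm
  omega

end PrimeChain

end Vale.Agent.Lib.P090
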